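import Vale.Agent.P083.Heis

/-!
The star algebra of bounded sequences of operators modulo null sequences.
-/

namespace Vale.Agent.P083

noncomputable section

open Filter Topology

variable {V : ℕ → Type} [∀ n, NormedAddCommGroup (V n)] [∀ n, InnerProductSpace ℂ (V n)]
  [∀ n, CompleteSpace (V n)]

variable (V) in
/-- Bounded sequences of operators. -/
def bdd : StarSubalgebra ℂ (∀ n, V n →L[ℂ] V n) where
  carrier := {f | ∃ C : ℝ, ∀ n, ‖f n‖ ≤ C}
  mul_mem' := by
    rintro f g ⟨C, hC⟩ ⟨D, hD⟩
    exact ⟨|C| * |D|, fun n => (norm_mul_le _ _).trans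
      (mul_le_mul ((hC n).trans (le_abs_self C)) ((hD n).trans (le_abs_self D))
        (norm_nonneg _) (abs_nonneg _))⟩
  one_mem' := ⟨1, fun n => by
    rw [Pi.one_apply]
    exact ContinuousLinearMap.norm_id_le⟩
  add_mem' := by
    rintro f g ⟨C, hC⟩ ⟨D, hD⟩
    exact ⟨C + D, fun n => (norm_add_le _ _).trans (add_le_add (hC n) (hD n))⟩
  zero_mem' := ⟨0, fun n => by simp⟩
  algebraMap_mem' r := ⟨‖r‖, fun n => by
    rw [Pi.algebraMap_apply, Algebra.algebraMap_eq_smul_one, norm_smul]
    exact mul_le_of_le_one_right (norm_nonneg r) ContinuousLinearMap.norm_id_le⟩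
  star_mem' := by
    rintro f ⟨C, hC⟩
    exact ⟨C, fun n => by rw [Pi.star_apply, norm_star]; exact hC n⟩

variable (V) in
/-- Null sequences. -/
def nullI : Ideal (bdd V) where
  carrier := {f | Tendsto (fun n => ‖f.1 n‖) atTop (𝓝 0)}
  add_mem' := by
    intro f g hf hg
    refine squeeze_zero (fun n => norm_nonneg _) (fun n => norm_add_le _ _) ?_
    simpa using hf.add hg
  zero_mem' := by simp
  smul_mem' := by
    intro c f hf
    obtain ⟨C, hC⟩ := c.2
    refine squeeze_zero (fun n => norm_nonneg _) (fun n => ?_) (by simpa using hf.const_mul C)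
    exact (norm_mul_le _ _).trans (mul_le_mul_of_nonneg_right (hC n) (norm_nonneg _))

instance : (nullI V).IsTwoSided := ⟨by
  intro f c hf
  obtain ⟨C, hC⟩ := c.2
  refine squeeze_zero (fun n => norm_nonneg _) (fun n => ?_)
    (by simpa using Filter.Tendsto.mul_const C hf)
  exact (norm_mul_le _ _).trans (mul_le_mul_of_nonneg_left (hC n) (norm_nonneg _))⟩

variable (V) in
/-- Bounded sequences modulo null sequences. -/
abbrev Asym := bdd V ⧸ nullI V

/-- The class of a bounded sequence. -/
def cl (f : bdd V) : Asym V := Ideal.Quotient.mk _ f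

theorem cl_eq_iff (f g : bdd V) :
    cl f = cl g ↔ Tendsto (fun n => ‖f.1 n - g.1 n‖) atTop (𝓝 0) := Ideal.Quotient.eq

theorem star_wd {f g : bdd V} (h : cl f = cl g) : cl (star f) = cl (star g) := by
  rw [cl_eq_iff] at h ⊢
  refine h.congr fun n => ?_
  rw [show (star f : bdd V).1 n - (star g : bdd V).1 n = star (f.1 n - g.1 n) by
    rw [star_sub]; rfl, norm_star]

instance : Star (Asym V) :=
  ⟨fun a => Quotient.liftOn' a (fun f => cl (star f)) fun f g h => star_wd (Quotient.sound' h)⟩

theorem star_cl (f : bdd V) : star (cl f) = cl (star f) := rfl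

theorem cl_surjective : Function.Surjective (cl : bdd V → Asym V) :=
  Ideal.Quotient.mk_surjective

instance : StarRing (Asym V) where
  star_involutive a := by
    obtain ⟨f, rfl⟩ := cl_surjective a
    rw [star_cl, star_cl, star_star]
  star_mul a b := by
    obtain ⟨f, rfl⟩ := cl_surjective a
    obtain ⟨g, rfl⟩ := cl_surjective b
    rw [show cl f * cl g = cl (f * g) from rfl, star_cl, star_mul, star_cl, star_cl]
    rfl
  star_add a b := by
    obtain ⟨f, rfl⟩ := cl_surjective a
    obtain ⟨g, rfl⟩ := cl_surjective b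
    rw [show cl f + cl g = cl (f + g) from rfl, star_cl, star_add, star_cl, star_cl]
    rfl

instance : StarModule ℂ (Asym V) where
  star_smul c a := by
    obtain ⟨f, rfl⟩ := cl_surjective a
    rw [show c • cl f = cl (c • f) from rfl, star_cl, star_smul, star_cl]
    rfl

end

end Vale.Agent.P083
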