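import Vale.Agent.P083.Step

/-!
Almost invariant vectors in every dual representation.
-/

namespace Vale.Agent.P083

noncomputable section

theorem sum_str_one {α M : Type*} [Fintype α] [AddCommMonoid M] (f : (Fin 1 → α) → M) :
    ∑ ξ, f ξ = ∑ i : α, f (fun _ => i) :=
  (Equiv.funUnique (Fin 1) α).symm.sum_comp f |>.symm

/-- The starting vector shape. -/
def mkBase {α E : Type} [DecidableEq α] [Zero α] [Zero E] (f : α → E) :
    PiLp 2 (fun _ : Fin 1 → α => E) :=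
  WithLp.toLp 2 fun ξ => if ξ 0 = 0 then 0 else f (ξ 0)

theorem mkBase_apply {α E : Type} [DecidableEq α] [Zero α] [Zero E] (f : α → E)
    (ξ : Fin 1 → α) : mkBase f ξ = if ξ 0 = 0 then 0 else f (ξ 0) := rfl

theorem base_norm {α E : Type} [Fintype α] [DecidableEq α] [Zero α] [NormedAddCommGroup E]
    (f : α → E) : ‖mkBase f‖ ^ 2 = ∑ i, ‖f i‖ ^ 2 - ‖f 0‖ ^ 2 := by
  rw [PiLp.norm_sq_eq_of_L2, sum_str_one]
  simp only [mkBase_apply]
  rw [eq_sub_iff_add_eq, ← Finset.sum_erase_add _ _ (Finset.mem_univ (0 : α)),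
    ← Finset.sum_erase_add (Finset.univ : Finset α) (fun i => ‖f i‖ ^ 2) (Finset.mem_univ 0)]
  simp only [if_true, norm_zero]
  rw [zero_pow two_ne_zero, add_zero]
  congr 1
  exact Finset.sum_congr rfl fun i hi => by rw [if_neg (Finset.ne_of_mem_erase hi)]

theorem qperm_one (g : Fin 4) (ξ : Str 1) : qperm g ξ 0 = move0 g (ξ 0) 0 := by
  fin_cases g <;> simp [qperm, act, move0, next]

theorem move0_eq_zero (g : Fin 4) (i : Letter) : move0 g i 0 = 0 ↔ i = 0 := by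
  have h := supp_qperm (n := 0) g (fun _ => i)
  have e : qperm g (fun _ : Fin 1 => i) (Fin.last 0) = move0 g i 0 := qperm_one g _
  simp only [Supp, e] at h
  exact not_iff_not.1 h

variable {H : Type} [NormedAddCommGroup H] [InnerProductSpace ℂ H] [CompleteSpace H]

theorem base_point (A : Letter → H →L[ℂ] H) (Y : H →L[ℂ] H) (g : Fin 4) (x : H) (ξ : Str 1)
    (B : ℝ) (hB0 : 0 ≤ B)
    (hB : ∀ i, ‖phase0 g i • Y (A i x) - A (move0 g i 0) x‖ ≤ B) :
    ‖phase g ξ • Y (mkBase (fun i => A i x) ξ) - mkBase (fun i => A i x) (qperm g ξ)‖ ≤ B := by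
  rw [mkBase_apply, mkBase_apply, qperm_one]
  have hp : phase g ξ = phase0 g (ξ 0) := by simp [phase, phase0, chr]
  by_cases h : ξ 0 = 0
  · rw [if_pos h, if_pos ((move0_eq_zero g _).2 h)]
    simpa using hB0
  · rw [if_neg h, if_neg (fun h' => h ((move0_eq_zero g _).1 h')), hp]
    exact hB _

theorem sum_const_sq {α : Type*} [Fintype α] (F : (Fin 1 → α) → ℝ) (B : ℝ) (hF0 : ∀ ξ, 0 ≤ F ξ)
    (hF : ∀ ξ, F ξ ≤ B) : ∑ ξ, F ξ ^ 2 ≤ Fintype.card α * B ^ 2 := by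
  rw [sum_str_one]
  calc ∑ i : α, F (fun _ => i) ^ 2 ≤ ∑ _i : α, B ^ 2 :=
        Finset.sum_le_sum fun i _ => pow_le_pow_left₀ (hF0 _) (hF _) 2
    _ = _ := by simp

theorem base_spec {δ : ℝ} (hδ0 : 0 ≤ δ) (hδ : δ ≤ 1 / 16) {T : Tup (H →L[ℂ] H)} (hT : Near δ T)
    (h : H) (hh : ‖h‖ = 1) :
    ∃ v : Vec 0 H, v ∈ suppSub (H := H) 0 ∧ 1 / 2 ≤ ‖v‖ ∧
      ∀ g, ‖zop 0 T.Y g v - v‖ ≤ 2 ^ 27 * δ := by
  have hδ1 : δ ≤ 1 := by linarith
  set x := T.W h with hx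
  have hW : ‖T.W‖ ≤ 2 := norm_le_two hδ1 (hT .isomW)
  have hx2 : ‖x‖ ≤ 2 := by simpa [hh] using ContinuousLinearMap.le_of_opNorm_le _ hW h
  have hxsq : 1 - δ ≤ ‖x‖ ^ 2 := by
    have e : ‖x‖ ^ 2 - ‖h‖ ^ 2 = (inner ℂ h ((star T.W * T.W - 1) h)).re := by
      rw [sub_apply, mul_apply_eq_comp, inner_sub_right, ContinuousLinearMap.star_eq_adjoint,
        ContinuousLinearMap.adjoint_inner_right, one_apply_eq_self, Complex.sub_re, ← hx]
      exact congrArg₂ (· - ·) (inner_self_eq_norm_sq (𝕜 := ℂ) x).symm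
        (inner_self_eq_norm_sq (𝕜 := ℂ) h).symm
    have hb : |(inner ℂ h ((star T.W * T.W - 1) h)).re| ≤ δ := by
      refine (Complex.abs_re_le_norm _).trans ((norm_inner_le_norm _ _).trans ?_)
      have := ContinuousLinearMap.le_of_opNorm_le _ (hT .isomW) h
      simpa [hh, dev] using this
    rw [hh] at e
    linarith [(abs_le.1 hb).1]
  have hfix : ∀ g, ‖T.Y g x - x‖ ≤ δ := fun g => by
    have := ContinuousLinearMap.le_of_opNorm_le _ (hT (.fixW g)) h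
    simpa [hh, dev, hx] using this
  refine ⟨mkBase (fun i => top T i x), ?_, ?_, fun g => ?_⟩
  · intro ξ hξ
    rw [mkBase_apply, if_pos]
    by_contra h0
    exact hξ h0
  · have h1 := (sum_norm_top_bounds hT x).1
    have h2 := norm_top_zero_sq hδ0 hT x
    have h3 : 1 / 4 ≤ ‖mkBase (fun i => top T i x)‖ ^ 2 := by
      rw [base_norm (fun i => top T i x)]
      have e1 : 1 / 4 ≤ (1 - δ - (2 / 4913 + δ)) * ‖x‖ ^ 2 := by
        calc (1 : ℝ) / 4 ≤ (1 - δ - (2 / 4913 + δ)) * (1 - δ) := by nlinarith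
          _ ≤ _ := by gcongr; linarith
      linarith
    exact (pow_le_pow_iff_left₀ (by norm_num) (norm_nonneg _) two_ne_zero).1 (by linarith)
  · have hpt : ∀ ξ : Str 1, ‖phase g ξ • T.Y g (mkBase (fun i => top T i x) ξ)
        - mkBase (fun i => top T i x) (qperm g ξ)‖ ≤ 2 ^ 20 * δ := by
      intro ξ
      refine base_point (top T) (T.Y g) g x ξ _ (by positivity) fun i => ?_
      refine (point_error hδ1 hT g i 0 x x (fun _ => rfl)).trans ?_
      have e2 : ‖chr 0 • T.Y 3 x - x‖ ≤ δ := by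
        rw [chr_zero, one_smul]
        exact hfix 3
      have e3 : (if g = 3 then 0 else ‖T.Y g x - x‖) ≤ δ := by
        split_ifs
        · exact hδ0
        · exact hfix g
      have e4 : (if g = 2 then ‖chr 0 • T.Y 3 x - x‖ else 0) ≤ δ := by
        split_ifs
        · exact e2
        · exact hδ0
      have e5 : δ * ‖x‖ ≤ δ * 2 := mul_le_mul_of_nonneg_left hx2 hδ0
      linarith
    have hsq : ∑ ξ, ‖phase g ξ • T.Y g (mkBase (fun i => top T i x) ξ)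
        - mkBase (fun i => top T i x) (qperm g ξ)‖ ^ 2 ≤ (2 ^ 27 * δ) ^ 2 := by
      refine (sum_const_sq _ _ (fun ξ => norm_nonneg _) hpt).trans ?_
      rw [card_letter]
      push_cast
      nlinarith [sq_nonneg δ]
    rw [← norm_zop_sub_sq] at hsq
    exact (pow_le_pow_iff_left₀ (norm_nonneg _) (by positivity) two_ne_zero).1 hsq

omit [CompleteSpace H] in
theorem renorm {n : ℕ} (Z : Fin 4 → (Vec n H →L[ℂ] Vec n H)) (W : Submodule ℂ (Vec n H))
    (w : Vec n H) (hw : w ∈ W) (h2 : 1 / 2 ≤ ‖w‖) (B : ℝ) (hB : ∀ g, ‖Z g w - w‖ ≤ B) :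
    ∃ v ∈ W, ‖v‖ = 1 ∧ ∀ g, ‖Z g v - v‖ ≤ 2 * B := by
  have hne : ‖w‖ ≠ 0 := by linarith
  refine ⟨(‖w‖⁻¹ : ℂ) • w, W.smul_mem _ hw, ?_, fun g => ?_⟩
  · simp [norm_smul, hne]
  · rw [map_smul, ← smul_sub, norm_smul, norm_inv, Complex.norm_real, norm_norm]
    have h3 : ‖w‖⁻¹ ≤ 2 := by
      rw [inv_le_comm₀ (by linarith) two_pos]
      linarith
    exact mul_le_mul h3 (hB g) (norm_nonneg _) two_pos.le

/-- Almost invariant vectors exist at every length, with one threshold. -/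
theorem exists_chain (η : ℝ) (hη : 0 < η) : ∃ δ : ℝ, 0 < δ ∧
    ∀ (H : Type) [NormedAddCommGroup H] [InnerProductSpace ℂ H] [CompleteSpace H]
      (T : Tup (H →L[ℂ] H)), Near δ T → ∀ h : H, ‖h‖ = 1 →
      ∀ n, ∃ v : Vec n H, v ∈ suppSub (H := H) n ∧ ‖v‖ = 1 ∧ ∀ g, ‖zop n T.Y g v - v‖ ≤ η := by
  obtain ⟨K0, hK0, hsnap⟩ := snap
  set η' : ℝ := min η (1 / (2 ^ 34 * (K0 + 1))) with hη'd
  have hη'0 : 0 < η' := lt_min hη (by positivity)
  have hη'K : η' * (2 ^ 34 * (K0 + 1)) ≤ 1 := by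
    rw [← le_div_iff₀ (by positivity)]
    exact min_le_right _ _
  obtain ⟨δ1, hδ1, hs⟩ := hsnap (η' / 2) (by linarith)
  set δ : ℝ := min δ1 (min η' (1 / 16)) with hδd
  have hδ0 : 0 < δ := lt_min hδ1 (lt_min hη'0 (by norm_num))
  have hδη : δ ≤ η' := (min_le_right _ _).trans (min_le_left _ _)
  have hδ16 : δ ≤ 1 / 16 := (min_le_right _ _).trans (min_le_right _ _)
  refine ⟨δ, hδ0, fun H _ _ _ T hT h hh => ?_⟩
  have hfinish : ∀ n (v : Vec n H), v ∈ suppSub (H := H) n → 1 / 2 ≤ ‖v‖ →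
      (∀ g, ‖zop n T.Y g v - v‖ ≤ 2 ^ 27 * (η' + δ)) →
      ∃ u : Vec n H, u ∈ suppSub (H := H) n ∧ ‖u‖ = 1 ∧ ∀ g, ‖zop n T.Y g u - u‖ ≤ η' := by
    intro n v hv hv2 hB
    obtain ⟨u, hu, hu1, huB⟩ := renorm (zop n T.Y) _ v hv hv2 _ hB
    have hZ : Near4 δ1 (zop n T.Y) :=
      near4_zop n hδ1.le T.Y (fun g => by
        have hd : δ ≤ δ1 := min_le_left _ _
        obtain ⟨a, b, c, d⟩ := hT.near4 g
        exact ⟨a.trans hd, b.trans hd, c.trans hd,
          fun k => ⟨(d k).1.trans hd, (d k).2.trans hd⟩⟩)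
    obtain ⟨w, hw, hwu, hwB⟩ := hs _ (zop n T.Y) hZ (suppSub (H := H) n)
      (fun g x hx => zop_mem n T.Y g x hx) u hu hu1.le
    have hw2 : 1 / 2 ≤ ‖w‖ := by
      have h1 : ∑ g, ‖zop n T.Y g u - u‖ ≤ 4 * (2 * (2 ^ 27 * (η' + δ))) := by
        rw [Fin.sum_univ_four]
        linarith [huB 0, huB 1, huB 2, huB 3]
      have h2 : K0 * ∑ g, ‖zop n T.Y g u - u‖ ≤ K0 * (2 ^ 31 * η') :=
        mul_le_mul_of_nonneg_left (by linarith) hK0
      have h3 : ‖u‖ - ‖w - u‖ ≤ ‖w‖ := by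
        have := norm_sub_norm_le u w
        rw [norm_sub_rev] at this
        linarith
      have h4 : K0 * (2 ^ 31 * η') + η' / 2 ≤ 1 / 2 := by nlinarith
      linarith
    obtain ⟨z, hz, hz1, hzB⟩ := renorm (zop n T.Y) _ w hw hw2 _ hwB
    exact ⟨z, hz, hz1, fun g => by linarith [hzB g]⟩
  have main : ∀ n, ∃ v : Vec n H, v ∈ suppSub (H := H) n ∧ ‖v‖ = 1 ∧
      ∀ g, ‖zop n T.Y g v - v‖ ≤ η' := by
    intro n
    induction n with
    | zero =>
      obtain ⟨v, hv, hv2, hB⟩ := base_spec hδ0.le hδ16 hT h hh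
      exact hfinish 0 v hv hv2 fun g => (hB g).trans (by linarith)
    | succ n ih =>
      obtain ⟨v, hv, hv1, hB⟩ := ih
      obtain ⟨h1, h2, -, h4⟩ := lift1_spec hδ0.le (by linarith) hT v hv hv1 hB
      refine hfinish (n + 1) (lift1 T v) h1 ?_ h4
      exact (pow_le_pow_iff_left₀ (by norm_num) (norm_nonneg _) two_ne_zero).1
        (show (1 / 2 : ℝ) ^ 2 ≤ _ by linarith)
  intro n
  obtain ⟨v, hv, hv1, hB⟩ := main n
  exact ⟨v, hv, hv1, fun g => (hB g).trans (min_le_left _ _)⟩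

end

end Vale.Agent.P083
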