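import Vale.Agent.P083.Defs

/-!
Every finite tuple in an algebra generated by a Cuntz pair factors approximately through
matrices.
-/

namespace Vale.Agent.P083

noncomputable section

open Finset

namespace Cuntz

variable {B : Type*} [CStarAlgebra B] (s : Fin 2 → B)

/-- The product along a word. -/
def word : List (Fin 2) → B
  | [] => 1
  | i :: l => s i * word l

/-- A matrix unit. -/
def unitOf (p : List (Fin 2) × List (Fin 2)) : B := word s p.1 * star (word s p.2)

theorem word_append (p q : List (Fin 2)) : word s (p ++ q) = word s p * word s q := by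
  induction p with
  | nil => simp [word]
  | cons i p ih => simp [word, ih, mul_assoc]

/-- The words of one length. -/
def words : ℕ → Finset (List (Fin 2))
  | 0 => {[]}
  | n + 1 => (Finset.univ ×ˢ words n).image fun p => p.1 :: p.2

theorem mem_words {n : ℕ} {l : List (Fin 2)} : l ∈ words n ↔ l.length = n := by
  induction n generalizing l with
  | zero => simp [words]
  | succ n ih =>
    cases l with
    | nil => simp [words]
    | cons i l => simp [words, ih]

/-- The words with length in an interval. -/
def window (a b : ℕ) : Finset (List (Fin 2)) := (Finset.Ico a b).biUnion words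

theorem mem_window {a b : ℕ} {l : List (Fin 2)} :
    l ∈ window a b ↔ a ≤ l.length ∧ l.length < b := by
  simp [window, mem_words]

variable {s}
variable (hs : ∀ i, star (s i) * s i = 1) (hsum : ∑ i, s i * star (s i) = 1)

include hs hsum in
theorem orth (i j : Fin 2) : star (s i) * s j = if i = j then 1 else 0 := by
  split_ifs with h
  · rw [h, hs]
  · have hsum' : s i * star (s i) + s j * star (s j) = 1 := by
      rw [← hsum, Fin.sum_univ_two]
      obtain ⟨rfl, rfl⟩ | ⟨rfl, rfl⟩ : (i = 0 ∧ j = 1) ∨ (i = 1 ∧ j = 0) := by omega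
      · rfl
      · exact add_comm _ _
    set x := star (s i) * s j with hx
    have e1 : star x * x = 0 := by
      have := congrArg (fun z => star (s j) * z * s j) hsum'
      simp only [mul_one, mul_add, add_mul] at this
      have e2 : star (s j) * (s j * star (s j)) * s j = 1 := by
        rw [← mul_assoc (star (s j)), hs, one_mul, hs]
      rw [e2, hs, add_eq_right] at this
      rw [hx, star_mul, star_star]
      rw [← this]
      simp only [mul_assoc]
    exact CStarRing.star_mul_self_eq_zero_iff x |>.1 e1

include hs in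
theorem star_word_mul_word (p : List (Fin 2)) : star (word s p) * word s p = 1 := by
  induction p with
  | nil => simp [word]
  | cons i p ih =>
    rw [word, star_mul, mul_assoc, ← mul_assoc (star (s i)), hs, one_mul, ih]

include hs hsum in
/-- A short word cancels into a long one. -/
theorem star_word_mul (ν q : List (Fin 2)) (h : ν.length ≤ q.length) :
    star (word s ν) * word s q =
      if q.take ν.length = ν then word s (q.drop ν.length) else 0 := by
  induction ν generalizing q with
  | nil => simp [word]
  | cons i ν ih =>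
    cases q with
    | nil => simp at h
    | cons j q =>
      simp only [List.length_cons, Nat.add_le_add_iff_right] at h
      have e : star (word s (i :: ν)) * word s (j :: q)
          = star (word s ν) * (star (s i) * s j) * word s q := by
        simp [word, mul_assoc]
      rw [e, orth hs hsum]
      by_cases hij : i = j
      · subst hij
        simp [ih q h]
      · simp [hij, Ne.symm hij]

include hs hsum in
/-- The product of two matrix units is in their span. -/
theorem star_word_mul_mem (ν q : List (Fin 2)) :
    star (word s ν) * word s q ∈ Submodule.span ℂ (Set.range (unitOf s)) := by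
  rcases le_total ν.length q.length with h | h
  · rw [star_word_mul hs hsum ν q h]
    split_ifs
    · exact Submodule.subset_span ⟨(q.drop ν.length, []), by simp [unitOf, word]⟩
    · exact Submodule.zero_mem _
  · have e : star (word s ν) * word s q = star (star (word s q) * word s ν) := by
      rw [star_mul, star_star]
    rw [e, star_word_mul hs hsum q ν h]
    split_ifs
    · exact Submodule.subset_span ⟨([], ν.drop q.length), by simp [unitOf, word]⟩
    · simp

include hs hsum in
theorem mul_mem_span {x z : B} (hx : x ∈ Submodule.span ℂ (Set.range (unitOf s)))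
    (hz : z ∈ Submodule.span ℂ (Set.range (unitOf s))) :
    x * z ∈ Submodule.span ℂ (Set.range (unitOf s)) := by
  induction hx using Submodule.span_induction with
  | mem x hx =>
    obtain ⟨⟨p, q⟩, rfl⟩ := hx
    induction hz using Submodule.span_induction with
    | mem z hz =>
      obtain ⟨⟨p', q'⟩, rfl⟩ := hz
      have key : ∀ m ∈ Submodule.span ℂ (Set.range (unitOf s)),
          word s p * m * star (word s q') ∈ Submodule.span ℂ (Set.range (unitOf s)) := by
        intro m hm
        induction hm using Submodule.span_induction with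
        | mem m hm =>
          obtain ⟨⟨a, b⟩, rfl⟩ := hm
          exact Submodule.subset_span ⟨(p ++ a, q' ++ b), by
            simp [unitOf, word_append, mul_assoc]⟩
        | zero => simp
        | add a b _ _ ha hb => rw [mul_add, add_mul]; exact Submodule.add_mem _ ha hb
        | smul c a _ ha => rw [mul_smul_comm, smul_mul_assoc]; exact Submodule.smul_mem _ c ha
      have e : unitOf s (p, q) * unitOf s (p', q')
          = word s p * (star (word s q) * word s p') * star (word s q') := by
        simp only [unitOf, mul_assoc]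
      rw [e]
      exact key _ (star_word_mul_mem hs hsum q p')
    | zero => simp
    | add a b _ _ ha hb => rw [mul_add]; exact Submodule.add_mem _ ha hb
    | smul c a _ ha => rw [mul_smul_comm]; exact Submodule.smul_mem _ c ha
  | zero => simp
  | add a b _ _ ha hb => rw [add_mul]; exact Submodule.add_mem _ ha hb
  | smul c a _ ha => rw [smul_mul_assoc]; exact Submodule.smul_mem _ c ha

include hs hsum in
theorem adjoin_subset_span {x : B} (hx : x ∈ StarAlgebra.adjoin ℂ (Set.range s)) :
    x ∈ Submodule.span ℂ (Set.range (unitOf s)) := by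
  induction hx using StarAlgebra.adjoin_induction with
  | mem x hx =>
    obtain ⟨i, rfl⟩ := hx
    exact Submodule.subset_span ⟨([i], []), by simp [unitOf, word]⟩
  | algebraMap r =>
    rw [Algebra.algebraMap_eq_smul_one]
    exact Submodule.smul_mem _ r (Submodule.subset_span ⟨([], []), by simp [unitOf, word]⟩)
  | add a b _ _ ha hb => exact Submodule.add_mem _ ha hb
  | mul a b _ _ ha hb => exact mul_mem_span hs hsum ha hb
  | star a ha0 ha =>
    clear ha0
    induction ha using Submodule.span_induction with
    | mem a ha =>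
      obtain ⟨⟨p, q⟩, rfl⟩ := ha
      exact Submodule.subset_span ⟨(q, p), by simp [unitOf]⟩
    | zero => simp
    | add a b _ _ ha hb => rw [star_add]; exact Submodule.add_mem _ ha hb
    | smul c a _ ha => rw [star_smul]; exact Submodule.smul_mem _ _ ha

include hsum in
theorem sum_words (n : ℕ) : ∑ l ∈ words n, word s l * star (word s l) = 1 := by
  induction n with
  | zero => simp [words, word]
  | succ n ih =>
    rw [words, Finset.sum_image (fun a _ b _ h => by simpa [Prod.ext_iff] using h),
      Finset.sum_product]
    have : ∀ i, ∑ l ∈ words n, word s (i :: l) * star (word s (i :: l)) = s i * star (s i) := by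
      intro i
      simp only [word, star_mul]
      rw [Finset.sum_congr rfl fun l _ =>
        show s i * word s l * (star (word s l) * star (s i))
          = s i * (word s l * star (word s l)) * star (s i) by simp only [mul_assoc]]
      rw [← Finset.sum_mul, ← Finset.mul_sum, ih, mul_one]
    simp only [this, hsum]

include hsum in
theorem sum_window (μ ν : List (Fin 2)) (a b : ℕ) :
    ∑ κ ∈ window a b, unitOf s (μ ++ κ, ν ++ κ) = ((b - a : ℕ) : ℂ) • unitOf s (μ, ν) := by
  rw [window, Finset.sum_biUnion]
  · have : ∀ n, ∑ κ ∈ words n, unitOf s (μ ++ κ, ν ++ κ) = unitOf s (μ, ν) := by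
      intro n
      simp only [unitOf, word_append, star_mul]
      rw [Finset.sum_congr rfl fun l _ =>
        show word s μ * word s l * (star (word s l) * star (word s ν))
          = word s μ * (word s l * star (word s l)) * star (word s ν) by simp only [mul_assoc]]
      rw [← Finset.sum_mul, ← Finset.mul_sum, sum_words hsum, mul_one]
    simp only [this, Finset.sum_const, Nat.card_Ico]
    rw [← Nat.cast_smul_eq_nsmul ℂ]
  · intro m _ n _ hmn
    simp only [Function.onFun, Finset.disjoint_left, mem_words]
    intro l h1 h2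
    exact hmn (h1.symm.trans h2)

/-- The shared tail of a matrix unit at two words. -/
def Tail (μ ν α β : List (Fin 2)) : Prop :=
  α.take μ.length = μ ∧ β.take ν.length = ν ∧ α.drop μ.length = β.drop ν.length

instance (μ ν α β : List (Fin 2)) : Decidable (Tail μ ν α β) := by
  unfold Tail; infer_instance

/-- The marker that separates all short words. -/
def marker (N : ℕ) : List (Fin 2) := 1 :: List.replicate N 0

theorem marker_inj {N : ℕ} {κ κ' r : List (Fin 2)} (h : κ.length ≤ κ'.length)
    (hN : κ'.length ≤ κ.length + N) (e : κ' ++ marker N = κ ++ marker N ++ r) : κ' = κ := by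
  rcases h.eq_or_lt with h | h
  · rw [List.append_assoc] at e
    exact (List.append_inj e h.symm).1
  · have h1 : (κ' ++ marker N)[κ'.length]? = some 1 := by
      rw [List.getElem?_append_right le_rfl]; simp [marker]
    have h2 : (κ ++ marker N ++ r)[κ'.length]? = some 0 := by
      rw [List.getElem?_append_left (by simp [marker]; omega),
        List.getElem?_append_right h.le]
      obtain ⟨d, hd⟩ : ∃ d, κ'.length - κ.length = d + 1 :=
        ⟨κ'.length - κ.length - 1, by omega⟩
      simp [marker, hd, List.getElem?_replicate]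
      omega
    rw [e, h2] at h1
    simp at h1

include hs hsum in
theorem marker_orth {N : ℕ} (κ κ' : List (Fin 2)) (h1 : κ'.length ≤ κ.length + N)
    (h2 : κ.length ≤ κ'.length + N) :
    star (word s (κ ++ marker N)) * word s (κ' ++ marker N) = if κ = κ' then 1 else 0 := by
  split_ifs with h
  · rw [h, star_word_mul_word hs]
  · rcases le_total κ.length κ'.length with hl | hl
    · rw [star_word_mul hs hsum _ _ (by simp; omega), if_neg]
      intro he
      apply h
      refine (marker_inj hl h1 (r := (κ' ++ marker N).drop (κ ++ marker N).length) ?_).symm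
      conv_lhs => rw [← List.take_append_drop (κ ++ marker N).length (κ' ++ marker N), he]
    · have e : star (word s (κ ++ marker N)) * word s (κ' ++ marker N)
          = star (star (word s (κ' ++ marker N)) * word s (κ ++ marker N)) := by
        rw [star_mul, star_star]
      rw [e, star_word_mul hs hsum _ _ (by simp; omega), if_neg, star_zero]
      intro he
      apply h
      refine marker_inj hl h2 (r := (κ ++ marker N).drop (κ' ++ marker N).length) ?_
      conv_lhs => rw [← List.take_append_drop (κ' ++ marker N).length (κ ++ marker N), he]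

include hs hsum in
/-- Matrix units act as scalars between the marked words. -/
theorem sandwich {D K : ℕ} (μ ν α β : List (Fin 2)) (hμ : μ.length ≤ D) (hν : ν.length ≤ D)
    (hα : α ∈ window D (D + K)) (hβ : β ∈ window D (D + K)) :
    star (word s (α ++ marker (D + K))) * unitOf s (μ, ν) * word s (β ++ marker (D + K))
      = (if Tail μ ν α β then 1 else 0 : ℂ) • (1 : B) := by
  rw [mem_window] at hα hβ
  have e : ∀ a b : B, star (word s (α ++ marker (D + K))) * (a * b) * word s (β ++ marker (D + K))
      = star (star a * word s (α ++ marker (D + K))) * (b * word s (β ++ marker (D + K))) := by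
    intro a b
    rw [star_mul, star_star]
    simp only [mul_assoc]
  rw [unitOf, e]
  dsimp only
  rw [star_word_mul hs hsum _ _ (by simp; omega),
    star_word_mul hs hsum _ _ (by simp; omega),
    List.take_append_of_le_length (by omega), List.take_append_of_le_length (by omega),
    List.drop_append_of_le_length (by omega), List.drop_append_of_le_length (by omega)]
  unfold Tail
  by_cases ha : α.take μ.length = μ
  · by_cases hb : β.take ν.length = ν
    · simp only [ha, hb, if_true, true_and]
      rw [marker_orth hs hsum _ _ (by simp; omega) (by simp; omega)]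
      split_ifs <;> simp
    · simp [hb]
  · simp [ha]

include hsum in
/-- Averaging over the window recovers the matrix unit. -/
theorem sum_tail {D K : ℕ} (μ ν : List (Fin 2)) :
    ∑ α ∈ window D (D + K), ∑ β ∈ window D (D + K),
        (if Tail μ ν α β then 1 else 0 : ℂ) • unitOf s (α, β)
      = ((D + K - max μ.length ν.length - (D - min μ.length ν.length) : ℕ) : ℂ)
          • unitOf s (μ, ν) := by
  rw [← sum_window hsum μ ν, ← Finset.sum_product']
  simp only [ite_smul, one_smul, zero_smul]
  rw [← Finset.sum_filter]
  refine Finset.sum_nbij' (fun p => p.1.drop μ.length) (fun κ => (μ ++ κ, ν ++ κ)) ?_ ?_ ?_ ?_ ?_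
  · intro p hp
    simp only [Finset.mem_filter, Finset.mem_product, mem_window] at hp
    obtain ⟨⟨hα, hβ⟩, h1, h2, h3⟩ := hp
    have l1 : μ.length ≤ p.1.length := by
      have := congrArg List.length h1; simp at this; omega
    have l2 : ν.length ≤ p.2.length := by
      have := congrArg List.length h2; simp at this; omega
    have l3 := congrArg List.length h3
    simp only [List.length_drop] at l3
    simp only [mem_window, List.length_drop]
    omega
  · intro κ hκ
    simp only [mem_window] at hκ
    refine Finset.mem_filter.2 ⟨?_, ?_⟩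
    · simp only [Finset.mem_product, mem_window, List.length_append]
      omega
    · simp [Tail]
  · intro p hp
    simp only [Finset.mem_filter] at hp
    obtain ⟨-, h1, h2, h3⟩ := hp
    apply Prod.ext
    · show μ ++ p.1.drop μ.length = p.1
      conv_rhs => rw [← List.take_append_drop μ.length p.1, h1]
    · show ν ++ p.1.drop μ.length = p.2
      conv_rhs => rw [← List.take_append_drop ν.length p.2, h2, ← h3]
  · intro κ _
    simp
  · intro p hp
    simp only [Finset.mem_filter] at hp
    obtain ⟨-, h1, h2, h3⟩ := hp
    congr 1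
    apply Prod.ext
    · show p.1 = μ ++ p.1.drop μ.length
      conv_lhs => rw [← List.take_append_drop μ.length p.1, h1]
    · show p.2 = ν ++ p.1.drop μ.length
      conv_lhs => rw [← List.take_append_drop ν.length p.2, h2, ← h3]

include hs in
theorem norm_unitOf_le [Nontrivial B] (p : List (Fin 2) × List (Fin 2)) :
    ‖unitOf s p‖ ≤ 1 := by
  have h : ∀ q, ‖word s q‖ = 1 := by
    intro q
    have := CStarRing.norm_star_mul_self (x := word s q)
    rw [star_word_mul_word hs, norm_one] at this
    nlinarith [norm_nonneg (word s q)]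
  refine (norm_mul_le _ _).trans ?_
  rw [norm_star, h, h, mul_one]

include hs hsum in
/-- Orthogonal isometries send coefficients to scalars. -/
theorem marked_comb {D K : ℕ} (u v : ↥(window D (D + K)) → ℂ) :
    star (∑ β, v β • word s (β.1 ++ marker (D + K))) * (∑ β, u β • word s (β.1 ++ marker (D + K)))
      = (∑ β, star (v β) * u β) • (1 : B) := by
  simp only [star_sum, star_smul, Finset.sum_mul, Finset.mul_sum, smul_mul_assoc, mul_smul_comm,
    Finset.sum_smul]
  refine Finset.sum_congr rfl fun α _ => ?_
  rw [Finset.sum_eq_single α]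
  · rw [star_word_mul_word hs, smul_smul, mul_comm]
  · intro β _ hne
    have hα := mem_window.1 α.2
    have hβ := mem_window.1 β.2
    rw [marker_orth hs hsum _ _ (by omega) (by omega),
      if_neg (fun h => hne (Subtype.ext h)), smul_zero]
  · simp

include hs hsum in
theorem norm_comb [Nontrivial B] {D K : ℕ} (u : ↥(window D (D + K)) → ℂ) :
    ‖∑ β, u β • word s (β.1 ++ marker (D + K))‖ ^ 2 = ∑ β, ‖u β‖ ^ 2 := by
  rw [sq, ← CStarRing.norm_star_mul_self, marked_comb hs hsum]
  have e : ∑ β, star (u β) * u β = ((∑ β, ‖u β‖ ^ 2 : ℝ) : ℂ) := by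
    push_cast
    refine Finset.sum_congr rfl fun β _ => ?_
    rw [Complex.star_def, Complex.conj_mul']
  rw [e, norm_smul, norm_one, mul_one, Complex.norm_real, Real.norm_of_nonneg]
  exact Finset.sum_nonneg fun β _ => sq_nonneg _

include hsum in
/-- The average of the scalar parts. -/
theorem average {D K : ℕ} (P : Finset (List (Fin 2) × List (Fin 2)))
    (f : List (Fin 2) × List (Fin 2) → ℂ) :
    ∑ α : ↥(window D (D + K)), ∑ β : ↥(window D (D + K)),
        (∑ p ∈ P, f p * (if Tail p.1 p.2 α.1 β.1 then 1 else 0)) •
          ((K : ℂ)⁻¹ • unitOf s (α.1, β.1))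
      = ∑ p ∈ P, (f p * ((K : ℂ)⁻¹ * ((D + K - max p.1.length p.2.length
          - (D - min p.1.length p.2.length) : ℕ) : ℂ))) • unitOf s p := by
  simp only [Finset.sum_smul]
  rw [Finset.sum_congr rfl fun α _ => Finset.sum_comm, Finset.sum_comm]
  refine Finset.sum_congr rfl fun p _ => ?_
  rw [← smul_smul (f p), ← smul_smul (K : ℂ)⁻¹, ← sum_tail hsum (D := D) (K := K) p.1 p.2]
  simp only [Finset.smul_sum, smul_smul]
  rw [← Finset.sum_coe_sort (window D (D + K))]
  refine Finset.sum_congr rfl fun α _ => ?_
  rw [← Finset.sum_coe_sort (window D (D + K))]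
  refine Finset.sum_congr rfl fun β _ => ?_
  congr 1
  ring

include hs in
/-- What the averaging loses. -/
theorem loss [Nontrivial B] {D K : ℕ} (hK : D < K) (P : Finset (List (Fin 2) × List (Fin 2)))
    (f : List (Fin 2) × List (Fin 2) → ℂ) (hP : ∀ p ∈ P, p.1.length ≤ D ∧ p.2.length ≤ D) :
    ‖(∑ p ∈ P, f p • unitOf s p) - ∑ p ∈ P, (f p * ((K : ℂ)⁻¹ * ((D + K -
        max p.1.length p.2.length - (D - min p.1.length p.2.length) : ℕ) : ℂ))) • unitOf s p‖
      ≤ (∑ p ∈ P, ‖f p‖) * ((D : ℝ) / K) := by
  have hKpos : (0 : ℝ) < K := by exact_mod_cast Nat.zero_lt_of_lt hK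
  rw [← Finset.sum_sub_distrib, Finset.sum_mul]
  refine (norm_sum_le _ _).trans (Finset.sum_le_sum fun p hp => ?_)
  obtain ⟨h1, h2⟩ := hP p hp
  generalize hn : D + K - max p.1.length p.2.length - (D - min p.1.length p.2.length) = n
  have hn1 : (n : ℝ) ≤ K := by
    have : n ≤ K := by omega
    exact_mod_cast this
  have hn2 : (K : ℝ) ≤ n + D := by
    have : K ≤ n + D := by omega
    exact_mod_cast this
  have e : f p - f p * ((K : ℂ)⁻¹ * (n : ℂ)) = f p * ((((K : ℝ) - n) / K : ℝ) : ℂ) := by
    have : (K : ℂ) ≠ 0 := by exact_mod_cast hKpos.ne'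
    push_cast
    field_simp
  rw [← sub_smul, norm_smul, e, norm_mul, Complex.norm_real,
    Real.norm_of_nonneg (div_nonneg (by linarith) hKpos.le)]
  calc ‖f p‖ * (((K : ℝ) - n) / K) * ‖unitOf s p‖ ≤ ‖f p‖ * (((K : ℝ) - n) / K) :=
        mul_le_of_le_one_right (mul_nonneg (norm_nonneg _) (div_nonneg (by linarith) hKpos.le))
          (norm_unitOf_le hs p)
    _ ≤ ‖f p‖ * ((D : ℝ) / K) := mul_le_mul_of_nonneg_left
        (div_le_div_of_nonneg_right (by linarith) hKpos.le) (norm_nonneg _)

include hs hsum in
/-- The scalar parts form a matrix of norm at most that of the element. -/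
theorem scalar_norm [Nontrivial B] {D K : ℕ} (x : B)
    (a : ↥(window D (D + K)) → ↥(window D (D + K)) → ℂ)
    (h : ∀ α β : ↥(window D (D + K)),
      star (word s (α.1 ++ marker (D + K))) * x * word s (β.1 ++ marker (D + K))
        = a α β • (1 : B)) (u : ↥(window D (D + K)) → ℂ) :
    ∑ α, ‖∑ β, a α β * u β‖ ^ 2 ≤ ‖x‖ ^ 2 * ∑ α, ‖u α‖ ^ 2 := by
  set v : ↥(window D (D + K)) → ℂ := fun α => ∑ β, a α β * u β with hv
  set ξ := ∑ β, u β • word s (β.1 ++ marker (D + K)) with hξ
  set ζ := ∑ β, v β • word s (β.1 ++ marker (D + K)) with hζ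
  have key : star ζ * x * ξ = (∑ α, star (v α) * v α) • (1 : B) := by
    rw [hζ, hξ, star_sum]
    simp only [Finset.sum_mul, Finset.mul_sum, star_smul, smul_mul_assoc, mul_smul_comm,
      smul_smul, h, Finset.sum_smul, Finset.smul_sum]
    rw [Finset.sum_comm]
    refine Finset.sum_congr rfl fun α _ => ?_
    rw [← Finset.sum_smul]
    congr 1
    simp only [hv, Finset.mul_sum]
    refine Finset.sum_congr rfl fun β _ => ?_
    ring
  have hVe : (∑ α, star (v α) * v α) = ((∑ α, ‖v α‖ ^ 2 : ℝ) : ℂ) := by
    push_cast
    refine Finset.sum_congr rfl fun α _ => ?_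
    rw [Complex.star_def, Complex.conj_mul']
  have hV0 : 0 ≤ ∑ α, ‖v α‖ ^ 2 := Finset.sum_nonneg fun _ _ => sq_nonneg _
  have h1 : ∑ α, ‖v α‖ ^ 2 ≤ ‖ζ‖ * ‖x‖ * ‖ξ‖ := by
    have := congrArg (fun z => ‖z‖) key
    rw [hVe, norm_smul, norm_one, mul_one, Complex.norm_real, Real.norm_of_nonneg hV0] at this
    rw [← this]
    refine ((norm_mul_le _ _).trans (mul_le_mul_of_nonneg_right (norm_mul_le _ _)
      (norm_nonneg _))).trans_eq ?_
    rw [norm_star]
  rw [← norm_comb hs hsum v, ← hζ] at h1
  show ∑ α, ‖v α‖ ^ 2 ≤ _
  rw [← norm_comb hs hsum v, ← norm_comb hs hsum u, ← hζ, ← hξ, ← mul_pow]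
  refine pow_le_pow_left₀ (norm_nonneg _) ?_ 2
  rcases (norm_nonneg ζ).eq_or_lt with h0 | h0
  · rw [← h0]; positivity
  · refine le_of_mul_le_mul_left ?_ h0
    rw [← mul_assoc, ← sq]
    exact h1

end Cuntz

open Cuntz in
theorem exists_factor {B : Type*} [CStarAlgebra B] (s : Fin 2 → B)
    (hs : ∀ i, star (s i) * s i = 1) (hsum : ∑ i, s i * star (s i) = 1)
    (hgen : (StarAlgebra.adjoin ℂ (Set.range s)).topologicalClosure = ⊤)
    (y : Fin 4 → B) (ε : ℝ) (hε : 0 < ε) :
    ∃ (ι : Type) (_ : Fintype ι) (Φ : ι → B) (a : Fin 4 → ι → ι → ℂ),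
      (∑ α, star (Φ α) * Φ α = 1) ∧
      (∀ g (u : ι → ℂ),
        ∑ α, ‖∑ β, a g α β * u β‖ ^ 2 ≤ (‖y g‖ + ε) ^ 2 * ∑ α, ‖u α‖ ^ 2) ∧
      ∀ g, ‖y g - ∑ α, ∑ β, a g α β • (star (Φ α) * Φ β)‖ ≤ ε := by
  classical
  rcases subsingleton_or_nontrivial B with hB | hB
  · refine ⟨Empty, inferInstance, fun i => i.elim, fun _ i => i.elim, Subsingleton.elim _ _,
      fun g u => by simp, fun g => ?_⟩
    rw [Subsingleton.elim (y g) 0]
    simpa using hε.le
  -- finite sums of matrix units close to the given elements
  have happ : ∀ g, ∃ f : List (Fin 2) × List (Fin 2) →₀ ℂ,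
      ‖y g - f.sum fun p c => c • unitOf s p‖ < ε / 2 := by
    intro g
    have hy : y g ∈ closure ((StarAlgebra.adjoin ℂ (Set.range s)) : Set B) := by
      rw [← StarSubalgebra.topologicalClosure_coe, hgen]
      trivial
    obtain ⟨z, hz, hyz⟩ := Metric.mem_closure_iff.1 hy (ε / 2) (by linarith)
    obtain ⟨f, hf⟩ := Finsupp.mem_span_range_iff_exists_finsupp.1
      (adjoin_subset_span hs hsum hz)
    exact ⟨f, by rw [hf, ← dist_eq_norm]; exact hyz⟩
  choose f hf using happ
  set P : Finset (List (Fin 2) × List (Fin 2)) := Finset.univ.biUnion fun g => (f g).support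
    with hP
  set D := P.sup fun p => max p.1.length p.2.length with hD
  set C := ∑ g, ∑ p ∈ P, ‖f g p‖ with hC
  obtain ⟨K₀, hK₀⟩ := exists_nat_gt (C * D / (ε / 2))
  set K := K₀ + D + 1 with hK
  have hKpos : (0 : ℝ) < K := by positivity
  set y0 : Fin 4 → B := fun g => ∑ p ∈ P, f g p • unitOf s p with hy0
  have hy0' : ∀ g, ‖y g - y0 g‖ < ε / 2 := by
    intro g
    refine lt_of_eq_of_lt ?_ (hf g)
    rw [hy0, Finsupp.sum_of_support_subset _ (s := P)]
    · intro p hp
      exact Finset.mem_biUnion.2 ⟨g, Finset.mem_univ _, hp⟩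
    · intro p _
      simp
  have hPD : ∀ p ∈ P, p.1.length ≤ D ∧ p.2.length ≤ D := by
    intro p hp
    have := Finset.le_sup (f := fun p : List (Fin 2) × List (Fin 2) =>
      max p.1.length p.2.length) hp
    rw [← hD] at this
    simp only [max_le_iff] at this
    exact this
  set c : ℂ := (((Real.sqrt K)⁻¹ : ℝ) : ℂ) with hc
  have hcc : star c * c = (K : ℂ)⁻¹ := by
    rw [hc, Complex.star_def, Complex.conj_ofReal, ← Complex.ofReal_mul, ← mul_inv,
      Real.mul_self_sqrt hKpos.le]
    simp
  set Φ : ↥(window D (D + K)) → B := fun α => c • star (word s α.1) with hΦ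
  set a : Fin 4 → ↥(window D (D + K)) → ↥(window D (D + K)) → ℂ := fun g α β =>
    ∑ p ∈ P, f g p * (if Tail p.1 p.2 α.1 β.1 then 1 else 0) with ha
  have hΦΦ : ∀ α β, star (Φ α) * Φ β = (K : ℂ)⁻¹ • unitOf s (α.1, β.1) := by
    intro α β
    simp only [hΦ, star_smul, star_star, smul_mul_assoc, mul_smul_comm, smul_smul]
    rw [mul_comm, hcc]
    rfl
  refine ⟨↥(window D (D + K)), inferInstance, Φ, a, ?_, ?_, ?_⟩
  · simp only [hΦΦ]
    rw [← Finset.smul_sum, Finset.sum_coe_sort (window D (D + K)) fun l => unitOf s (l, l)]
    have := sum_window hsum [] [] D (D + K)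
    simp only [List.nil_append] at this
    rw [this, smul_smul, Nat.add_sub_cancel_left, inv_mul_cancel₀ (by exact_mod_cast hKpos.ne'),
      one_smul]
    simp [unitOf, word]
  · intro g u
    have h3 : ‖y0 g‖ ≤ ‖y g‖ + ε := by
      have := norm_le_norm_add_norm_sub' (y0 g) (y g)
      rw [norm_sub_rev] at this
      linarith [hy0' g]
    refine (scalar_norm hs hsum (y0 g) (a g) (fun α β => ?_) u).trans
      (mul_le_mul_of_nonneg_right (pow_le_pow_left₀ (norm_nonneg _) h3 2)
        (Finset.sum_nonneg fun _ _ => sq_nonneg _))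
    simp only [hy0, ha, Finset.mul_sum, Finset.sum_mul, mul_smul_comm, smul_mul_assoc,
      Finset.sum_smul]
    refine Finset.sum_congr rfl fun p hp => ?_
    rw [sandwich hs hsum p.1 p.2 α.1 β.1 (hPD p hp).1 (hPD p hp).2 α.2 β.2, smul_smul]
  · intro g
    simp only [hΦΦ, ha]
    rw [average hsum P (fun p => f g p)]
    refine (norm_sub_le_norm_sub_add_norm_sub _ (y0 g) _).trans ?_
    have h4 := loss (K := K) hs (by omega) P (fun p => f g p) hPD
    have h5 : (∑ p ∈ P, ‖f g p‖) * ((D : ℝ) / K) ≤ ε / 2 := by
      refine (mul_le_mul_of_nonneg_right (Finset.single_le_sum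
        (f := fun g => ∑ p ∈ P, ‖f g p‖) (fun _ _ => Finset.sum_nonneg fun _ _ => norm_nonneg _)
        (Finset.mem_univ g)) (by positivity)).trans ?_
      rw [← hC, ← mul_div_assoc, div_le_iff₀ hKpos]
      rw [div_lt_iff₀ (by linarith)] at hK₀
      have : (K₀ : ℝ) ≤ K := by
        have : K₀ ≤ K := by omega
        exact_mod_cast this
      nlinarith
    linarith [hy0' g, h4.trans h5]

end

end Vale.Agent.P083
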