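import Vale.Agent.P083.Model

/-!
A unital algebra generated by a Cuntz pair: the closed star algebra of two isometries of the
square summable sequences, sending the basis to its even and odd halves.
-/

namespace Vale.Agent.P083

noncomputable section

open Model

theorem exists_cuntz : ∃ (B : Type) (_ : CStarAlgebra B) (_ : Nontrivial B) (s₁ s₂ : B),
    star s₁ * s₁ = 1 ∧ star s₂ * s₂ = 1 ∧ s₁ * star s₁ + s₂ * star s₂ = 1 ∧
      (StarAlgebra.adjoin ℂ ({s₁, s₂} : Set B)).topologicalClosure = ⊤ := by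
  have h1 : Function.Injective fun n : ℕ => 2 * n := fun a b h => by simpa using h
  have h2 : Function.Injective fun n : ℕ => 2 * n + 1 := fun a b h => by simpa using h
  set u₁ : Op ℕ := U _ h1 with hu1
  set u₂ : Op ℕ := U _ h2 with hu2
  have i1 : star u₁ * u₁ = 1 := star_U_self _ _
  have i2 : star u₂ * u₂ = 1 := star_U_self _ _
  have d12 : star u₁ * u₂ = 0 := star_U_disjoint _ _ fun x y => by omega
  have d21 : star u₂ * u₁ = 0 := star_U_disjoint _ _ fun x y => by omega
  have sum1 : u₁ * star u₁ + u₂ * star u₂ = 1 := by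
    have k1 : (u₁ * star u₁ + u₂ * star u₂) * u₁ = u₁ := by
      rw [add_mul, mul_assoc, mul_assoc, i1, d21, mul_one, mul_zero, add_zero]
    have k2 : (u₁ * star u₁ + u₂ * star u₂) * u₂ = u₂ := by
      rw [add_mul, mul_assoc, mul_assoc, i2, d12, mul_one, mul_zero, zero_add]
    refine op_ext fun x => ?_
    show _ = e x
    rcases Nat.even_or_odd' x with ⟨m, rfl | rfl⟩
    · have := congrArg (fun T : Op ℕ => T (e m)) k1
      simpa [hu1, U_e] using this
    · have := congrArg (fun T : Op ℕ => T (e m)) k2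
      simpa [hu2, U_e] using this
  set A : StarSubalgebra ℂ (Op ℕ) := (StarAlgebra.adjoin ℂ {u₁, u₂}).topologicalClosure with hA
  have hcl : IsClosed (A : Set (Op ℕ)) := StarSubalgebra.isClosed_topologicalClosure _
  have : Nontrivial (L2 ℕ) := ⟨⟨e 0, 0, fun h => by simpa [h] using orthonormal_e.1 (0 : ℕ)⟩⟩
  have m1 : u₁ ∈ A :=
    StarSubalgebra.le_topologicalClosure _ (StarAlgebra.subset_adjoin ℂ _ (Or.inl rfl))
  have m2 : u₂ ∈ A :=
    StarSubalgebra.le_topologicalClosure _ (StarAlgebra.subset_adjoin ℂ _ (Or.inr rfl))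
  refine ⟨A, StarSubalgebra.cstarAlgebra A (h_closed := hcl), inferInstance, ⟨u₁, m1⟩, ⟨u₂, m2⟩,
    Subtype.ext i1, Subtype.ext i2, Subtype.ext sum1, eq_top_iff.2 fun x _ => ?_⟩
  have hmap : (StarAlgebra.adjoin ℂ ({⟨u₁, m1⟩, ⟨u₂, m2⟩} : Set A)).map A.subtype =
      StarAlgebra.adjoin ℂ {u₁, u₂} := by
    rw [StarAlgHom.map_adjoin, Set.image_pair]
    rfl
  rw [← SetLike.mem_coe, StarSubalgebra.topologicalClosure_coe,
    Topology.IsInducing.subtypeVal.closure_eq_preimage_closure_image, Set.mem_preimage]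
  have hx : (x : Op ℕ) ∈ closure ((StarAlgebra.adjoin ℂ {u₁, u₂} : StarSubalgebra ℂ (Op ℕ)) :
      Set (Op ℕ)) := x.2
  rw [← hmap, StarSubalgebra.coe_map] at hx
  exact hx

end

end Vale.Agent.P083
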