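import Mathlib

/-!
The finite system of relations used to separate a separable algebra from all ultrapowers of
algebras generated by a Cuntz pair.
-/

namespace Vale.Agent.P083

noncomputable section

/-- The base field. -/
abbrev K : Type := ZMod 17

instance : Fact (Nat.Prime 17) := ⟨by norm_num⟩

/-- Letters. -/
abbrev Letter : Type := K × K × K

/-- Strings of a given length. -/
abbrev Str (n : ℕ) : Type := Fin n → Letter

/-- A tuple of elements subject to the relations. -/
structure Tup (R : Type*) where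
  Y : Fin 4 → R
  S : Letter → R
  W : R

/-- The action of the four generators on the first letter. -/
def sig : Fin 4 → Letter → Letter
  | 0, j => (j.1 + j.2.1, j.2.1, j.2.2)
  | 1, j => (j.1, j.2.1 + j.2.2, j.2.2)
  | 2, j => j
  | 3, j => (j.1, j.2.1, j.2.2 + 1)

/-- The carried generator to the right of a prefixed letter. -/
def sect {R : Type*} [Monoid R] (Y : Fin 4 → R) : Fin 4 → Letter → R
  | 0, _ => Y 0
  | 1, _ => Y 1
  | 2, j => Y 3 ^ (j.1.val) * Y 2
  | 3, _ => 1

/-- The commutator of two unitaries. -/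
def comm' {R : Type*} [Mul R] [Star R] (x y : R) : R := x * y * star x * star y

/-- Indices of the relations. -/
inductive Rel : Type
  | unitL (g : Fin 4)
  | unitR (g : Fin 4)
  | order (g : Fin 4)
  | heisL (g h : Fin 4)
  | heisR (g h : Fin 4)
  | isom (j k : Letter)
  | move (g : Fin 4) (j : Letter)
  | isomW
  | fixW (g : Fin 4)

/-- The defect of a tuple in a relation. -/
def dev {R : Type*} [Ring R] [Star R] (T : Tup R) : Rel → R
  | .unitL g => star (T.Y g) * T.Y g - 1
  | .unitR g => T.Y g * star (T.Y g) - 1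
  | .order g => T.Y g ^ 17 - 1
  | .heisL g h => comm' (T.Y g) (T.Y h) * T.Y g - T.Y g * comm' (T.Y g) (T.Y h)
  | .heisR g h => comm' (T.Y g) (T.Y h) * T.Y h - T.Y h * comm' (T.Y g) (T.Y h)
  | .isom j k => star (T.S j) * T.S k - if j = k then 1 else 0
  | .move g j => T.Y g * T.S j - T.S (sig g j) * sect T.Y g j
  | .isomW => star T.W * T.W - 1
  | .fixW g => T.Y g * T.W - T.W

/-- A tuple satisfies the relations up to `δ`. -/
def Near {R : Type*} [NormedRing R] [Star R] (δ : ℝ) (T : Tup R) : Prop :=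
  ∀ r, ‖dev T r‖ ≤ δ

/-- A four-tuple of almost unitaries of order 17 with almost Heisenberg pairs. -/
def Near4 {R : Type*} [NormedRing R] [Star R] (δ : ℝ) (Z : Fin 4 → R) : Prop :=
  ∀ g, ‖star (Z g) * Z g - 1‖ ≤ δ ∧ ‖Z g * star (Z g) - 1‖ ≤ δ ∧ ‖Z g ^ 17 - 1‖ ≤ δ ∧
    ∀ h, ‖comm' (Z g) (Z h) * Z g - Z g * comm' (Z g) (Z h)‖ ≤ δ ∧
      ‖comm' (Z g) (Z h) * Z h - Z h * comm' (Z g) (Z h)‖ ≤ δ

theorem Near.near4 {R : Type*} [NormedRing R] [Star R] {δ : ℝ} {T : Tup R} (h : Near δ T) :
    Near4 δ T.Y := fun g =>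
  ⟨h (.unitL g), h (.unitR g), h (.order g), fun k => ⟨h (.heisL g k), h (.heisR g k)⟩⟩

end

end Vale.Agent.P083
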