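import Vale.Agent.P083.Defs

/-!
The dual monomial representations of the four generators on strings of a given length.
-/

namespace Vale.Agent.P083

noncomputable section

/-- The third coordinate of the following letter, zero at the end of the string. -/
def next {n : ℕ} (ξ : Str (n + 1)) (k : Fin (n + 1)) : K :=
  if h : k.val + 1 < n + 1 then (ξ ⟨k.val + 1, h⟩).2.2 else 0

/-- The action of the generators on dual strings. -/
def act {n : ℕ} : Fin 4 → Str (n + 1) → Str (n + 1)
  | 0, ξ => fun k => ((ξ k).1, (ξ k).2.1 - (ξ k).1, (ξ k).2.2)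
  | 1, ξ => fun k => ((ξ k).1, (ξ k).2.1, (ξ k).2.2 - (ξ k).2.1)
  | 2, ξ => fun k => ((ξ k).1 - next ξ k, (ξ k).2.1, (ξ k).2.2)
  | 3, ξ => ξ

/-- The inverse action. -/
def actInv {n : ℕ} : Fin 4 → Str (n + 1) → Str (n + 1)
  | 0, ξ => fun k => ((ξ k).1, (ξ k).2.1 + (ξ k).1, (ξ k).2.2)
  | 1, ξ => fun k => ((ξ k).1, (ξ k).2.1, (ξ k).2.2 + (ξ k).2.1)
  | 2, ξ => fun k => ((ξ k).1 + next ξ k, (ξ k).2.1, (ξ k).2.2)
  | 3, ξ => ξ

/-- The permutation of dual strings given by a generator. -/
def qperm {n : ℕ} (g : Fin 4) : Str (n + 1) ≃ Str (n + 1) where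
  toFun := act g
  invFun := actInv g
  left_inv ξ := by
    fin_cases g <;> funext k <;> simp [act, actInv, next]
  right_inv ξ := by
    fin_cases g <;> funext k <;> simp [act, actInv, next]

/-- The phase of a generator at a dual string. -/
def phase {n : ℕ} (g : Fin 4) (ξ : Str (n + 1)) : ℂ :=
  if g = 3 then ZMod.stdAddChar (ξ 0).2.2 else 1

theorem norm_phase {n : ℕ} (g : Fin 4) (ξ : Str (n + 1)) : ‖phase g ξ‖ = 1 := by
  unfold phase
  split_ifs <;> simp [ZMod.stdAddChar_apply, Circle.norm_coe]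

/-- Strings whose last letter is nonzero. -/
def Supp {n : ℕ} (ξ : Str (n + 1)) : Prop := ξ (Fin.last n) ≠ 0

theorem next_cons_zero {n : ℕ} (i : Letter) (η : Str (n + 1)) :
    next (Fin.cons i η : Str (n + 2)) 0 = (η 0).2.2 := by
  simp [next]

theorem next_cons_succ {n : ℕ} (i : Letter) (η : Str (n + 1)) (k : Fin (n + 1)) :
    next (Fin.cons i η : Str (n + 2)) k.succ = next η k := by
  simp only [next, Fin.val_succ, Nat.add_lt_add_iff_right]
  split_ifs with h
  · exact congrArg (fun x : Letter => x.2.2)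
      (Fin.cons_succ (α := fun _ => Letter) i η ⟨k.val + 1, by omega⟩)
  · rfl

/-- How a generator moves the first letter. -/
def move0 : Fin 4 → Letter → K → Letter
  | 0, i, _ => (i.1, i.2.1 - i.1, i.2.2)
  | 1, i, _ => (i.1, i.2.1, i.2.2 - i.2.1)
  | 2, i, w => (i.1 - w, i.2.1, i.2.2)
  | 3, i, _ => i

theorem qperm_cons {n : ℕ} (g : Fin 4) (i : Letter) (η : Str (n + 1)) :
    qperm g (Fin.cons i η : Str (n + 2)) = Fin.cons (move0 g i (η 0).2.2) (qperm g η) := by
  funext k
  fin_cases g <;> induction k using Fin.cases <;>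
    simp [qperm, act, move0, next_cons_zero, next_cons_succ]

end

end Vale.Agent.P083
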