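import Mathlib

/-!
Elementary trace estimates for positive matrices.
-/

namespace Vale.Agent.P083

noncomputable section

open Matrix ComplexConjugate
open scoped ComplexOrder

/-- The squared Frobenius norm. -/
def frob {A B : Type*} [Fintype A] [Fintype B] (M : Matrix A B ℂ) : ℝ := ∑ i, ∑ j, ‖M i j‖ ^ 2

theorem frob_eq_trace {A B : Type*} [Fintype A] [Fintype B] (M : Matrix A B ℂ) :
    (frob M : ℂ) = (M * Mᴴ).trace := by
  simp [frob, Matrix.trace, Matrix.mul_apply, Complex.mul_conj']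

theorem frob_mul_unitary {A B : Type*} [Fintype A] [Fintype B] [DecidableEq B] (M : Matrix A B ℂ)
    (V : Matrix B B ℂ) (hV : V * Vᴴ = 1) : frob (M * V) = frob M := by
  have : (frob (M * V) : ℂ) = (frob M : ℂ) := by
    rw [frob_eq_trace, frob_eq_trace, conjTranspose_mul, Matrix.mul_assoc, ← Matrix.mul_assoc V, hV,
      Matrix.one_mul]
  exact_mod_cast this

theorem gram_diag {A B : Type*} [Fintype A] (M : Matrix A B ℂ) (i : B) :
    (Mᴴ * M) i i = ((∑ α, ‖M α i‖ ^ 2 : ℝ) : ℂ) := by
  simp [Matrix.mul_apply, Complex.conj_mul']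

variable {Ω : Type*} [Fintype Ω] [DecidableEq Ω]

/-- Powers and Størmer, in the diagonalising basis of the difference. -/
theorem powers_stormer {A B : Matrix Ω Ω ℂ} (hA : A.PosSemidef) (hB : B.PosSemidef) :
    ∃ V : Matrix Ω Ω ℂ, V * Vᴴ = 1 ∧
      frob (A - B) ≤ ∑ i, |((Vᴴ * (A * A) * V) i i).re - ((Vᴴ * (B * B) * V) i i).re| := by
  have hX : (A - B).IsHermitian := hA.1.sub hB.1
  set V : Matrix Ω Ω ℂ := (hX.eigenvectorUnitary : Matrix Ω Ω ℂ) with hVd
  set x : Ω → ℝ := hX.eigenvalues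
  have h1 : Vᴴ * V = 1 := Unitary.coe_star_mul_self hX.eigenvectorUnitary
  have h2 : V * Vᴴ = 1 := Unitary.coe_mul_star_self hX.eigenvectorUnitary
  have hD : Vᴴ * (A - B) * V = diagonal fun i => (x i : ℂ) := by
    simpa [Function.comp_def, star_eq_conjTranspose] using
      hX.conjStarAlgAut_star_eigenvectorUnitary
  set A' := Vᴴ * A * V with hA'
  set B' := Vᴴ * B * V with hB'
  have hA'p : A'.PosSemidef := hA.conjTranspose_mul_mul_same V
  have hB'p : B'.PosSemidef := hB.conjTranspose_mul_mul_same V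
  have hsub : A' - B' = diagonal fun i => (x i : ℂ) := by
    rw [← hD, hA', hB', Matrix.mul_sub, Matrix.sub_mul]
  have hsq : ∀ M : Matrix Ω Ω ℂ, Vᴴ * (M * M) * V = (Vᴴ * M * V) * (Vᴴ * M * V) := fun M => by
    calc Vᴴ * (M * M) * V = Vᴴ * M * (V * Vᴴ) * M * V := by
          rw [h2, Matrix.mul_one]; simp only [Matrix.mul_assoc]
      _ = _ := by simp only [Matrix.mul_assoc]
  have hfro : frob (A - B) = ∑ i, x i ^ 2 := by
    have : (frob (A - B) : ℂ) = ((∑ i, x i ^ 2 : ℝ) : ℂ) := by
      rw [frob_eq_trace, hX.eq]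
      calc ((A - B) * (A - B)).trace = ((A - B) * (A - B) * (V * Vᴴ)).trace := by
            rw [h2, Matrix.mul_one]
        _ = (Vᴴ * ((A - B) * (A - B)) * V).trace := by
            rw [← Matrix.mul_assoc, Matrix.trace_mul_cycle]
        _ = _ := by rw [hsq, hD, diagonal_mul_diagonal, Matrix.trace_diagonal]; simp [pow_two]
    exact_mod_cast this
  refine ⟨V, h2, ?_⟩
  rw [hfro]
  refine Finset.sum_le_sum fun i _ => ?_
  rw [hsq A, hsq B, ← hA', ← hB']
  have hoff : ∀ j, j ≠ i → A' i j * A' j i = B' i j * B' j i := by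
    intro j hj
    have e1 := congrFun (congrFun hsub i) j
    have e2 := congrFun (congrFun hsub j) i
    rw [Matrix.sub_apply, diagonal_apply_ne _ hj.symm, sub_eq_zero] at e1
    rw [Matrix.sub_apply, diagonal_apply_ne _ hj, sub_eq_zero] at e2
    rw [e1, e2]
  have hdiff : (A' * A') i i - (B' * B') i i = A' i i * A' i i - B' i i * B' i i := by
    simp only [Matrix.mul_apply, ← Finset.sum_sub_distrib]
    rw [Finset.sum_eq_single i (fun j _ hj => by rw [hoff j hj, sub_self]) (by simp)]
  have ha := Complex.nonneg_iff.1 (hA'p.diag_nonneg (i := i))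
  have hb := Complex.nonneg_iff.1 (hB'p.diag_nonneg (i := i))
  have hx : (A' i i).re - (B' i i).re = x i := by
    have e := congrArg Complex.re (congrFun (congrFun hsub i) i)
    simpa using e
  have hr : ((A' * A') i i).re - ((B' * B') i i).re
      = x i * ((A' i i).re + (B' i i).re) := by
    rw [← Complex.sub_re, hdiff, ← hx]
    simp [Complex.mul_re, ← ha.2, ← hb.2]
    ring
  rw [hr, abs_mul, pow_two, ← abs_mul_abs_self (x i)]
  refine mul_le_mul_of_nonneg_left ?_ (abs_nonneg _)
  rw [← hx, abs_of_nonneg (add_nonneg ha.1 hb.1)]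
  exact abs_le.2 ⟨by linarith [ha.1, hb.1], by linarith [ha.1, hb.1]⟩

/-- The square root of a Gram matrix and the bound on its trace. -/
theorem exists_gram_sqrt {ι : Type*} [Fintype ι] (T : Matrix ι Ω ℂ) {L : ℕ}
    (hL : Fintype.card ι ≤ L) (hT : frob T = 1) :
    ∃ r : Matrix Ω Ω ℂ, r.PosSemidef ∧ r * r = Tᴴ * T ∧ r.trace.re ≤ Real.sqrt L := by
  have hk : (Tᴴ * T).PosSemidef := posSemidef_conjTranspose_mul_self T
  set U : Matrix Ω Ω ℂ := (hk.1.eigenvectorUnitary : Matrix Ω Ω ℂ) with hUd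
  set lam : Ω → ℝ := hk.1.eigenvalues with hlam
  have h1 : Uᴴ * U = 1 := Unitary.coe_star_mul_self hk.1.eigenvectorUnitary
  have hspec : Tᴴ * T = U * (diagonal fun i => (lam i : ℂ)) * Uᴴ := by
    simpa [Function.comp_def, star_eq_conjTranspose] using hk.1.spectral_theorem
  have h0 : ∀ i, 0 ≤ lam i := hk.eigenvalues_nonneg
  refine ⟨U * (diagonal fun i => (Real.sqrt (lam i) : ℂ)) * Uᴴ, ?_, ?_, ?_⟩
  · refine PosSemidef.mul_mul_conjTranspose_same (posSemidef_diagonal_iff.2 fun i => ?_) U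
    exact_mod_cast Real.sqrt_nonneg _
  · rw [hspec]
    calc _ = U * ((diagonal fun i => (Real.sqrt (lam i) : ℂ)) * (Uᴴ * U)
          * (diagonal fun i => (Real.sqrt (lam i) : ℂ))) * Uᴴ := by simp only [Matrix.mul_assoc]
      _ = _ := by
          rw [h1, Matrix.mul_one, diagonal_mul_diagonal]
          congr 2
          refine congrArg _ (funext fun i => ?_)
          rw [← Complex.ofReal_mul, Real.mul_self_sqrt (h0 i)]
  · have hsum : ∑ i, lam i = 1 := by
      have e : ((∑ i, lam i : ℝ) : ℂ) = ((1 : ℝ) : ℂ) := by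
        rw [Complex.ofReal_sum]
        refine hk.1.trace_eq_sum_eigenvalues.symm.trans ?_
        rw [Matrix.trace_mul_comm, ← frob_eq_trace, hT]
      exact_mod_cast e
    rw [Matrix.trace_mul_cycle, h1, Matrix.one_mul, Matrix.trace_diagonal, Complex.re_sum]
    simp only [Complex.ofReal_re]
    rw [← Finset.sum_filter_add_sum_filter_not Finset.univ fun i => lam i ≠ 0,
      Finset.sum_eq_zero (s := Finset.univ.filter fun i => ¬ lam i ≠ 0) fun i hi => by
        rw [not_not.1 (Finset.mem_filter.1 hi).2, Real.sqrt_zero], add_zero]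
    set S := Finset.univ.filter fun i => lam i ≠ 0 with hS
    have hc : S.card ≤ L := by
      rw [hS, ← Fintype.card_subtype, hlam, ← hk.1.rank_eq_card_non_zero_eigs,
        rank_conjTranspose_mul_self]
      exact (rank_le_card_height T).trans hL
    refine Real.le_sqrt_of_sq_le ((sq_sum_le_card_mul_sum_sq).trans ?_)
    rw [Finset.sum_congr rfl fun i _ => Real.sq_sqrt (h0 i)]
    calc (S.card : ℝ) * ∑ i ∈ S, lam i ≤ L * 1 := by
          refine mul_le_mul (Nat.cast_le.2 hc) ?_ (Finset.sum_nonneg fun i _ => h0 i)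
            (Nat.cast_nonneg _)
          rw [← hsum]
          exact Finset.sum_le_sum_of_subset_of_nonneg (Finset.subset_univ _) fun i _ _ => h0 i
      _ = L := mul_one _

end

end Vale.Agent.P083
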