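import Vale.Agent.P083.EndOrbit
import Vale.Agent.P083.EndSqrt

/-!
No bounded number of dimensions carries an almost intertwiner into all dual representations.
-/

namespace Vale.Agent.P083

noncomputable section

open Matrix ComplexConjugate
open scoped ComplexOrder

variable {n : ℕ}

theorem conj_posSemidef (g : Fin 4) {r : Matrix (Str (n + 1)) (Str (n + 1)) ℂ}
    (hr : r.PosSemidef) :
    (diagonal (phase g) * r.submatrix (qperm g) (qperm g) * (diagonal (phase g))ᴴ).PosSemidef :=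
  (hr.submatrix _).mul_mul_conjTranspose_same _

theorem diag_phase_mul (g : Fin 4) :
    (diagonal (phase (n := n) g))ᴴ * diagonal (phase g) = 1 := by
  rw [diagonal_conjTranspose, diagonal_mul_diagonal, ← diagonal_one]
  refine congrArg _ (funext fun ξ => ?_)
  simp [Complex.conj_mul', norm_phase]

/-- The conjugate of the square root stays close to it. -/
theorem sqrt_almost_fixed {ι : Type} [Fintype ι] {η : ℝ} (hη0 : 0 < η) (hη1 : η ≤ 1)
    (T : Matrix ι (Str (n + 1)) ℂ) (a : Matrix ι ι ℂ) (g : Fin 4)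
    (ha : ∀ u : ι → ℂ, ∑ α, ‖∑ β, a α β * u β‖ ^ 2 ≤ (1 + η) ^ 2 * ∑ α, ‖u α‖ ^ 2)
    (hT : frob T = 1)
    (hI : ∑ ξ, ∑ α, ‖phase g ξ * ∑ β, a α β * T β ξ - T α (qperm g ξ)‖ ^ 2 ≤ η ^ 2)
    {r : Matrix (Str (n + 1)) (Str (n + 1)) ℂ} (hr : r.PosSemidef) (hrr : r * r = Tᴴ * T) :
    frob (diagonal (phase g) * r.submatrix (qperm g) (qperm g) * (diagonal (phase g))ᴴ - r)
      ≤ 18 * η := by
  classical
  set D := diagonal (phase (n := n) g)
  set T' := T.submatrix id (qperm g) * Dᴴ with hT'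
  set r' := D * r.submatrix (qperm g) (qperm g) * Dᴴ
  have hrr' : r' * r' = T'ᴴ * T' := by
    have h : Dᴴ * D = 1 := diag_phase_mul g
    calc r' * r' = D * (r.submatrix (qperm g) (qperm g) * (Dᴴ * D)
          * r.submatrix (qperm g) (qperm g)) * Dᴴ := by simp only [r', Matrix.mul_assoc]
      _ = D * ((T.submatrix id (qperm g))ᴴ * T.submatrix id (qperm g)) * Dᴴ := by
          rw [h, Matrix.mul_one, submatrix_mul_equiv, hrr, conjTranspose_submatrix,
            ← submatrix_mul _ _ _ _ _ Function.bijective_id]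
      _ = T'ᴴ * T' := by
          rw [hT', conjTranspose_mul, conjTranspose_conjTranspose]
          simp only [Matrix.mul_assoc]
  obtain ⟨V, hV, hps⟩ := powers_stormer (conj_posSemidef g hr) hr
  refine hps.trans ?_
  set p : Str (n + 1) → ℝ := fun i => ∑ α, ‖(T * V) α i‖ ^ 2 with hp
  set p' : Str (n + 1) → ℝ := fun i => ∑ α, ‖(T' * V) α i‖ ^ 2 with hp'
  set E := (a * T - T') * V with hE
  have e1 : ∀ i, ((Vᴴ * (r * r) * V) i i).re = p i := fun i => by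
    rw [hrr, show Vᴴ * (Tᴴ * T) * V = (T * V)ᴴ * (T * V) by
      rw [conjTranspose_mul (M := _) (N := V)]; simp only [Matrix.mul_assoc], gram_diag, Complex.ofReal_re]
  have e2 : ∀ i, ((Vᴴ * (r' * r') * V) i i).re = p' i := fun i => by
    rw [hrr', show Vᴴ * (T'ᴴ * T') * V = (T' * V)ᴴ * (T' * V) by
      rw [conjTranspose_mul (M := _) (N := V)]; simp only [Matrix.mul_assoc], gram_diag, Complex.ofReal_re]
  have hsum : ∀ M : Matrix ι (Str (n + 1)) ℂ,
      ∑ i, ∑ α, ‖(M * V) α i‖ ^ 2 = frob M := fun M => by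
    rw [Finset.sum_comm, ← frob_mul_unitary M V hV]
    rfl
  have hT'1 : frob T' = 1 := by
    rw [← hT, hT']
    simp only [frob, D, diagonal_conjTranspose, mul_diagonal, submatrix_apply, id, norm_mul,
      Pi.star_apply, norm_star, norm_phase, mul_one]
    exact Finset.sum_congr rfl fun α _ => (qperm g).sum_comp fun ξ => ‖T α ξ‖ ^ 2
  have hE2 : ∑ i, ∑ α, ‖E α i‖ ^ 2 ≤ η ^ 2 := by
    rw [hsum]
    refine le_trans (le_of_eq ?_) hI
    rw [frob, Finset.sum_comm]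
    refine Finset.sum_congr rfl fun ξ _ => Finset.sum_congr rfl fun α _ => ?_
    simp only [hT', D, Matrix.sub_apply, diagonal_conjTranspose, mul_diagonal, submatrix_apply, id,
      Pi.star_apply]
    rw [Matrix.mul_apply, ← one_mul ‖(∑ β, a α β * T β ξ) - _‖, ← norm_phase g ξ, ← norm_mul, mul_sub,
      mul_left_comm, Complex.star_def, Complex.mul_conj', norm_phase]
    simp
  have hpt : ∀ i, p' i ≤ (1 + η) ^ 3 * p i + (1 + 1 / η) * ∑ α, ‖E α i‖ ^ 2 := by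
    intro i
    have hcol : ∀ α, (T' * V) α i = (∑ β, a α β * (T * V) β i) - E α i := by
      intro α
      rw [hE, Matrix.sub_mul, Matrix.sub_apply, Matrix.mul_assoc a T V, Matrix.mul_apply (M := a),
        sub_sub_cancel]
    have hb : ∀ x y : ℂ, ‖x - y‖ ^ 2 ≤ (1 + η) * ‖x‖ ^ 2 + (1 + 1 / η) * ‖y‖ ^ 2 := by
      intro x y
      have h1 : ‖x - y‖ ^ 2 ≤ (‖x‖ + ‖y‖) ^ 2 :=
        pow_le_pow_left₀ (norm_nonneg _) (norm_sub_le _ _) 2
      have h2 : 0 ≤ (η * ‖x‖ - ‖y‖) ^ 2 / η := by positivity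
      have h3 : (η * ‖x‖ - ‖y‖) ^ 2 / η = η * ‖x‖ ^ 2 - 2 * ‖x‖ * ‖y‖ + ‖y‖ ^ 2 / η := by
        field_simp
        ring
      rw [h3] at h2
      rw [add_mul, add_mul, one_mul, one_mul, one_div_mul_eq_div]
      linarith [add_sq ‖x‖ ‖y‖]
    calc p' i ≤ ∑ α, ((1 + η) * ‖∑ β, a α β * (T * V) β i‖ ^ 2 + (1 + 1 / η) * ‖E α i‖ ^ 2) :=
          Finset.sum_le_sum fun α _ => by rw [hcol α]; exact hb _ _
      _ = (1 + η) * ∑ α, ‖∑ β, a α β * (T * V) β i‖ ^ 2 + (1 + 1 / η) * ∑ α, ‖E α i‖ ^ 2 := by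
          rw [Finset.sum_add_distrib, Finset.mul_sum, Finset.mul_sum]
      _ ≤ (1 + η) * ((1 + η) ^ 2 * p i) + (1 + 1 / η) * ∑ α, ‖E α i‖ ^ 2 := by
          gcongr
          exact ha _
      _ = _ := by ring
  calc ∑ i, |((Vᴴ * (r' * r') * V) i i).re - ((Vᴴ * (r * r) * V) i i).re|
      = ∑ i, |p' i - p i| := Finset.sum_congr rfl fun i _ => by rw [e1, e2]
    _ ≤ ∑ i, (2 * (((1 + η) ^ 3 - 1) * p i + (1 + 1 / η) * ∑ α, ‖E α i‖ ^ 2) - (p' i - p i)) := by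
        refine Finset.sum_le_sum fun i _ => ?_
        have hp0 : 0 ≤ p i := Finset.sum_nonneg fun α _ => sq_nonneg _
        have hE0 : 0 ≤ (1 + 1 / η) * ∑ α, ‖E α i‖ ^ 2 := by positivity
        have : 0 ≤ ((1 + η) ^ 3 - 1) * p i :=
          mul_nonneg (by linarith [one_le_pow₀ (n := 3) (by linarith : (1 : ℝ) ≤ 1 + η)]) hp0
        rw [abs_le]
        constructor <;> linarith [hpt i]
    _ = 2 * (((1 + η) ^ 3 - 1) * frob T + (1 + 1 / η) * ∑ i, ∑ α, ‖E α i‖ ^ 2)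
          - (frob T' - frob T) := by
        simp only [Finset.sum_sub_distrib, Finset.sum_add_distrib, ← Finset.mul_sum, hp, hp',
          hsum]
    _ ≤ 18 * η := by
        rw [hT, hT'1]
        have h2 : (1 + 1 / η) * ∑ i, ∑ α, ‖E α i‖ ^ 2 ≤ η ^ 2 + η := by
          calc (1 + 1 / η) * ∑ i, ∑ α, ‖E α i‖ ^ 2 ≤ (1 + 1 / η) * η ^ 2 :=
                mul_le_mul_of_nonneg_left hE2 (by positivity)
            _ = η ^ 2 + η := by field_simp
        have h3 : η ^ 2 ≤ η := by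
          calc η ^ 2 ≤ η * 1 := by rw [pow_two]; gcongr
            _ = η := mul_one _
        have h4 : η ^ 3 ≤ η := le_trans
          (by rw [pow_succ]; exact mul_le_of_le_one_right (sq_nonneg η) hη1) h3
        have h5 : (1 + η) ^ 3 = 1 + 3 * η + 3 * η ^ 2 + η ^ 3 := by ring
        rw [h5]
        linarith

theorem no_intertwiner : ∃ η : ℝ, 0 < η ∧ ∀ L : ℕ, ∃ N : ℕ, ∀ n : ℕ, N ≤ n →
    ∀ (ι : Type) [Fintype ι], Fintype.card ι ≤ L →
    ∀ (a : Fin 4 → ι → ι → ℂ) (t : Str (n + 1) → ι → ℂ),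
      (∀ g (u : ι → ℂ), ∑ α, ‖∑ β, a g α β * u β‖ ^ 2 ≤ (1 + η) ^ 2 * ∑ α, ‖u α‖ ^ 2) →
      (∀ ξ, ¬ Supp ξ → t ξ = 0) →
      (∑ ξ, ∑ α, ‖t ξ α‖ ^ 2 = 1) →
      ¬ ∀ g, ∑ ξ, ∑ α, ‖phase g ξ * ∑ β, a g α β * t ξ β - t (qperm g ξ) α‖ ^ 2 ≤ η ^ 2 := by
  classical
  obtain ⟨K0, hK0, hsnap⟩ := snap_exact
  set η : ℝ := min 1 (1 / (1152 * (K0 + 1) ^ 2)) with hη
  have hη0 : 0 < η := lt_min one_pos (by positivity)
  refine ⟨η, hη0, fun L => ⟨17 ^ (128 * L + 2) + 1, ?_⟩⟩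
  intro n hn ι _ hcard a t ha hsupp hnorm hI
  set T : Matrix ι (Str (n + 1)) ℂ := Matrix.of fun α ξ => t ξ α with hTd
  have hT : frob T = 1 := by
    rw [← hnorm]
    exact Finset.sum_comm
  obtain ⟨r, hr, hrr, htr⟩ := exists_gram_sqrt T hcard hT
  set v : EuclideanSpace ℂ (Str (n + 1) × Str (n + 1)) :=
    WithLp.toLp 2 (fun p => r p.1 p.2) with hv
  have hdiag : ∀ ξ, ∑ ζ, ‖r ξ ζ‖ ^ 2 = ∑ α, ‖t ξ α‖ ^ 2 := by
    intro ξ
    have : ((∑ ζ, ‖r ξ ζ‖ ^ 2 : ℝ) : ℂ) = ((∑ α, ‖t ξ α‖ ^ 2 : ℝ) : ℂ) := by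
      rw [show (∑ α, ‖t ξ α‖ ^ 2) = ∑ α, ‖T α ξ‖ ^ 2 from rfl, ← gram_diag, ← hrr,
        Matrix.mul_apply]
      push_cast
      refine Finset.sum_congr rfl fun ζ _ => ?_
      rw [← Complex.mul_conj', ← Complex.star_def, hr.1.apply]
    exact_mod_cast this
  have hvn : ‖v‖ ^ 2 = 1 := by
    rw [EuclideanSpace.norm_sq_eq, Fintype.sum_prod_type]
    simp only [hv, hdiag]
    exact hnorm
  have hv1 : ‖v‖ ≤ 1 := (sq_le_one_iff₀ (norm_nonneg _)).1 hvn.le
  have hfix : ∀ g, ‖conjZ g v - v‖ ≤ Real.sqrt (18 * η) := by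
    intro g
    refine Real.le_sqrt_of_sq_le (le_trans (le_of_eq ?_)
      (sqrt_almost_fixed hη0 (min_le_left _ _) T (a g) g (ha g) hT (hI g) hr hrr))
    rw [EuclideanSpace.norm_sq_eq, Fintype.sum_prod_type, frob]
    refine Finset.sum_congr rfl fun ξ _ => Finset.sum_congr rfl fun ζ _ => ?_
    congr 2
    simp only [PiLp.sub_apply, Matrix.sub_apply, conjZ, pairOp_apply, hv,
      diagonal_conjTranspose, mul_diagonal, diagonal_mul, submatrix_apply, Pi.star_apply]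
    rw [sub_eq_add_neg ((gen g).2 ξ), AddChar.map_add_eq_mul, AddChar.map_neg_eq_conj,
      Complex.star_def, phase_eq_dual, phase_eq_dual]
    simp only [gen, qperm, Equiv.coe_fn_mk]
    ring
  obtain ⟨u, hu, huZ⟩ := hsnap n v hv1
  have hclose : ‖u - v‖ ≤ 1 / 2 := by
    have h1 : Real.sqrt (18 * η) ≤ 1 / (8 * (K0 + 1)) := by
      rw [Real.sqrt_le_left (by positivity)]
      calc 18 * η ≤ 18 * (1 / (1152 * (K0 + 1) ^ 2)) :=
            mul_le_mul_of_nonneg_left (min_le_right _ _) (by norm_num)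
        _ = (1 / (8 * (K0 + 1))) ^ 2 := by field_simp; ring
    refine hu.trans ?_
    calc K0 * ∑ g, ‖conjZ g v - v‖ ≤ (K0 + 1) * ∑ _g : Fin 4, (1 / (8 * (K0 + 1))) := by
          refine mul_le_mul (by linarith) (Finset.sum_le_sum fun g _ => (hfix g).trans h1)
            (Finset.sum_nonneg fun _ _ => norm_nonneg _) (by linarith)
      _ = 1 / 2 := by simp; field_simp; ring
  have hinner : (inner ℂ v u).re ≤ r.trace.re * (‖u‖ / (8 * Real.sqrt L + 1)) := by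
    have e : (inner ℂ v u).re = ∑ ξ, (r ξ ξ).re * (u (ξ, ξ)).re := by
      rw [PiLp.inner_apply, Fintype.sum_prod_type, Complex.re_sum]
      refine Finset.sum_congr rfl fun ξ _ => ?_
      rw [Finset.sum_eq_single ξ (fun ζ _ hne => ?_) (by simp)]
      · have him := (Complex.nonneg_iff.1 (hr.diag_nonneg (i := ξ))).2
        simp [hv, RCLike.inner_apply, Complex.mul_re, ← him, mul_comm]
      · have h0 : u (ξ, ζ) = 0 := by_contra fun h => hne (diag_of_invariant huZ h).symm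
        simp [h0]
    rw [e, Matrix.trace, Complex.re_sum, Finset.sum_mul]
    refine Finset.sum_le_sum fun ξ _ => ?_
    have hr0 : 0 ≤ (r ξ ξ).re := (Complex.nonneg_iff.1 (hr.diag_nonneg (i := ξ))).1
    by_cases hs : Supp ξ
    · refine mul_le_mul_of_nonneg_left ?_ hr0
      refine (Complex.re_le_norm _).trans ?_
      rw [le_div_iff₀ (by positivity)]
      have hb := flat_bound huZ hs (B := 128 * L + 2) (by omega)
      push_cast at hb
      refine abs_le_of_sq_le_sq' ?_ (norm_nonneg _) |>.2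
      refine le_trans ?_ hb
      rw [mul_pow, mul_comm]
      refine mul_le_mul_of_nonneg_right ?_ (sq_nonneg _)
      nlinarith [Real.sq_sqrt (Nat.cast_nonneg (α := ℝ) L), sq_nonneg (8 * Real.sqrt L - 1)]
    · have h0 : ∑ ζ, ‖r ξ ζ‖ ^ 2 = 0 := by rw [hdiag, hsupp ξ hs]; simp
      have h1 := (Finset.sum_eq_zero_iff_of_nonneg (fun _ _ => sq_nonneg _)).1 h0 ξ
        (Finset.mem_univ _)
      rw [Matrix.diag_apply,
        norm_eq_zero.1 (pow_eq_zero_iff (by norm_num : (2 : ℕ) ≠ 0) |>.1 h1)]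
      simp
  have hns : ‖u - v‖ ^ 2 = ‖u‖ ^ 2 + 1 - 2 * (inner ℂ v u).re := by
    rw [norm_sub_sq (𝕜 := ℂ), hvn, inner_re_symm]
    ring_nf
    rfl
  have hsq : ‖u - v‖ ^ 2 ≤ 1 / 4 := by
    calc ‖u - v‖ ^ 2 ≤ (1 / 2) ^ 2 := pow_le_pow_left₀ (norm_nonneg _) hclose 2
      _ = 1 / 4 := by norm_num
  have hfinal : (inner ℂ v u).re ≤ ‖u‖ / 8 := by
    refine hinner.trans ?_
    rw [mul_div_assoc', div_le_div_iff₀ (by positivity) (by norm_num)]
    calc r.trace.re * ‖u‖ * 8 ≤ Real.sqrt L * ‖u‖ * 8 := by gcongr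
      _ ≤ ‖u‖ * (8 * Real.sqrt L + 1) := by linarith [norm_nonneg u]
  nlinarith [sq_nonneg (‖u‖ - 1 / 8)]

end

end Vale.Agent.P083
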