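import Vale.Agent.P083.Gap
import Vale.Agent.P083.Dual

/-!
Conjugation by the dual representations on pairs of strings, and exact snapping.
-/

namespace Vale.Agent.P083

noncomputable section

open scoped ComplexConjugate

/-- A monomial map: an index map and an additive phase. -/
abbrev Mon (Ω : Type) : Type := (Ω → Ω) × (Ω → K)

/-- Composition of monomial maps. -/
def mcomp {Ω : Type} (A B : Mon Ω) : Mon Ω := (B.1 ∘ A.1, fun ξ => A.2 ξ + B.2 (A.1 ξ))

variable {Ω : Type} [Fintype Ω]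

/-- The conjugation operator of a monomial map on pairs. -/
def pairOp (A : Mon Ω) : EuclideanSpace ℂ (Ω × Ω) →L[ℂ] EuclideanSpace ℂ (Ω × Ω) :=
  LinearMap.toContinuousLinearMap
    { toFun := fun v => WithLp.toLp 2 fun p : Ω × Ω =>
        ZMod.stdAddChar (A.2 p.1 - A.2 p.2) * v (A.1 p.1, A.1 p.2)
      map_add' := fun u v => by ext p; simp [mul_add]
      map_smul' := fun c v => by ext p; simp [mul_left_comm] }

theorem pairOp_apply (A : Mon Ω) (v : EuclideanSpace ℂ (Ω × Ω)) (ξ ζ : Ω) :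
    pairOp A v (ξ, ζ) = ZMod.stdAddChar (A.2 ξ - A.2 ζ) * v (A.1 ξ, A.1 ζ) := rfl

theorem pairOp_mul (A B : Mon Ω) : pairOp A * pairOp B = pairOp (mcomp A B) := by
  ext v ⟨ξ, ζ⟩
  rw [mul_apply_eq_comp, pairOp_apply, pairOp_apply, pairOp_apply, ← mul_assoc,
    ← AddChar.map_add_eq_mul]
  simp only [mcomp, Function.comp_apply]
  congr 2
  abel

theorem pairOp_id : pairOp ((id, fun _ => 0) : Mon Ω) = 1 := by
  ext v ⟨ξ, ζ⟩
  simp [pairOp_apply]

theorem star_pairOp {A B : Mon Ω} (h1 : Function.LeftInverse B.1 A.1)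
    (h2 : Function.RightInverse B.1 A.1) (hφ : ∀ ξ, B.2 (A.1 ξ) = -A.2 ξ) :
    star (pairOp A) = pairOp B := by
  rw [ContinuousLinearMap.star_eq_adjoint]
  symm
  rw [ContinuousLinearMap.eq_adjoint_iff]
  intro u v
  simp only [PiLp.inner_apply, RCLike.inner_apply]
  let e : Ω × Ω ≃ Ω × Ω :=
    { toFun := fun p => (A.1 p.1, A.1 p.2)
      invFun := fun p => (B.1 p.1, B.1 p.2)
      left_inv := fun p => Prod.ext (h1 p.1) (h1 p.2)
      right_inv := fun p => Prod.ext (h2 p.1) (h2 p.2) }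
  refine (Fintype.sum_equiv e _ _ fun p => ?_).symm
  obtain ⟨ξ, ζ⟩ := p
  change _ = v (A.1 ξ, A.1 ζ) * conj (pairOp B u (A.1 ξ, A.1 ζ))
  rw [pairOp_apply, pairOp_apply, h1 ξ, h1 ζ, hφ ξ, hφ ζ, map_mul, ← AddChar.map_neg_eq_conj,
    neg_sub, sub_neg_eq_add, neg_add_eq_sub]
  ring

section Dual

variable {n : ℕ}

/-- The additive phase. -/
def phi (g : Fin 4) (ξ : Str (n + 1)) : K := if g = 3 then (ξ 0).2.2 else 0

theorem phase_eq_dual (g : Fin 4) (ξ : Str (n + 1)) : phase g ξ = ZMod.stdAddChar (phi g ξ) := by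
  unfold phase phi
  split_ifs <;> simp

/-- The monomial map of a generator. -/
def gen (g : Fin 4) : Mon (Str (n + 1)) := (act g, phi g)

/-- Its inverse. -/
def genInv (g : Fin 4) : Mon (Str (n + 1)) := (actInv g, fun ξ => -phi g (actInv g ξ))

/-- The conjugation action of a generator on pairs of strings. -/
def conjZ (g : Fin 4) :
    EuclideanSpace ℂ (Str (n + 1) × Str (n + 1)) →L[ℂ]
      EuclideanSpace ℂ (Str (n + 1) × Str (n + 1)) := pairOp (gen g)

/-- The second coordinate of the following letter. -/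
def nexty (ξ : Str (n + 1)) (k : Fin (n + 1)) : K :=
  if h : k.val + 1 < n + 1 then (ξ ⟨k.val + 1, h⟩).2.1 else 0

theorem next_act (ξ : Str (n + 1)) (k : Fin (n + 1)) :
    next (act 0 ξ) k = next ξ k ∧ next (act 2 ξ) k = next ξ k ∧
    next (act 1 ξ) k = next ξ k - nexty ξ k ∧ next (actInv 0 ξ) k = next ξ k ∧
    next (actInv 2 ξ) k = next ξ k ∧ next (actInv 1 ξ) k = next ξ k + nexty ξ k ∧
    nexty (act 1 ξ) k = nexty ξ k ∧ nexty (act 2 ξ) k = nexty ξ k ∧
    nexty (actInv 1 ξ) k = nexty ξ k ∧ nexty (actInv 2 ξ) k = nexty ξ k := by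
  unfold next nexty
  by_cases h : k.val + 1 < n + 1 <;> simp [h, act, actInv]

theorem act_apply (ξ : Str (n + 1)) (k : Fin (n + 1)) :
    act 0 ξ k = ((ξ k).1, (ξ k).2.1 - (ξ k).1, (ξ k).2.2) ∧
    act 1 ξ k = ((ξ k).1, (ξ k).2.1, (ξ k).2.2 - (ξ k).2.1) ∧
    act 2 ξ k = ((ξ k).1 - next ξ k, (ξ k).2.1, (ξ k).2.2) ∧
    act 3 ξ k = ξ k ∧
    actInv 0 ξ k = ((ξ k).1, (ξ k).2.1 + (ξ k).1, (ξ k).2.2) ∧
    actInv 1 ξ k = ((ξ k).1, (ξ k).2.1, (ξ k).2.2 + (ξ k).2.1) ∧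
    actInv 2 ξ k = ((ξ k).1 + next ξ k, (ξ k).2.1, (ξ k).2.2) ∧
    actInv 3 ξ k = ξ k ∧ act 3 ξ = ξ ∧ actInv 3 ξ = ξ :=
  ⟨rfl, rfl, rfl, rfl, rfl, rfl, rfl, rfl, rfl, rfl⟩

theorem act_three (ξ : Str (n + 1)) : act 3 ξ = ξ ∧ actInv 3 ξ = ξ := ⟨rfl, rfl⟩

theorem conjZ_star (g : Fin 4) : star (conjZ (n := n) g) = pairOp (genInv g) := by
  refine star_pairOp (fun ξ => (qperm g).left_inv ξ) (fun ξ => (qperm g).right_inv ξ) fun ξ => ?_
  change -phi g (actInv g (act g ξ)) = -phi g ξ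
  rw [show actInv g (act g ξ) = ξ from (qperm g).left_inv ξ]

theorem conjZ_unit (g : Fin 4) :
    star (conjZ (n := n) g) * conjZ g = 1 ∧ conjZ (n := n) g * star (conjZ g) = 1 := by
  rw [conjZ_star, conjZ, pairOp_mul, pairOp_mul, ← pairOp_id]
  constructor <;> refine congrArg pairOp (Prod.ext (funext fun ξ => ?_) (funext fun ξ => ?_))
  · exact (qperm g).right_inv ξ
  · simp [mcomp, gen, genInv]
  · exact (qperm g).left_inv ξ
  · change phi g ξ + -phi g (actInv g (act g ξ)) = 0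
    rw [show actInv g (act g ξ) = ξ from (qperm g).left_inv ξ, add_neg_cancel]

/-- The change of the string in a step. -/
def stepVec : Fin 4 → Str (n + 1) → Str (n + 1)
  | 0, ξ => fun k => (0, (ξ k).1, 0)
  | 1, ξ => fun k => (0, 0, (ξ k).2.1)
  | 2, ξ => fun k => (next ξ k, 0, 0)
  | 3, _ => 0

theorem act_eq (g : Fin 4) (ξ : Str (n + 1)) : act g ξ = ξ - stepVec g ξ := by
  fin_cases g <;> funext k <;> simp [act, stepVec, Prod.ext_iff]

theorem stepVec_act (g : Fin 4) (ξ : Str (n + 1)) : stepVec g (act g ξ) = stepVec g ξ := by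
  fin_cases g <;> funext k <;> simp [act_apply, stepVec, next_act]

theorem phi_act (g : Fin 4) (ξ : Str (n + 1)) : phi g (act g ξ) = phi g ξ := by
  fin_cases g <;> simp [act, phi]

theorem conjZ_pow (g : Fin 4) (m : ℕ) :
    conjZ (n := n) g ^ m = pairOp (fun ξ => ξ - (m : K) • stepVec g ξ,
      fun ξ => (m : K) * phi g ξ) := by
  induction m with
  | zero =>
    rw [pow_zero, ← pairOp_id]
    simp
    rfl
  | succ m ih =>
    rw [pow_succ', ih, conjZ, pairOp_mul]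
    refine congrArg pairOp (Prod.ext (funext fun ξ => ?_) (funext fun ξ => ?_))
    · simp only [mcomp, gen, Function.comp_apply, stepVec_act, Nat.cast_succ, add_smul, one_smul]
      rw [act_eq]
      abel
    · simp only [mcomp, gen, phi_act, Nat.cast_succ]
      ring

theorem conjZ_heis (g h : Fin 4) :
    comm' (conjZ (n := n) g) (conjZ h) * conjZ g = conjZ g * comm' (conjZ g) (conjZ h) ∧
      comm' (conjZ (n := n) g) (conjZ h) * conjZ h = conjZ h * comm' (conjZ g) (conjZ h) := by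
  simp only [comm', conjZ_star]
  simp only [conjZ, pairOp_mul]
  constructor <;> refine congrArg pairOp (Prod.ext (funext fun ξ => funext fun k => ?_)
    (funext fun ξ => ?_))
  all_goals fin_cases g <;> fin_cases h <;>
    simp [mcomp, gen, genInv, act_apply, act_three, phi, next_act, Prod.ext_iff] <;> ring_nf

theorem conjZ_near4 {δ : ℝ} (hδ : 0 ≤ δ) : Near4 δ (conjZ (n := n)) := fun g => by
  have h17 : conjZ (n := n) g ^ 17 = 1 := by
    rw [conjZ_pow, ← pairOp_id, show ((17 : ℕ) : K) = 0 from ZMod.natCast_self 17]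
    simp
    rfl
  refine ⟨?_, ?_, ?_, fun h => ⟨?_, ?_⟩⟩
  · rw [(conjZ_unit g).1, sub_self, norm_zero]; exact hδ
  · rw [(conjZ_unit g).2, sub_self, norm_zero]; exact hδ
  · rw [h17, sub_self, norm_zero]; exact hδ
  · rw [(conjZ_heis g h).1, sub_self, norm_zero]; exact hδ
  · rw [(conjZ_heis g h).2, sub_self, norm_zero]; exact hδ

end Dual

/-- An almost invariant vector of the conjugation action is close to an invariant one. -/
theorem snap_exact : ∃ K0 : ℝ, 0 ≤ K0 ∧ ∀ (n : ℕ)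
    (v : EuclideanSpace ℂ (Str (n + 1) × Str (n + 1))), ‖v‖ ≤ 1 →
      ∃ u, ‖u - v‖ ≤ K0 * ∑ g, ‖conjZ g v - v‖ ∧ ∀ g, conjZ g u = u := by
  obtain ⟨K0, hK0, hsnap⟩ := snap
  refine ⟨K0, hK0, fun n v hv => ?_⟩
  set c := K0 * ∑ g, ‖conjZ g v - v‖
  have hseq : ∀ m : ℕ, ∃ u, ‖u - v‖ ≤ c + 1 / ((m : ℝ) + 1) ∧
      ∀ g, ‖conjZ g u - u‖ ≤ 1 / ((m : ℝ) + 1) := by
    intro m
    obtain ⟨δ, hδ, h⟩ := hsnap (1 / ((m : ℝ) + 1)) (by positivity)
    obtain ⟨u, -, h1, h2⟩ := h _ conjZ (conjZ_near4 hδ.le) ⊤ (fun _ _ _ => trivial) v trivial hv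
    exact ⟨u, h1, h2⟩
  choose u hu1 hu2 using hseq
  have hb : ∀ m, u m ∈ Metric.closedBall v (c + 1) := fun m => by
    rw [mem_closedBall_iff_norm]
    refine (hu1 m).trans (add_le_add le_rfl ?_)
    rw [div_le_one (by positivity)]
    linarith [(Nat.cast_nonneg m : (0 : ℝ) ≤ m)]
  obtain ⟨w, -, φ, hφ, hw⟩ := tendsto_subseq_of_bounded Metric.isBounded_closedBall hb
  have h0 : Filter.Tendsto (fun m => 1 / ((φ m : ℝ) + 1)) Filter.atTop (nhds 0) :=
    tendsto_one_div_add_atTop_nhds_zero_nat.comp hφ.tendsto_atTop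
  refine ⟨w, ?_, fun g => ?_⟩
  · exact le_of_tendsto_of_tendsto' (hw.sub_const v).norm
      (by simpa using h0.const_add c) fun m => hu1 (φ m)
  · refine sub_eq_zero.1 (norm_le_zero_iff.1 ?_)
    exact le_of_tendsto_of_tendsto' (((((conjZ g).continuous.tendsto w).comp hw)).sub hw).norm h0
      fun m => hu2 (φ m) g

end

end Vale.Agent.P083
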