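import Vale.Agent.P083.EndMono

/-!
Vectors invariant under conjugation are diagonal and flat on long orbits.
-/

namespace Vale.Agent.P083

noncomputable section

variable {n : ℕ}

theorem invariant_apply {w : EuclideanSpace ℂ (Str (n + 1) × Str (n + 1))}
    (hw : ∀ g, conjZ g w = w) (g : Fin 4) (ξ ζ : Str (n + 1)) :
    ZMod.stdAddChar (phi g ξ - phi g ζ) * w (act g ξ, act g ζ) = w (ξ, ζ) := by
  have h := pairOp_apply (gen g) w ξ ζ
  rw [show pairOp (gen g) w = w from hw g] at h
  exact h.symm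

theorem diag_of_invariant {w : EuclideanSpace ℂ (Str (n + 1) × Str (n + 1))}
    (hw : ∀ g, conjZ g w = w) {ξ ζ : Str (n + 1)} (h : w (ξ, ζ) ≠ 0) : ξ = ζ := by
  have hstep : ∀ (g : Fin 4) (a b : Str (n + 1)), w (a, b) ≠ 0 → w (act g a, act g b) ≠ 0 := by
    intro g a b hab h0
    refine hab ?_
    rw [← invariant_apply hw g a b, h0, mul_zero]
  have hfull : ∀ k : Fin (n + 1), (∀ a b, w (a, b) ≠ 0 → (a k).2.2 = (b k).2.2) →
      ∀ a b, w (a, b) ≠ 0 → a k = b k := by
    intro k hk a b hab
    have hy : ∀ a b, w (a, b) ≠ 0 → (a k).2.1 = (b k).2.1 := by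
      intro a b hab
      have h1 := hk _ _ (hstep 1 a b hab)
      simp only [act_apply, hk a b hab] at h1
      exact sub_right_injective h1
    have h0 := hy _ _ (hstep 0 a b hab)
    simp only [act_apply, hy a b hab] at h0
    exact Prod.ext (sub_right_injective h0) (Prod.ext (hy a b hab) (hk a b hab))
  have hw2 : ∀ (j : ℕ) (hj : j < n + 1) (a b : Str (n + 1)), w (a, b) ≠ 0 →
      (a ⟨j, hj⟩).2.2 = (b ⟨j, hj⟩).2.2 := by
    intro j
    induction j with
    | zero =>
      intro hj a b hab
      have h3 := invariant_apply hw 3 a b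
      rw [(act_three a).1, (act_three b).1] at h3
      simp only [phi, if_true] at h3
      have h1 : ZMod.stdAddChar ((a 0).2.2 - (b 0).2.2) = ZMod.stdAddChar (0 : K) := by
        rw [AddChar.map_zero_eq_one]
        exact mul_right_cancel₀ hab (by rw [h3, one_mul])
      exact sub_eq_zero.1 (ZMod.injective_stdAddChar h1)
    | succ j ih =>
      intro hj a b hab
      have hk := hfull ⟨j, by omega⟩ (ih (by omega))
      have h2 := congrArg Prod.fst (hk _ _ (hstep 2 a b hab))
      simp only [act_apply, hk a b hab] at h2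
      have h2' := sub_right_injective h2
      simpa [next, hj] using h2'
  funext k
  exact hfull k (hw2 k.val k.isLt) ξ ζ h

/-- The first coordinate of a letter, zero outside the string. -/
def getx (v : Str (n + 1)) (p : ℕ) : K := if h : p < n + 1 then (v ⟨p, h⟩).1 else 0

/-- The last nonzero first coordinate is at `p`. -/
def Top (v : Str (n + 1)) (p : ℕ) : Prop := getx v p ≠ 0 ∧ ∀ q, p < q → getx v q = 0

theorem top_unique {v : Str (n + 1)} {p q : ℕ} (hp : Top v p) (hq : Top v q) : p = q := by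
  rcases lt_trichotomy p q with h | h | h
  · exact absurd (hp.2 q h) hq.1
  · exact h
  · exact absurd (hq.2 p h) hp.1

theorem getx_shift (v : Str (n + 1)) (p : ℕ) :
    getx (stepVec 2 (stepVec 1 (stepVec 0 v))) p = getx v (p + 1) := by
  unfold getx
  by_cases h : p < n + 1
  · by_cases h' : p + 1 < n + 1 <;> simp [stepVec, next, h, h']
  · have h' : ¬ p + 1 < n + 1 := by omega
    simp [h, h']

theorem stepVec_linear (g : Fin 4) (c : K) (u v : Str (n + 1)) :
    stepVec g (u + v) = stepVec g u + stepVec g v ∧ stepVec g (c • u) = c • stepVec g u := by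
  fin_cases g <;> constructor <;> funext k <;>
    simp [stepVec, next, Prod.ext_iff] <;> split_ifs <;> simp

theorem closed_card {ξ : Str (n + 1)} (hξ : Supp ξ) (S : Finset (Str (n + 1))) (hmem : ξ ∈ S)
    (hcl : ∀ g, ∀ s ∈ S, act g s ∈ S) : n ≤ 17 ^ S.card := by
  classical
  rcases Nat.eq_zero_or_pos n with hn | hn
  · exact le_trans hn.le (Nat.zero_le _)
  set M := Submodule.span K (S : Set (Str (n + 1))) with hM
  have hclM : ∀ g, ∀ v ∈ M, stepVec g v ∈ M := by
    intro g v hv
    induction hv using Submodule.span_induction with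
    | mem s hs =>
      have e : stepVec g s = s - act g s := by rw [act_eq]; abel
      rw [e]
      exact M.sub_mem (Submodule.subset_span hs) (Submodule.subset_span (hcl g s hs))
    | zero =>
      have := (stepVec_linear g (0 : K) ξ ξ).2
      rw [zero_smul, zero_smul] at this
      rw [this]
      exact M.zero_mem
    | add u v _ _ hu hv =>
      rw [(stepVec_linear g (0 : K) u v).1]
      exact M.add_mem hu hv
    | smul c u _ hu =>
      rw [(stepVec_linear g c u u).2]
      exact M.smul_mem c hu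
  set F := (Finset.univ : Finset (S → K)).image fun f => ∑ s : S, f s • (s : Str (n + 1))
  have hMF : ∀ v ∈ M, v ∈ F := fun v hv => by
    obtain ⟨f, hf⟩ := Submodule.mem_span_finset'.1 hv
    exact Finset.mem_image.2 ⟨f, Finset.mem_univ _, hf⟩
  have hFc : F.card ≤ 17 ^ S.card := by
    refine Finset.card_image_le.trans ?_
    simp [Fintype.card_fun]
  have hx : ξ ∈ M := Submodule.subset_span hmem
  have hstart : ∃ v ∈ M, ∃ p, n ≤ p + 1 ∧ Top v p := by
    by_cases h1 : (ξ (Fin.last n)).1 = 0
    swap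
    · refine ⟨ξ, hx, n, by omega, ?_, fun q hq => dif_neg (by omega)⟩
      simpa [getx, Fin.last] using h1
    by_cases h2 : (ξ (Fin.last n)).2.1 = 0
    · have h3 : (ξ (Fin.last n)).2.2 ≠ 0 := fun h3 => hξ (Prod.ext h1 (Prod.ext h2 h3))
      refine ⟨_, hclM 2 ξ hx, n - 1, by omega, ?_, fun q hq => ?_⟩
      · simpa [getx, stepVec, next, Fin.last, show n - 1 < n + 1 by omega,
          show n - 1 + 1 = n by omega] using h3
      · unfold getx
        split_ifs with h
        · simp [stepVec, next, show ¬ q + 1 < n + 1 by omega]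
        · rfl
    · refine ⟨_, hclM 2 _ (hclM 1 ξ hx), n - 1, by omega, ?_, fun q hq => ?_⟩
      · simpa [getx, stepVec, next, Fin.last, show n - 1 < n + 1 by omega,
          show n - 1 + 1 = n by omega] using h2
      · unfold getx
        split_ifs with h
        · simp [stepVec, next, show ¬ q + 1 < n + 1 by omega]
        · rfl
  obtain ⟨v, hv, p, hp, htop⟩ := hstart
  have hdown : ∀ i, i ≤ p → ∃ u ∈ M, Top u (p - i) := by
    intro i
    induction i with
    | zero => exact fun _ => ⟨v, hv, by simpa using htop⟩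
    | succ i ih =>
      intro hi
      obtain ⟨u, hu, ht⟩ := ih (by omega)
      refine ⟨_, hclM 2 _ (hclM 1 _ (hclM 0 u hu)), ?_, fun q hq => ?_⟩
      · rw [getx_shift, show p - (i + 1) + 1 = p - i by omega]
        exact ht.1
      · rw [getx_shift]
        exact ht.2 _ (by omega)
  have hall : ∀ q : Fin (p + 1), ∃ u ∈ M, Top u q.val := fun q => by
    obtain ⟨u, hu, ht⟩ := hdown (p - q.val) (by omega)
    exact ⟨u, hu, by rwa [show p - (p - q.val) = q.val by omega] at ht⟩
  choose u hu ht using hall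
  calc n ≤ p + 1 := hp
    _ = (Finset.univ : Finset (Fin (p + 1))).card := by simp
    _ ≤ F.card := Finset.card_le_card_of_injOn u (fun q _ => hMF _ (hu q))
        (fun a _ b _ hab => Fin.ext (top_unique (ht a) (hab ▸ ht b)))
    _ ≤ 17 ^ S.card := hFc

theorem flat_bound {w : EuclideanSpace ℂ (Str (n + 1) × Str (n + 1))}
    (hw : ∀ g, conjZ g w = w) {ξ : Str (n + 1)} (hξ : Supp ξ) {B : ℕ} (hB : 17 ^ B < n) :
    (B : ℝ) * ‖w (ξ, ξ)‖ ^ 2 ≤ ‖w‖ ^ 2 := by
  classical
  set S := Finset.univ.filter fun η : Str (n + 1) => ‖w (η, η)‖ = ‖w (ξ, ξ)‖ with hS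
  have hcl : ∀ g, ∀ s ∈ S, act g s ∈ S := by
    intro g s hs
    simp only [hS, Finset.mem_filter, Finset.mem_univ, true_and] at hs ⊢
    rw [← hs, ← invariant_apply hw g s s, sub_self, AddChar.map_zero_eq_one, one_mul]
  have hc := closed_card hξ S (by simp [hS]) hcl
  have hlt : B < S.card := (Nat.pow_lt_pow_iff_right (by norm_num : 1 < 17)).1 (hB.trans_le hc)
  calc (B : ℝ) * ‖w (ξ, ξ)‖ ^ 2 ≤ S.card * ‖w (ξ, ξ)‖ ^ 2 := by gcongr
    _ = ∑ η ∈ S, ‖w (η, η)‖ ^ 2 := by
        rw [Finset.sum_congr rfl (g := fun _ => ‖w (ξ, ξ)‖ ^ 2) fun η hη => by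
          rw [(Finset.mem_filter.1 hη).2], Finset.sum_const, nsmul_eq_mul]
    _ ≤ ∑ η, ‖w (η, η)‖ ^ 2 :=
        Finset.sum_le_sum_of_subset_of_nonneg (Finset.subset_univ _) fun _ _ _ => sq_nonneg _
    _ ≤ ∑ η, ∑ η', ‖w (η, η')‖ ^ 2 := Finset.sum_le_sum fun η _ =>
        Finset.single_le_sum (f := fun η' => ‖w (η, η')‖ ^ 2) (fun _ _ => sq_nonneg _)
          (Finset.mem_univ η)
    _ = ‖w‖ ^ 2 := by rw [EuclideanSpace.norm_sq_eq, Fintype.sum_prod_type]

end

end Vale.Agent.P083
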