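import Vale.Agent.P083.GapEst

/-!
Snapping almost invariant vectors of four almost Heisenberg unitaries.
-/

namespace Vale.Agent.P083

noncomputable section

section

variable {V : Type} [NormedAddCommGroup V] [InnerProductSpace ℂ V] [CompleteSpace V]

/-- The energy of a vector. -/
def energy (Z : Fin 4 → (V →L[ℂ] V)) (v : V) : ℝ := (inner ℂ v (opD Z v)).re

/-- One damping step. -/
def damp (Z : Fin 4 → (V →L[ℂ] V)) (v : V) : V := v - (1 / 8 : ℂ) • opD Z v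

theorem opD_mem (Z : Fin 4 → (V →L[ℂ] V)) (W : Submodule ℂ V)
    (hW : ∀ g, ∀ x ∈ W, Z g x ∈ W) {v : V} (hv : v ∈ W) : opD Z v ∈ W := by
  have hp : ∀ (g : Fin 4) (k : ℕ), (Z g ^ k) v ∈ W := by
    intro g k
    induction k with
    | zero => simpa using hv
    | succ k ih => rw [pow_succ', mul_apply_eq_comp]; exact hW g _ ih
  simp only [opD, opF, av, sum_apply, sub_apply, smul_apply, one_apply_eq_self]
  exact W.sum_mem fun g _ => W.sub_mem hv (W.smul_mem _ (W.sum_mem fun k _ => hp g _))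

theorem sum_sq_le (Z : Fin 4 → (V →L[ℂ] V)) {θ : ℝ} (h : GapEst θ Z) (v : V) :
    ∑ g, ‖opF (Z g) v‖ ^ 2 ≤ energy Z v + 4 * θ * ‖v‖ ^ 2 ∧
      energy Z v ≤ ∑ g, ‖opF (Z g) v‖ ^ 2 + 4 * θ * ‖v‖ ^ 2 := by
  have hone : ∀ g, |‖opF (Z g) v‖ ^ 2 - (inner ℂ v (opF (Z g) v)).re| ≤ θ * ‖v‖ ^ 2 := by
    intro g
    have e : ‖opF (Z g) v‖ ^ 2 - (inner ℂ v (opF (Z g) v)).re
        = (inner ℂ v ((star (opF (Z g)) * opF (Z g) - opF (Z g)) v)).re := by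
      rw [sub_apply, mul_apply_eq_comp, inner_sub_right, Complex.sub_re,
        ContinuousLinearMap.star_eq_adjoint, ContinuousLinearMap.adjoint_inner_right,
        inner_self_eq_norm_sq_to_K]
      norm_cast
    rw [e]
    refine (Complex.abs_re_le_norm _).trans ((norm_inner_le_norm _ _).trans ?_)
    calc ‖v‖ * ‖(star (opF (Z g)) * opF (Z g) - opF (Z g)) v‖
        ≤ ‖v‖ * (θ * ‖v‖) := by
          gcongr
          exact ContinuousLinearMap.le_of_opNorm_le _ (h.2.2.2.1 g) _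
      _ = θ * ‖v‖ ^ 2 := by ring
  have e : energy Z v = ∑ g, (inner ℂ v (opF (Z g) v)).re := by
    simp only [energy, opD, sum_apply, inner_sum, Complex.re_sum]
  simp only [Fin.sum_univ_four] at e ⊢
  have a0 := abs_le.1 (hone 0)
  have a1 := abs_le.1 (hone 1)
  have a2 := abs_le.1 (hone 2)
  have a3 := abs_le.1 (hone 3)
  constructor <;> linarith [a0.1, a0.2, a1.1, a1.2, a2.1, a2.2, a3.1, a3.2]

theorem norm_opF_le (Z : Fin 4 → (V →L[ℂ] V)) {θ : ℝ} (hθ : θ ≤ 1) (h : GapEst θ Z) (g : Fin 4) :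
    ‖opF (Z g)‖ ≤ 2 := by
  have h2 := h.2.2.2.1 g
  have h3 : ‖opF (Z g)‖ * ‖opF (Z g)‖ ≤ ‖opF (Z g)‖ + θ := by
    rw [← CStarRing.norm_star_mul_self]
    calc ‖star (opF (Z g)) * opF (Z g)‖
        = ‖(star (opF (Z g)) * opF (Z g) - opF (Z g)) + opF (Z g)‖ := by rw [sub_add_cancel]
      _ ≤ _ := (norm_add_le _ _).trans (by linarith)
  nlinarith [norm_nonneg (opF (Z g))]

theorem norm_opD_le (Z : Fin 4 → (V →L[ℂ] V)) {θ : ℝ} (hθ : θ ≤ 1) (h : GapEst θ Z) :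
    ‖opD Z‖ ≤ 8 := by
  refine (norm_sum_le _ _).trans ?_
  refine (Finset.sum_le_sum fun g _ => norm_opF_le Z hθ h g).trans ?_
  simp
  norm_num

theorem norm_opD_sq_le (Z : Fin 4 → (V →L[ℂ] V)) (v : V) :
    ‖opD Z v‖ ^ 2 ≤ 4 * ∑ g, ‖opF (Z g) v‖ ^ 2 := by
  have h1 : ‖opD Z v‖ ≤ ∑ g, ‖opF (Z g) v‖ := by
    rw [opD, sum_apply]
    exact norm_sum_le _ _
  calc ‖opD Z v‖ ^ 2 ≤ (∑ g, ‖opF (Z g) v‖) ^ 2 := pow_le_pow_left₀ (norm_nonneg _) h1 2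
    _ ≤ _ := by simpa using sq_sum_le_card_mul_sum_sq (s := Finset.univ) (f := fun g => ‖opF (Z g) v‖)

theorem damp_step (Z : Fin 4 → (V →L[ℂ] V)) {θ : ℝ} (hθ0 : 0 ≤ θ) (hθ : θ ≤ 1) (h : GapEst θ Z)
    (v : V) :
    energy Z (damp Z v) ≤ (1 - gap / 8) * energy Z v + 2 * θ * ‖v‖ ^ 2 ∧
      ‖damp Z v - v‖ ≤ Real.sqrt (energy Z v + 4 * θ * ‖v‖ ^ 2) ∧ ‖damp Z v‖ ≤ 2 * ‖v‖ := by
  set D := opD Z with hD
  have hDv : ‖D v‖ ≤ 8 * ‖v‖ :=
    ContinuousLinearMap.le_of_opNorm_le _ (norm_opD_le Z hθ h) v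
  have hdv : ‖damp Z v - v‖ = ‖D v‖ / 8 := by
    rw [damp, sub_sub_cancel_left, norm_neg, norm_smul]
    simp [hD]
    ring
  refine ⟨?_, ?_, ?_⟩
  · have e : energy Z (damp Z v) = (inner ℂ v (D v)).re - (1 / 8) * (inner ℂ v (D (D v))).re
        - (1 / 8) * ‖D v‖ ^ 2 + (1 / 64) * (inner ℂ (D v) (D (D v))).re := by
      have : (inner ℂ (D v) (D v)).re = ‖D v‖ ^ 2 := by
        rw [inner_self_eq_norm_sq_to_K]; norm_cast
      rw [← this]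
      simp only [energy, damp, ← hD, map_sub, map_smul, inner_sub_left, inner_sub_right,
        inner_smul_left, inner_smul_right, map_div₀, map_one, map_ofNat]
      simp [Complex.sub_re, Complex.mul_re, Complex.div_re]
      ring
    have e2 : ‖D v‖ ^ 2 - θ * ‖v‖ * ‖D v‖ ≤ (inner ℂ v (D (D v))).re := by
      have : (inner ℂ v (D (D v))).re
          = ‖D v‖ ^ 2 + (inner ℂ ((star D - D) v) (D v)).re := by
        rw [sub_apply, inner_sub_left, ContinuousLinearMap.star_eq_adjoint,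
          ContinuousLinearMap.adjoint_inner_left, Complex.sub_re,
          show (inner ℂ (D v) (D v)).re = ‖D v‖ ^ 2 from inner_self_eq_norm_sq (𝕜 := ℂ) (D v)]
        ring
      rw [this]
      have hb : |(inner ℂ ((star D - D) v) (D v)).re| ≤ θ * ‖v‖ * ‖D v‖ := by
        refine (Complex.abs_re_le_norm _).trans ((norm_inner_le_norm _ _).trans ?_)
        gcongr
        exact ContinuousLinearMap.le_of_opNorm_le _ h.2.2.1 v
      linarith [(abs_le.1 hb).1]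
    have e3 : (inner ℂ (D v) (D (D v))).re ≤ 8 * ‖D v‖ ^ 2 := by
      refine (Complex.re_le_norm _).trans ((norm_inner_le_norm _ _).trans ?_)
      calc ‖D v‖ * ‖D (D v)‖ ≤ ‖D v‖ * (8 * ‖D v‖) := by
            gcongr
            exact ContinuousLinearMap.le_of_opNorm_le _ (norm_opD_le Z hθ h) _
        _ = _ := by ring
    have e4 := h.2.1 v
    have e5 : θ * ‖v‖ * ‖D v‖ ≤ 8 * θ * ‖v‖ ^ 2 := by
      calc θ * ‖v‖ * ‖D v‖ ≤ θ * ‖v‖ * (8 * ‖v‖) := by gcongr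
        _ = _ := by ring
    have hnn : (0 : ℝ) ≤ θ * ‖v‖ ^ 2 := mul_nonneg hθ0 (sq_nonneg _)
    rw [e]
    simp only [energy, ← hD] at e4 ⊢
    nlinarith [sq_nonneg ‖D v‖]
  · rw [hdv]
    refine Real.le_sqrt_of_sq_le ?_
    have := norm_opD_sq_le Z v
    have := (sum_sq_le Z h v).1
    have : (0 : ℝ) ≤ ∑ g, ‖opF (Z g) v‖ ^ 2 := Finset.sum_nonneg fun g _ => sq_nonneg _
    rw [← hD] at *
    nlinarith
  · calc ‖damp Z v‖ = ‖(damp Z v - v) + v‖ := by rw [sub_add_cancel]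
      _ ≤ ‖damp Z v - v‖ + ‖v‖ := norm_add_le _ _
      _ ≤ 2 * ‖v‖ := by rw [hdv]; linarith

theorem norm_opF_apply_le (Z : Fin 4 → (V →L[ℂ] V)) (g : Fin 4) (hZ : ‖Z g‖ ≤ 2) (v : V) :
    ‖opF (Z g) v‖ ≤ 2 ^ 17 * ‖Z g v - v‖ := by
  have hk : ∀ k : ℕ, ‖(Z g ^ k) v - v‖ ≤ (2 ^ k - 1) * ‖Z g v - v‖ := by
    intro k
    induction k with
    | zero => simp
    | succ k ih =>
      have e : (Z g ^ (k + 1)) v - v = Z g ((Z g ^ k) v - v) + (Z g v - v) := by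
        rw [pow_succ', mul_apply_eq_comp, map_sub]
        abel
      rw [e]
      refine (norm_add_le _ _).trans ?_
      have : ‖Z g ((Z g ^ k) v - v)‖ ≤ 2 * ((2 ^ k - 1) * ‖Z g v - v‖) :=
        (ContinuousLinearMap.le_of_opNorm_le _ hZ _).trans (by linarith)
      calc _ ≤ 2 * ((2 ^ k - 1) * ‖Z g v - v‖) + ‖Z g v - v‖ := by linarith
        _ = _ := by ring
  have e : opF (Z g) v = (1 / 17 : ℂ) • ∑ k : K, (v - (Z g ^ k.val) v) := by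
    simp only [opF, av, sub_apply, one_apply_eq_self, smul_apply, sum_apply,
      Finset.sum_sub_distrib, smul_sub]
    rw [Finset.sum_const, Finset.card_univ, ZMod.card, ← Nat.cast_smul_eq_nsmul ℂ, smul_smul]
    norm_num
  rw [e, norm_smul]
  calc ‖(1 / 17 : ℂ)‖ * ‖∑ k : K, (v - (Z g ^ k.val) v)‖
      ≤ ‖(1 / 17 : ℂ)‖ * ∑ _k : K, 2 ^ 17 * ‖Z g v - v‖ := by
        gcongr
        refine (norm_sum_le _ _).trans (Finset.sum_le_sum fun k _ => ?_)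
        rw [norm_sub_rev]
        refine (hk k.val).trans ?_
        gcongr
        have : (2 : ℝ) ^ k.val ≤ 2 ^ 17 := pow_le_pow_right₀ (by norm_num) (ZMod.val_lt k).le
        linarith
    _ = _ := by simp

theorem sqrt_add_le' {a b : ℝ} (ha : 0 ≤ a) (hb : 0 ≤ b) :
    Real.sqrt (a + b) ≤ Real.sqrt a + Real.sqrt b := by
  rw [Real.sqrt_le_left (by positivity)]
  nlinarith [Real.sq_sqrt ha, Real.sq_sqrt hb, Real.sqrt_nonneg a, Real.sqrt_nonneg b]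

theorem damp_mem (Z : Fin 4 → (V →L[ℂ] V)) (W : Submodule ℂ V)
    (hW : ∀ g, ∀ x ∈ W, Z g x ∈ W) {v : V} (hv : v ∈ W) : ∀ k, (damp Z)^[k] v ∈ W := by
  intro k
  induction k with
  | zero => simpa using hv
  | succ k ih =>
    rw [Function.iterate_succ_apply', damp]
    exact W.sub_mem ih (W.smul_mem _ (opD_mem Z W hW ih))

/-- The starting energy bound. -/
def start (Z : Fin 4 → (V →L[ℂ] V)) (θ : ℝ) (v : V) : ℝ := ∑ g, ‖opF (Z g) v‖ ^ 2 + 4 * θ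

theorem iter_est (Z : Fin 4 → (V →L[ℂ] V)) {θ : ℝ} (hθ0 : 0 ≤ θ) (hθ : θ ≤ 1) (h : GapEst θ Z)
    (v : V) (hv : ‖v‖ ≤ 1) (k : ℕ) :
    energy Z ((damp Z)^[k] v) ≤ (1 - gap / 8) ^ k * start Z θ v + 2 * θ * k * 4 ^ k ∧
      ‖(damp Z)^[k] v‖ ≤ 2 ^ k := by
  have hρ0 : 0 ≤ 1 - gap / 8 := by linarith [gap_le_one]
  have hρ1 : 1 - gap / 8 ≤ 1 := by linarith [gap_pos]
  induction k with
  | zero =>
    have := (sum_sq_le Z h v).2
    have hv2 : ‖v‖ ^ 2 ≤ 1 := pow_le_one₀ (norm_nonneg _) hv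
    simp only [Function.iterate_zero, id_eq, pow_zero, one_mul, Nat.cast_zero, mul_zero,
      zero_mul, add_zero, start]
    exact ⟨by nlinarith, hv⟩
  | succ k ih =>
    rw [Function.iterate_succ_apply']
    obtain ⟨h1, -, h2⟩ := damp_step Z hθ0 hθ h ((damp Z)^[k] v)
    refine ⟨h1.trans ?_, h2.trans (by rw [pow_succ]; linarith [ih.2])⟩
    set e := energy Z ((damp Z)^[k] v)
    set N := ‖(damp Z)^[k] v‖
    have hN : N ^ 2 ≤ 4 ^ k := by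
      calc N ^ 2 ≤ (2 ^ k) ^ 2 := pow_le_pow_left₀ (norm_nonneg _) ih.2 2
        _ = 4 ^ k := by rw [← pow_mul, mul_comm, pow_mul]; norm_num
    have a1 : (1 - gap / 8) * e
        ≤ (1 - gap / 8) * ((1 - gap / 8) ^ k * start Z θ v + 2 * θ * k * 4 ^ k) :=
      mul_le_mul_of_nonneg_left ih.1 hρ0
    have a2 : (1 - gap / 8) * (2 * θ * k * 4 ^ k) ≤ 1 * (2 * θ * k * 4 ^ k) :=
      mul_le_mul_of_nonneg_right hρ1 (by positivity)
    have a3 : 2 * θ * N ^ 2 ≤ 2 * θ * 4 ^ k := by gcongr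
    have a4 : (0 : ℝ) ≤ θ * ((k : ℝ) + 1) * 4 ^ k := by positivity
    rw [pow_succ' (1 - gap / 8), pow_succ (4 : ℝ)]
    push_cast
    linarith

theorem move_est (Z : Fin 4 → (V →L[ℂ] V)) {θ : ℝ} (hθ0 : 0 ≤ θ) (hθ : θ ≤ 1) (h : GapEst θ Z)
    (v : V) (hv : ‖v‖ ≤ 1) (m : ℕ) :
    (∀ k, k ≤ m → Real.sqrt (energy Z ((damp Z)^[k] v) + 4 * θ * ‖(damp Z)^[k] v‖ ^ 2)
      ≤ Real.sqrt (1 - gap / 8) ^ k * Real.sqrt (start Z θ v)
        + 6 * ((m : ℝ) + 1) * 4 ^ m * Real.sqrt θ) ∧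
    ∀ k, k ≤ m → ‖(damp Z)^[k] v - v‖
      ≤ (∑ i ∈ Finset.range k, Real.sqrt (1 - gap / 8) ^ i) * Real.sqrt (start Z θ v)
        + k * (6 * ((m : ℝ) + 1) * 4 ^ m * Real.sqrt θ) := by
  set A : ℝ := 6 * ((m : ℝ) + 1) * 4 ^ m with hA
  have hρ0 : 0 ≤ 1 - gap / 8 := by linarith [gap_le_one]
  have hA0 : 1 ≤ A := by
    have : (1 : ℝ) ≤ 4 ^ m := one_le_pow₀ (by norm_num)
    have : (0 : ℝ) ≤ (m : ℝ) := Nat.cast_nonneg m
    nlinarith
  have hP0 : 0 ≤ start Z θ v := by unfold start; positivity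
  have hS : ∀ k, k ≤ m → Real.sqrt (energy Z ((damp Z)^[k] v) + 4 * θ * ‖(damp Z)^[k] v‖ ^ 2)
      ≤ Real.sqrt (1 - gap / 8) ^ k * Real.sqrt (start Z θ v) + A * Real.sqrt θ := by
    intro k hk
    obtain ⟨hen, hn⟩ := iter_est Z hθ0 hθ h v hv k
    have hn2 : ‖(damp Z)^[k] v‖ ^ 2 ≤ 4 ^ m := by
      calc ‖(damp Z)^[k] v‖ ^ 2 ≤ (2 ^ k) ^ 2 := pow_le_pow_left₀ (norm_nonneg _) hn 2
        _ = 4 ^ k := by rw [← pow_mul, mul_comm, pow_mul]; norm_num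
        _ ≤ 4 ^ m := pow_le_pow_right₀ (by norm_num) hk
    have h2 : (4 : ℝ) ^ k ≤ 4 ^ m := pow_le_pow_right₀ (by norm_num) hk
    have h3 : (k : ℝ) ≤ m := Nat.cast_le.2 hk
    have h4 : 2 * θ * k * 4 ^ k + 4 * θ * ‖(damp Z)^[k] v‖ ^ 2
        ≤ 2 * θ * m * 4 ^ m + 4 * θ * 4 ^ m := by gcongr
    have h5 : 2 * θ * m * 4 ^ m + 4 * θ * 4 ^ m ≤ A * θ := by
      rw [hA]
      have : 0 ≤ θ * m * 4 ^ m := by positivity
      have : 0 ≤ θ * 4 ^ m := by positivity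
      linarith
    have h1 : energy Z ((damp Z)^[k] v) + 4 * θ * ‖(damp Z)^[k] v‖ ^ 2
        ≤ (1 - gap / 8) ^ k * start Z θ v + A * θ := by linarith
    have hr : Real.sqrt ((1 - gap / 8) ^ k) = Real.sqrt (1 - gap / 8) ^ k := by
      rw [Real.sqrt_eq_iff_eq_sq (pow_nonneg hρ0 _) (pow_nonneg (Real.sqrt_nonneg _) _), ← pow_mul,
        mul_comm, pow_mul, Real.sq_sqrt hρ0]
    have hA' : Real.sqrt A ≤ A := by
      rw [Real.sqrt_le_left (by linarith)]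
      nlinarith
    calc _ ≤ Real.sqrt ((1 - gap / 8) ^ k * start Z θ v + A * θ) := Real.sqrt_le_sqrt h1
      _ ≤ Real.sqrt ((1 - gap / 8) ^ k * start Z θ v) + Real.sqrt (A * θ) :=
          sqrt_add_le' (mul_nonneg (pow_nonneg hρ0 _) hP0) (by positivity)
      _ ≤ _ := by
          rw [Real.sqrt_mul (pow_nonneg hρ0 _), hr, Real.sqrt_mul (by linarith : (0 : ℝ) ≤ A)]
          gcongr
  refine ⟨hS, fun k => ?_⟩
  induction k with
  | zero => intro _; simp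
  | succ k ih =>
    intro hk
    have h1 := (damp_step Z hθ0 hθ h ((damp Z)^[k] v)).2.1
    have h2 := hS k (by omega)
    have h3 := ih (by omega)
    rw [Function.iterate_succ_apply', Finset.sum_range_succ, add_mul]
    push_cast
    linarith [norm_sub_le_norm_sub_add_norm_sub (damp Z ((damp Z)^[k] v)) ((damp Z)^[k] v) v]

theorem start_bounds (Z : Fin 4 → (V →L[ℂ] V)) {θ : ℝ} (hθ0 : 0 ≤ θ) (hθ : θ ≤ 1)
    (h : GapEst θ Z) (v : V) (hv : ‖v‖ ≤ 1) :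
    Real.sqrt (start Z θ v) ≤ 5 ∧
      Real.sqrt (start Z θ v) ≤ 2 ^ 17 * ∑ g, ‖Z g v - v‖ + 2 * Real.sqrt θ := by
  constructor
  · rw [Real.sqrt_le_left (by norm_num), start]
    have hF2 : ∀ g, ‖opF (Z g) v‖ ^ 2 ≤ 4 := fun g => by
      have h2 := (ContinuousLinearMap.le_of_opNorm_le _ (norm_opF_le Z hθ h g) v).trans
        (show (2 : ℝ) * ‖v‖ ≤ 2 by linarith)
      calc ‖opF (Z g) v‖ ^ 2 ≤ 2 ^ 2 := pow_le_pow_left₀ (norm_nonneg _) h2 2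
        _ = 4 := by norm_num
    rw [Fin.sum_univ_four]
    linarith [hF2 0, hF2 1, hF2 2, hF2 3]
  · have h2 : Real.sqrt (∑ g, ‖opF (Z g) v‖ ^ 2) ≤ ∑ g, ‖opF (Z g) v‖ := by
      rw [Real.sqrt_le_left (by positivity)]
      exact Finset.sum_sq_le_sq_sum_of_nonneg fun g _ => norm_nonneg _
    have h3 : ∑ g, ‖opF (Z g) v‖ ≤ 2 ^ 17 * ∑ g, ‖Z g v - v‖ := by
      rw [Finset.mul_sum]
      exact Finset.sum_le_sum fun g _ => norm_opF_apply_le Z g (h.1 g) v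
    have h4 : Real.sqrt (4 * θ) = 2 * Real.sqrt θ := by
      rw [show (4 : ℝ) * θ = 2 ^ 2 * θ by ring, Real.sqrt_mul (by norm_num),
        Real.sqrt_sq (by norm_num)]
    have h1 : Real.sqrt (start Z θ v) ≤ Real.sqrt (∑ g, ‖opF (Z g) v‖ ^ 2) + Real.sqrt (4 * θ) :=
      sqrt_add_le' (Finset.sum_nonneg fun g _ => sq_nonneg _) (by linarith)
    linarith

theorem move_final (Z : Fin 4 → (V →L[ℂ] V)) {θ : ℝ} (hθ0 : 0 ≤ θ) (hθ : θ ≤ 1) (h : GapEst θ Z)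
    (v : V) (hv : ‖v‖ ≤ 1) (m : ℕ) :
    ‖(damp Z)^[m] v - v‖ ≤ (1 - Real.sqrt (1 - gap / 8))⁻¹ * 2 ^ 17 * ∑ g, ‖Z g v - v‖
        + (2 * (1 - Real.sqrt (1 - gap / 8))⁻¹ + m * (6 * ((m : ℝ) + 1) * 4 ^ m))
          * Real.sqrt θ := by
  set s := Real.sqrt (1 - gap / 8)
  have hs0 : 0 ≤ s := Real.sqrt_nonneg _
  have hs1 : s < 1 := by
    rw [show s = Real.sqrt (1 - gap / 8) from rfl, Real.sqrt_lt' one_pos]
    linarith [gap_pos]
  have hsum : (∑ i ∈ Finset.range m, s ^ i) ≤ (1 - s)⁻¹ := by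
    have h1 : (∑ i ∈ Finset.range m, s ^ i) * (1 - s) = 1 - s ^ m := geom_sum_mul_neg s m
    rw [← one_div, le_div_iff₀ (by linarith), h1]
    linarith [pow_nonneg hs0 m]
  have h2 := mul_le_mul hsum (start_bounds Z hθ0 hθ h v hv).2 (Real.sqrt_nonneg _)
    (inv_nonneg.2 (by linarith))
  have h1 := (move_est Z hθ0 hθ h v hv m).2 m le_rfl
  linarith

theorem small_final (Z : Fin 4 → (V →L[ℂ] V)) {θ : ℝ} (hθ0 : 0 ≤ θ) (hθ : θ ≤ 1) (h : GapEst θ Z)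
    (v : V) (hv : ‖v‖ ≤ 1) (m : ℕ) (g : Fin 4) :
    ‖Z g ((damp Z)^[m] v) - (damp Z)^[m] v‖ ≤ Real.sqrt (1 - gap / 8) ^ m * 15
        + (3 * (6 * ((m : ℝ) + 1) * 4 ^ m) + 4 ^ m) * Real.sqrt θ := by
  set w := (damp Z)^[m] v
  have hu := (move_est Z hθ0 hθ h v hv m).1 m le_rfl
  have h1 : ‖Z g w - w‖ ≤ 3 * ‖opF (Z g) w‖ + θ * ‖w‖ := by
    have e : Z g w - w
        = (Z g - 1) (opF (Z g) w) + ((Z g - 1) * (1 - opF (Z g))) w := by
      simp only [mul_apply_eq_comp, sub_apply, map_sub, one_apply_eq_self]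
      abel
    rw [e]
    refine (norm_add_le _ _).trans (add_le_add ?_ ?_)
    · refine ContinuousLinearMap.le_of_opNorm_le _ ?_ _
      exact (norm_sub_le _ _).trans (by
        have := h.1 g
        have : ‖(1 : V →L[ℂ] V)‖ ≤ 1 := ContinuousLinearMap.norm_id_le
        linarith)
    · exact ContinuousLinearMap.le_of_opNorm_le _ (h.2.2.2.2 g) _
  have h2 : ‖opF (Z g) w‖ ≤ Real.sqrt (energy Z w + 4 * θ * ‖w‖ ^ 2) := by
    refine Real.le_sqrt_of_sq_le (le_trans ?_ (sum_sq_le Z h w).1)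
    exact Finset.single_le_sum (f := fun g => ‖opF (Z g) w‖ ^ 2)
      (fun i _ => sq_nonneg _) (Finset.mem_univ g)
  have h3 : θ * ‖w‖ ≤ 4 ^ m * Real.sqrt θ := by
    have a1 : ‖w‖ ≤ (4 : ℝ) ^ m := (iter_est Z hθ0 hθ h v hv m).2.trans
      (pow_le_pow_left₀ (by norm_num) (by norm_num) m)
    have a2 : θ ≤ Real.sqrt θ := Real.le_sqrt_of_sq_le (by nlinarith)
    rw [mul_comm]
    gcongr
  have h4 := mul_le_mul_of_nonneg_left (start_bounds Z hθ0 hθ h v hv).1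
    (pow_nonneg (Real.sqrt_nonneg (1 - gap / 8)) m)
  linarith

end

/-- Almost invariant vectors are close to much more invariant ones, uniformly in the space. -/
theorem snap : ∃ K0 : ℝ, 0 ≤ K0 ∧ ∀ ε : ℝ, 0 < ε → ∃ δ : ℝ, 0 < δ ∧
    ∀ (V : Type) [NormedAddCommGroup V] [InnerProductSpace ℂ V] [CompleteSpace V]
      (Z : Fin 4 → (V →L[ℂ] V)), Near4 δ Z →
      ∀ (W : Submodule ℂ V), (∀ g, ∀ x ∈ W, Z g x ∈ W) → ∀ v ∈ W, ‖v‖ ≤ 1 →
        ∃ u ∈ W, ‖u - v‖ ≤ K0 * ∑ g, ‖Z g v - v‖ + ε ∧ ∀ g, ‖Z g u - u‖ ≤ ε := by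
  set s : ℝ := Real.sqrt (1 - gap / 8) with hsd
  have hs0 : 0 ≤ s := Real.sqrt_nonneg _
  have hs1 : s < 1 := by
    rw [hsd, Real.sqrt_lt' one_pos]
    linarith [gap_pos]
  have hG : 0 < (1 - s)⁻¹ := inv_pos.2 (by linarith)
  refine ⟨(1 - s)⁻¹ * 2 ^ 17, by positivity, fun ε hε => ?_⟩
  have hlim := (tendsto_pow_atTop_nhds_zero_of_lt_one hs0 hs1).mul_const (15 : ℝ)
  rw [zero_mul] at hlim
  obtain ⟨m, hm⟩ := (hlim.eventually_le_const (half_pos hε)).exists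
  set A : ℝ := 6 * ((m : ℝ) + 1) * 4 ^ m with hA
  set B : ℝ := 2 * (1 - s)⁻¹ + m * A + 3 * A + 4 ^ m with hB
  have hA0 : 0 < A := by positivity
  have hB0 : 0 < B := by positivity
  set θ : ℝ := min 1 ((ε / (2 * B)) ^ 2) with hθd
  have hθ0 : 0 < θ := lt_min one_pos (by positivity)
  have hθ1 : θ ≤ 1 := min_le_left _ _
  have hBε : B * Real.sqrt θ ≤ ε / 2 := by
    calc B * Real.sqrt θ ≤ B * (ε / (2 * B)) := by
          gcongr
          rw [← Real.sqrt_sq (by positivity : 0 ≤ ε / (2 * B))]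
          exact Real.sqrt_le_sqrt (min_le_right _ _)
      _ = ε / 2 := by field_simp
  have hn : 0 ≤ Real.sqrt θ := Real.sqrt_nonneg θ
  have hm0 : (0 : ℝ) ≤ (m : ℝ) * A * Real.sqrt θ := by positivity
  have h40 : (0 : ℝ) ≤ 4 ^ m * Real.sqrt θ := by positivity
  have hA1 : 0 ≤ A * Real.sqrt θ := by positivity
  have hG1 : 0 ≤ (1 - s)⁻¹ * Real.sqrt θ := by positivity
  obtain ⟨δ, hδ, hest⟩ := exists_gapEst θ hθ0
  refine ⟨δ, hδ, fun V _ _ _ Z hZ W hW v hv hv1 =>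
    ⟨(damp Z)^[m] v, damp_mem Z W hW hv m, ?_, fun g => ?_⟩⟩
  · have h := move_final Z hθ0.le hθ1 (hest V Z hZ) v hv1 m
    rw [← hsd, ← hA] at h
    rw [hB] at hBε
    linarith
  · have h := small_final Z hθ0.le hθ1 (hest V Z hZ) v hv1 m g
    rw [← hsd, ← hA] at h
    rw [hB] at hBε
    linarith

end

end Vale.Agent.P083
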