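import Vale.Agent.P083.Asymp

/-!
Uniform operator estimates for four almost Heisenberg almost unitaries.
-/

namespace Vale.Agent.P083

noncomputable section

open Filter Topology

/-- The cosine of the angle between two averages. -/
def cang : ℝ := Real.sqrt (1 / 17)

/-- The spectral gap. -/
def gap : ℝ := 1 - 3 * cang

theorem cang_pos : 0 < cang := Real.sqrt_pos.2 (by norm_num)

theorem cang_sq : cang ^ 2 = 1 / 17 := Real.sq_sqrt (by norm_num)

theorem cang_lt : cang < 1 / 3 := by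
  rw [cang, Real.sqrt_lt' (by norm_num)]
  norm_num

theorem gap_pos : 0 < gap := by
  have := cang_lt
  unfold gap
  linarith

theorem gap_le_one : gap ≤ 1 := by
  have := cang_pos
  unfold gap
  linarith

/-- The complementary average. -/
def opF {R : Type*} [Ring R] [Algebra ℂ R] (x : R) : R := 1 - av x

/-- The Laplacian of four elements. -/
def opD {R : Type*} [Ring R] [Algebra ℂ R] (Z : Fin 4 → R) : R := ∑ g, opF (Z g)

theorem exact_gap {R : Type*} [Ring R] [Algebra ℂ R] [StarRing R] [StarModule ℂ R]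
    (Z : Fin 4 → R) (hu : ∀ g, star (Z g) * Z g = 1) (hu' : ∀ g, Z g * star (Z g) = 1)
    (ho : ∀ g, Z g ^ 17 = 1)
    (hL : ∀ g h, comm' (Z g) (Z h) * Z g = Z g * comm' (Z g) (Z h))
    (hR : ∀ g h, comm' (Z g) (Z h) * Z h = Z h * comm' (Z g) (Z h)) :
    (∃ r : Fin 6 → Fin 5 → R,
      star (opD Z) * opD Z - (gap : ℂ) • opD Z = ∑ i, ∑ j, star (r i j) * r i j) ∧
    star (opD Z) = opD Z ∧ (∀ g, star (opF (Z g)) * opF (Z g) = opF (Z g)) ∧
    ∀ g, (Z g - 1) * (1 - opF (Z g)) = 0 := by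
  have hs : ∀ g, star (opF (Z g)) = opF (Z g) := fun g => by
    rw [opF, star_sub, star_one, star_av (ho g) (hu g)]
  have hi : ∀ g, opF (Z g) * opF (Z g) = opF (Z g) := fun g => by
    simp only [opF, sub_mul, mul_sub, one_mul, mul_one, av_mul_av (ho g)]
    abel
  have hsD : star (opD Z) = opD Z := by
    simp only [opD, star_sum, hs]
  refine ⟨?_, hsD, fun g => by rw [hs, hi], fun g => ?_⟩
  · have P : ∀ g h, ∃ r : Fin 5 → R,
        opF (Z g) * opF (Z h) + opF (Z h) * opF (Z g)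
          + (cang : ℂ) • (opF (Z g) + opF (Z h)) = ∑ i, star (r i) * r i := fun g h =>
      pair_sos (ho g) (ho h) (hu g) (hu' g) (hu h) (hu' h) (hL g h) (hR g h) cang cang_sq
        cang_pos (by linarith [cang_lt])
    choose r hr using P
    refine ⟨![r 0 1, r 0 2, r 0 3, r 1 2, r 1 3, r 2 3], ?_⟩
    rw [hsD]
    simp only [Fin.sum_univ_six, Matrix.cons_val_zero, Matrix.cons_val_one, Matrix.cons_val,
      ← hr, opD, Fin.sum_univ_four, add_mul, mul_add, hi]
    have : (gap : ℂ) = 1 - 3 * (cang : ℂ) := by simp [gap]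
    rw [this]
    module
  · rw [opF, sub_sub_cancel, sub_mul, one_mul, mul_av (ho g), sub_self]

theorem norm_le_two {V : Type} [NormedAddCommGroup V] [InnerProductSpace ℂ V] [CompleteSpace V]
    {A : V →L[ℂ] V} {δ : ℝ} (hδ : δ ≤ 1) (h : ‖star A * A - 1‖ ≤ δ) : ‖A‖ ≤ 2 := by
  have h1 : ‖(1 : V →L[ℂ] V)‖ ≤ 1 := ContinuousLinearMap.norm_id_le
  have h2 : ‖A‖ * ‖A‖ ≤ 2 := by
    rw [← CStarRing.norm_star_mul_self]
    calc ‖star A * A‖ = ‖(star A * A - 1) + 1‖ := by rw [sub_add_cancel]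
      _ ≤ ‖star A * A - 1‖ + ‖(1 : V →L[ℂ] V)‖ := norm_add_le _ _
      _ ≤ 2 := by linarith
  nlinarith [norm_nonneg A]

section seq

variable {V : ℕ → Type} [∀ n, NormedAddCommGroup (V n)] [∀ n, InnerProductSpace ℂ (V n)]
  [∀ n, CompleteSpace (V n)]

variable (V) in
/-- The quotient map as an algebra map. -/
def qh : bdd V →ₐ[ℂ] Asym V := Ideal.Quotient.mkₐ ℂ (nullI V)

theorem cl_eq_qh (f : bdd V) : cl f = qh V f := rfl

theorem cl_av (f : bdd V) : cl (av f) = av (cl f) := by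
  simp only [cl_eq_qh, av, map_smul, map_sum, map_pow]

theorem cl_opF (f : bdd V) : cl (opF f) = opF (cl f) := by
  rw [opF, opF, ← cl_av]
  simp only [cl_eq_qh, map_sub, map_one]

theorem cl_opD (f : Fin 4 → bdd V) : cl (opD f) = opD fun g => cl (f g) := by
  simp only [opD, ← cl_opF]
  simp only [cl_eq_qh, map_sum]

theorem coe_opD (f : Fin 4 → bdd V) (n : ℕ) : (opD f : bdd V).1 n = opD fun g => (f g).1 n := by
  simp [opD, opF, av]
  rfl

theorem coe_opF (f : bdd V) (n : ℕ) : (opF f : bdd V).1 n = opF (f.1 n) := by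
  simp [opF, av]

theorem tendsto_gap (z : Fin 4 → bdd V) (Zn : ∀ n, Fin 4 → (V n →L[ℂ] V n))
    (hz : ∀ n g, (z g).1 n = Zn n g) (rl : Fin 6 → Fin 5 → bdd V)
    (h : star (opD fun g => cl (z g)) * (opD fun g => cl (z g))
        - (gap : ℂ) • (opD fun g => cl (z g)) = ∑ i, ∑ j, star (cl (rl i j)) * cl (rl i j)) :
    Tendsto (fun n => ‖star (opD (Zn n)) * opD (Zn n) - (gap : ℂ) • opD (Zn n)
      - ∑ i, ∑ j, star ((rl i j).1 n) * (rl i j).1 n‖) atTop (𝓝 0) := by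
  have h' : cl (star (opD z) * opD z - (gap : ℂ) • opD z)
      = cl (∑ i, ∑ j, star (rl i j) * rl i j) := by
    rw [← cl_opD] at h
    simp only [star_cl] at h
    simp only [cl_eq_qh] at h ⊢
    simp only [map_sub, map_smul, map_mul, map_sum]
    exact h
  exact ((cl_eq_iff _ _).1 h').congr fun n => by simp [coe_opD, hz]

end seq

/-- The estimates behind snapping. -/
def GapEst {V : Type} [NormedAddCommGroup V] [InnerProductSpace ℂ V] [CompleteSpace V]
    (θ : ℝ) (Z : Fin 4 → (V →L[ℂ] V)) : Prop :=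
  (∀ g, ‖Z g‖ ≤ 2) ∧
    (∀ v : V, gap * (inner ℂ v (opD Z v)).re ≤ ‖opD Z v‖ ^ 2 + θ * ‖v‖ ^ 2) ∧
    ‖star (opD Z) - opD Z‖ ≤ θ ∧ (∀ g, ‖star (opF (Z g)) * opF (Z g) - opF (Z g)‖ ≤ θ) ∧
    ∀ g, ‖(Z g - 1) * (1 - opF (Z g))‖ ≤ θ

theorem exists_gapEst (θ : ℝ) (hθ : 0 < θ) : ∃ δ : ℝ, 0 < δ ∧
    ∀ (V : Type) [NormedAddCommGroup V] [InnerProductSpace ℂ V] [CompleteSpace V]
      (Z : Fin 4 → (V →L[ℂ] V)), Near4 δ Z → GapEst θ Z := by
  by_contra hcon
  push Not at hcon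
  have hfail : ∀ n : ℕ, ∃ (V : Type) (_ : NormedAddCommGroup V) (_ : InnerProductSpace ℂ V)
      (_ : CompleteSpace V) (Z : Fin 4 → (V →L[ℂ] V)),
        Near4 (1 / ((n : ℝ) + 1)) Z ∧ ¬ GapEst θ Z :=
    fun n => hcon _ (by positivity)
  choose V i1 i2 i3 Z hZ hf using hfail
  have hδ1 : ∀ n : ℕ, (1 : ℝ) / ((n : ℝ) + 1) ≤ 1 := fun n => by
    rw [div_le_one (by positivity)]
    linarith [(Nat.cast_nonneg n : (0 : ℝ) ≤ (n : ℝ))]
  have hb : ∀ n g, ‖Z n g‖ ≤ 2 := fun n g => norm_le_two (hδ1 n) (hZ n g).1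
  let z : Fin 4 → bdd V := fun g => ⟨fun n => Z n g, ⟨2, fun n => hb n g⟩⟩
  let q : Fin 4 → Asym V := fun g => cl (z g)
  have hsm : ∀ f g : bdd V, (∀ n, ‖f.1 n - g.1 n‖ ≤ 1 / ((n : ℝ) + 1)) → cl f = cl g :=
    fun f g h => (cl_eq_iff f g).2
      (squeeze_zero (fun n => norm_nonneg _) h tendsto_one_div_add_atTop_nhds_zero_nat)
  obtain ⟨⟨r, hr⟩, hD, hF, hFZ⟩ := exact_gap q
    (fun g => hsm (star (z g) * z g) 1 fun n => (hZ n g).1)
    (fun g => hsm (z g * star (z g)) 1 fun n => (hZ n g).2.1)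
    (fun g => hsm (z g ^ 17) 1 fun n => by simpa [z] using (hZ n g).2.2.1)
    (fun g h => hsm (comm' (z g) (z h) * z g) (z g * comm' (z g) (z h))
      fun n => ((hZ n g).2.2.2 h).1)
    (fun g h => hsm (comm' (z g) (z h) * z h) (z h * comm' (z g) (z h))
      fun n => ((hZ n g).2.2.2 h).2)
  have hDn : ∀ n, (opD z : bdd V).1 n = opD (Z n) := fun n => coe_opD z n
  have hFn : ∀ g n, (opF (z g) : bdd V).1 n = opF (Z n g) := fun g n => coe_opF (z g) n
  have hclD : cl (opD z) = opD q := cl_opD z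
  have hclF : ∀ g, cl (opF (z g)) = opF (q g) := fun g => cl_opF (z g)
  choose rl hrl using fun i j => cl_surjective (r i j)
  have t1 : Tendsto (fun n => ‖star (opD (Z n)) * opD (Z n) - (gap : ℂ) • opD (Z n)
      - ∑ i, ∑ j, star ((rl i j).1 n) * (rl i j).1 n‖) atTop (𝓝 0) :=
    by
    have hsum : (∑ i, ∑ j, star (r i j) * r i j) = ∑ i, ∑ j, star (cl (rl i j)) * cl (rl i j) :=
      Finset.sum_congr rfl fun i _ => Finset.sum_congr rfl fun j _ =>
        congrArg (fun x => star x * x) (hrl i j).symm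
    exact tendsto_gap (V := V) z Z (fun n g => rfl) rl (hr.trans hsum)
  have t2 : Tendsto (fun n => ‖star (opD (Z n)) - opD (Z n)‖) atTop (𝓝 0) := by
    have := (cl_eq_iff (star (opD z)) (opD z)).1 (by rw [← star_cl, hclD, hD])
    simpa [hDn] using this
  have t3 : ∀ g, Tendsto (fun n => ‖star (opF (Z n g)) * opF (Z n g) - opF (Z n g)‖) atTop
      (𝓝 0) := fun g => by
    have := (cl_eq_iff (star (opF (z g)) * opF (z g)) (opF (z g))).1 (by
      show cl (star (opF (z g))) * cl (opF (z g)) = _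
      rw [← star_cl, hclF, hF])
    simpa [hFn] using this
  have t4 : ∀ g, Tendsto (fun n => ‖(Z n g - 1) * (1 - opF (Z n g))‖) atTop (𝓝 0) := fun g => by
    have := (cl_eq_iff ((z g - 1) * (1 - opF (z g))) 0).1 (by
      show (cl (z g) - 1) * (1 - cl (opF (z g))) = _
      rw [hclF]
      exact hFZ g)
    simpa [hFn, z] using this
  have hev : ∀ᶠ n in atTop,
      ‖star (opD (Z n)) * opD (Z n) - (gap : ℂ) • opD (Z n)
        - ∑ i, ∑ j, star ((rl i j).1 n) * (rl i j).1 n‖ ≤ θ ∧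
      ‖star (opD (Z n)) - opD (Z n)‖ ≤ θ ∧
      (∀ g, ‖star (opF (Z n g)) * opF (Z n g) - opF (Z n g)‖ ≤ θ) ∧
      ∀ g, ‖(Z n g - 1) * (1 - opF (Z n g))‖ ≤ θ := by
    refine (t1.eventually_le_const hθ).and ((t2.eventually_le_const hθ).and
      ((eventually_all.2 fun g => ?_).and (eventually_all.2 fun g => ?_)))
    · exact (t3 g).eventually_le_const hθ
    · exact (t4 g).eventually_le_const hθ
  obtain ⟨n, h1, h2, h3, h4⟩ := hev.exists
  refine hf n ⟨hb n, fun v => ?_, h2, h3, h4⟩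
  set D := opD (Z n)
  set Sg := ∑ i, ∑ j, star ((rl i j).1 n) * (rl i j).1 n
  have hS : 0 ≤ (inner ℂ v (Sg v)).re := by
    simp only [Sg, sum_apply, inner_sum, Complex.re_sum,
      mul_apply_eq_comp, ContinuousLinearMap.star_eq_adjoint,
      ContinuousLinearMap.adjoint_inner_right]
    refine Finset.sum_nonneg fun i _ => Finset.sum_nonneg fun j _ => ?_
    exact inner_self_nonneg (𝕜 := ℂ)
  have hE : |(inner ℂ v ((star D * D - (gap : ℂ) • D - Sg) v)).re| ≤ θ * ‖v‖ ^ 2 := by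
    refine (Complex.abs_re_le_norm _).trans ((norm_inner_le_norm _ _).trans ?_)
    calc ‖v‖ * ‖(star D * D - (gap : ℂ) • D - Sg) v‖
        ≤ ‖v‖ * (‖star D * D - (gap : ℂ) • D - Sg‖ * ‖v‖) := by
          gcongr
          exact ContinuousLinearMap.le_opNorm _ _
      _ ≤ ‖v‖ * (θ * ‖v‖) := by gcongr
      _ = θ * ‖v‖ ^ 2 := by ring
  have hDD : (inner ℂ v ((star D * D) v)).re = ‖D v‖ ^ 2 := by
    rw [mul_apply_eq_comp, ContinuousLinearMap.star_eq_adjoint,
      ContinuousLinearMap.adjoint_inner_right, inner_self_eq_norm_sq_to_K]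
    norm_cast
  simp only [sub_apply, smul_apply, inner_sub_right,
    inner_smul_right, Complex.sub_re, Complex.re_ofReal_mul, hDD] at hE
  linarith [(abs_le.1 hE).1]

end

end Vale.Agent.P083
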