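import Vale.Agent.P083.Defs

/-!
The algebraic spectral gap for two averages over almost Heisenberg generators: an exact identity
in any complex star algebra.
-/

namespace Vale.Agent.P083

noncomputable section

variable {R : Type*} [Ring R] [Algebra ℂ R]

/-- The average over the powers of `x`. -/
def av (x : R) : R := (1 / 17 : ℂ) • ∑ k : K, x ^ k.val

omit [Algebra ℂ R] in
theorem pow_val_add {x : R} (h : x ^ 17 = 1) (a b : K) :
    x ^ a.val * x ^ b.val = x ^ (a + b).val := by
  rw [← pow_add, ZMod.val_add, ← pow_eq_pow_mod _ h]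

theorem av_mul_pow {x : R} (h : x ^ 17 = 1) (a : K) : av x * x ^ a.val = av x := by
  rw [av, smul_mul_assoc, Finset.sum_mul]
  simp only [pow_val_add h]
  congr 1
  exact (Equiv.sum_comp (Equiv.addRight a) (fun k : K => x ^ k.val))

theorem pow_mul_av {x : R} (h : x ^ 17 = 1) (a : K) : x ^ a.val * av x = av x := by
  rw [av, mul_smul_comm, Finset.mul_sum]
  simp only [pow_val_add h]
  congr 1
  exact (Equiv.sum_comp (Equiv.addLeft a) (fun k : K => x ^ k.val))

theorem mul_av {x : R} (h : x ^ 17 = 1) : x * av x = av x := by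
  have := pow_mul_av h 1
  rwa [show (1 : K).val = 1 from rfl, pow_one] at this

theorem av_mul_av {x : R} (h : x ^ 17 = 1) : av x * av x = av x := by
  conv_lhs => enter [1]; rw [av]
  rw [smul_mul_assoc, Finset.sum_mul]
  simp only [pow_mul_av h, Finset.sum_const, Finset.card_univ, ZMod.card]
  rw [← Nat.cast_smul_eq_nsmul ℂ, smul_smul]
  norm_num

theorem commute_av {x y : R} (h : Commute x y) : Commute (av x) y := by
  unfold av
  exact (Commute.sum_left _ _ _ fun k _ => h.pow_left _).smul_left _

omit [Algebra ℂ R] in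
theorem pow_mul_pow_heis {x y z : R} (hxy : x * y = z * y * x) (hzx : Commute z x)
    (hzy : Commute z y) (m l : ℕ) : x ^ m * y ^ l = z ^ (m * l) * y ^ l * x ^ m := by
  have h1 : ∀ l, x * y ^ l = z ^ l * y ^ l * x := by
    intro l
    induction l with
    | zero => simp
    | succ l ih =>
      calc x * y ^ (l + 1) = x * y ^ l * y := by rw [pow_succ, mul_assoc]
        _ = z ^ l * y ^ l * (x * y) := by rw [ih]; simp only [mul_assoc]
        _ = z ^ l * (y ^ l * z) * (y * x) := by rw [hxy]; simp only [mul_assoc]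
        _ = z ^ (l + 1) * y ^ (l + 1) * x := by
          rw [(hzy.pow_right l).eq.symm, pow_succ, pow_succ]; simp only [mul_assoc]
  induction m with
  | zero => simp
  | succ m ih =>
    calc x ^ (m + 1) * y ^ l = x * (x ^ m * y ^ l) := by rw [pow_succ', mul_assoc]
      _ = z ^ (m * l) * (x * y ^ l) * x ^ m := by
        rw [ih, ← mul_assoc, ← mul_assoc, ((hzx.symm).pow_right _).eq]
        simp only [mul_assoc]
      _ = z ^ ((m + 1) * l) * y ^ l * x ^ (m + 1) := by
        rw [h1, add_mul, one_mul, pow_add, pow_succ' x]; simp only [mul_assoc]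

theorem heis_order {x y z : R} (hx : x ^ 17 = 1) (hy : y ^ 17 = 1)
    (hxy : x * y = z * y * x) (hzx : Commute z x) (hzy : Commute z y) : z ^ 17 = 1 := by
  have h := pow_mul_pow_heis hxy hzx hzy 17 1
  rw [hx, pow_one, mul_one, one_mul, mul_one] at h
  have : z ^ 17 * (y * y ^ 16) = y * y ^ 16 := by rw [← mul_assoc, ← h]
  rwa [← pow_succ', hy, mul_one] at this

theorem av_sandwich {x y z : R} (hx : x ^ 17 = 1) (hy : y ^ 17 = 1)
    (hxy : x * y = z * y * x) (hzx : Commute z x) (hzy : Commute z y) :
    (1 - av z) * (av x * av y * av x) = (1 / 17 : ℂ) • ((1 - av z) * av x) := by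
  have hz := heis_order hx hy hxy hzx hzy
  have hpow : ∀ a b : K, z ^ (a.val * b.val) = z ^ (a * b).val := fun a b => by
    rw [ZMod.val_mul, ← pow_eq_pow_mod _ hz]
  have hEy : ∀ l : K, av x * y ^ l.val * av x
      = (if l = 0 then 1 else av z) * (y ^ l.val * av x) := by
    intro l
    conv_lhs => enter [1, 1]; rw [av]
    simp only [smul_mul_assoc, Finset.sum_mul]
    have hterm : ∀ k : K, x ^ k.val * y ^ l.val * av x = z ^ (k * l).val * (y ^ l.val * av x) := by
      intro k
      rw [pow_mul_pow_heis hxy hzx hzy, hpow, mul_assoc, pow_mul_av hx, mul_assoc]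
    simp only [hterm, ← Finset.sum_mul, ← smul_mul_assoc]
    congr 1
    split_ifs with hl
    · subst hl
      simp only [mul_zero, ZMod.val_zero, pow_zero, Finset.sum_const, Finset.card_univ, ZMod.card]
      rw [← Nat.cast_smul_eq_nsmul ℂ, smul_smul]
      norm_num
    · rw [av]
      congr 1
      exact Equiv.sum_comp (Equiv.mulRight₀ l hl) (fun k : K => z ^ k.val)
  have hG : (1 - av z) * av z = 0 := by rw [sub_mul, one_mul, av_mul_av hz, sub_self]
  have : av x * av y * av x = (1 / 17 : ℂ) • ∑ l : K, av x * y ^ l.val * av x := by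
    conv_lhs => enter [1, 2]; rw [av]
    simp only [mul_smul_comm, smul_mul_assoc, Finset.mul_sum, Finset.sum_mul]
  rw [this, mul_smul_comm, Finset.mul_sum]
  simp only [hEy]
  rw [Finset.sum_eq_single (0 : K)]
  · simp
  · intro l _ hl
    rw [if_neg hl, ← mul_assoc, hG, zero_mul]
  · simp

/-- The spectral polynomial identity in a corner. -/
theorem corner_identity {U G : R} (c : ℂ) (hc : 1 - c ≠ 0) (hc' : 1 + c ≠ 0) (hc0 : c ≠ 0)
    (hGG : G * G = G) (hUG : U * G = U) (hGU : G * U = U)
    (h3 : U * U * U = (2 : ℂ) • (U * U) - (1 - c ^ 2) • U) :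
    ((2 : ℂ) • G - U) * ((1 + c) • G - U)
      = (2 * (1 + c)) • (((1 - c ^ 2)⁻¹ • ((1 - c ^ 2) • G - (2 : ℂ) • U + U * U))
          * ((1 - c ^ 2)⁻¹ • ((1 - c ^ 2) • G - (2 : ℂ) • U + U * U)))
        + (2 * c * (1 + c)) • (((-2 * c * (1 - c))⁻¹ • (U * U - (1 + c) • U))
          * ((-2 * c * (1 - c))⁻¹ • (U * U - (1 + c) • U))) := by
  have h4 : U * U * (U * U) = (2 * 2 - (1 - c ^ 2)) • (U * U) - (2 * (1 - c ^ 2)) • U := by
    rw [show U * U * (U * U) = U * (U * U * U) by simp only [mul_assoc], h3, mul_sub,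
      mul_smul_comm, mul_smul_comm, ← mul_assoc, h3]
    module
  have hUUG : U * U * G = U * U := by rw [mul_assoc, hUG]
  have hGUU : G * (U * U) = U * U := by rw [← mul_assoc, hGU]
  have h3' : U * (U * U) = (2 : ℂ) • (U * U) - (1 - c ^ 2) • U := by rw [← mul_assoc, h3]
  have hne : (1 - c ^ 2) ≠ 0 := by
    have : 1 - c ^ 2 = (1 - c) * (1 + c) := by ring
    rw [this]
    exact mul_ne_zero hc hc'
  simp only [mul_sub, sub_mul, mul_add, add_mul, smul_mul_assoc, mul_smul_comm, hGG, hUG, hGU,
    hUUG, hGUU, h3, h3', h4]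
  have hsq : 1 - c * 2 + c ^ 2 ≠ 0 := by
    rw [show 1 - c * 2 + c ^ 2 = (1 - c) ^ 2 by ring]; exact pow_ne_zero _ hc
  match_scalars <;> field_simp <;> ring_nf <;> field_simp <;> ring

variable [StarRing R] [StarModule ℂ R]

omit [StarModule ℂ R] in
theorem star_pow_val {x : R} (hx : x ^ 17 = 1) (hu : star x * x = 1) (k : K) :
    star (x ^ k.val) = x ^ (-k).val := by
  have h1 : star (x ^ k.val) * x ^ k.val = 1 := by
    generalize k.val = n
    induction n with
    | zero => simp
    | succ n ih =>
      rw [pow_succ, star_mul, mul_assoc, ← mul_assoc (star (x ^ n)), ih, one_mul, hu]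
  have h2 : x ^ k.val * x ^ (-k).val = 1 := by
    rw [pow_val_add hx, add_neg_cancel, ZMod.val_zero, pow_zero]
  exact left_inv_eq_right_inv h1 h2

theorem star_av {x : R} (hx : x ^ 17 = 1) (hu : star x * x = 1) : star (av x) = av x := by
  rw [av, star_smul, star_sum]
  simp only [star_pow_val hx hu]
  rw [show star (1 / 17 : ℂ) = 1 / 17 by simp]
  congr 1
  exact Equiv.sum_comp (Equiv.neg K) (fun k : K => x ^ k.val)

/-- For a Heisenberg pair the sum of the two complementary averages has spectral gap `1 - c`. -/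
theorem pair_sos {x y : R} (hx : x ^ 17 = 1) (hy : y ^ 17 = 1) (hux : star x * x = 1)
    (hux' : x * star x = 1) (huy : star y * y = 1) (huy' : y * star y = 1)
    (h1 : comm' x y * x = x * comm' x y) (h2 : comm' x y * y = y * comm' x y) (c : ℝ)
    (hc : c ^ 2 = 1 / 17) (hc0 : 0 < c) (hc1 : c < 1) :
    ∃ r : Fin 5 → R,
      (1 - av x) * (1 - av y) + (1 - av y) * (1 - av x) + (c : ℂ) • ((1 - av x) + (1 - av y))
        = ∑ i, star (r i) * r i := by
  set z := comm' x y with hzd
  have hzx : Commute z x := h1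
  have hzy : Commute z y := h2
  have hxy : x * y = z * y * x := by
    rw [hzd, comm', mul_assoc, mul_assoc, ← mul_assoc (star y), huy, one_mul, mul_assoc, hux,
      mul_one]
  have hz : z ^ 17 = 1 := heis_order hx hy hxy hzx hzy
  have hz' : star z * z = 1 := by
    rw [hzd, comm']
    simp only [star_mul, star_star, mul_assoc]
    simp only [← mul_assoc (star x), hux, one_mul, ← mul_assoc x (star x), hux',
      ← mul_assoc (star y) y, huy, ← mul_assoc y (star y), huy']
  set a := av x with ha
  set b := av y with hb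
  set e := av z with he
  have haa : a * a = a := av_mul_av hx
  have hbb : b * b = b := av_mul_av hy
  have hee : e * e = e := av_mul_av hz
  have hea : Commute e a := commute_av (commute_av hzx.symm).symm
  have heb : Commute e b := commute_av (commute_av hzy.symm).symm
  have sa : star a = a := star_av hx hux
  have sb : star b = b := star_av hy huy
  have se : star e = e := star_av hz hz'
  set G := 1 - e with hG
  have hGa : Commute G a := (Commute.one_left a).sub_left hea
  have hGb : Commute G b := (Commute.one_left b).sub_left heb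
  have hGG : G * G = G := by rw [hG]; simp only [sub_mul, mul_sub, one_mul, mul_one, hee]; abel
  have hyx : y * x = star z * x * y := by
    rw [mul_assoc, hxy, ← mul_assoc, ← mul_assoc, hz', one_mul]
  have hszx : Commute (star z) x := by
    have : star z = z ^ 16 := left_inv_eq_right_inv hz' (by rw [← pow_succ', hz])
    rw [this]
    exact hzx.pow_left _
  have hszy : Commute (star z) y := by
    have : star z = z ^ 16 := left_inv_eq_right_inv hz' (by rw [← pow_succ', hz])
    rw [this]
    exact hzy.pow_left _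
  have haba : G * (a * b * a) = (1 / 17 : ℂ) • (G * a) := av_sandwich hx hy hxy hzx hzy
  have hzz : av (star z) = e := by
    have : star (av z) = av (star z) := by
      simp [av, star_smul, star_sum, star_pow]
    rw [← this]
    exact se
  have hbab : G * (b * a * b) = (1 / 17 : ℂ) • (G * b) := by
    have := av_sandwich hy hx hyx hszy hszx
    rwa [hzz] at this
  have hcomm : e * (a * b) = e * (b * a) := by
    have : ∀ k l : K, e * (x ^ k.val * y ^ l.val) = e * (y ^ l.val * x ^ k.val) := by
      intro k l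
      rw [pow_mul_pow_heis hxy hzx hzy, mul_assoc (z ^ _), ← mul_assoc e]
      congr 1
      have hze : Commute e z := commute_av (Commute.refl z)
      rw [(hze.pow_right _).eq]
      generalize k.val * l.val = n
      induction n with
      | zero => simp
      | succ n ih => rw [pow_succ, mul_assoc, mul_av hz, ih]
    simp only [ha, hb, av, smul_mul_assoc, mul_smul_comm, Finset.sum_mul, Finset.mul_sum]
    simp only [← Finset.smul_sum, smul_smul]
    rw [Finset.sum_comm]
    congr 1
    refine Finset.sum_congr rfl fun k _ => ?_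
    refine Finset.sum_congr rfl fun l _ => ?_
    exact this k l
  set U := G * (a + b) with hU
  have hUG : U * G = U := by
    rw [hU, mul_assoc, ← (hGa.add_right hGb).eq, ← mul_assoc, hGG]
  have hGU : G * U = U := by rw [hU, ← mul_assoc, hGG]
  have hGn : ∀ w, Commute G w → (G * w) * U = G * (w * (a + b)) := fun w hw => by
    rw [hU, mul_assoc, ← mul_assoc w, ← hw.eq, mul_assoc G w, ← mul_assoc G G, hGG]
  have hUU : U * U = U + G * (a * b) + G * (b * a) := by
    rw [hU, ← hU, hGn _ (hGa.add_right hGb), hU]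
    simp only [mul_add, add_mul, haa, hbb]
    abel
  have h3 : U * U * U = (2 : ℂ) • (U * U) - (1 - (c : ℂ) ^ 2) • U := by
    have hc' : (c : ℂ) ^ 2 = 1 / 17 := by rw [← Complex.ofReal_pow, hc]; simp
    rw [hc']
    conv_lhs => rw [hUU]
    rw [add_mul, add_mul, hGn _ (hGa.mul_right hGb), hGn _ (hGb.mul_right hGa)]
    have e1 : G * (a * b * (a + b)) = (1 / 17 : ℂ) • (G * a) + G * (a * b) := by
      rw [mul_add (a * b), mul_add, haba, mul_assoc a b b, hbb]
    have e2 : G * (b * a * (a + b)) = (1 / 17 : ℂ) • (G * b) + G * (b * a) := by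
      rw [mul_add (b * a), mul_add, hbab, mul_assoc b a a, haa, add_comm]
    rw [e1, e2, hUU, hU, mul_add]
    module
  have sG : star G = G := by rw [hG, star_sub, star_one, se]
  have hab' : Commute (e * (1 - a)) (e * (1 - b)) := by
    have h : ∀ u w, Commute e u → (e * u) * (e * w) = e * (u * w) := fun u w hu => by
      rw [mul_assoc, ← mul_assoc u, ← hu.eq, mul_assoc e u, ← mul_assoc e e, hee]
    have ha1 : Commute e (1 - a) := (Commute.one_right e).sub_right hea
    have hb1 : Commute e (1 - b) := (Commute.one_right e).sub_right heb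
    show _ = _
    rw [h _ _ ha1, h _ _ hb1]
    simp only [mul_sub, sub_mul, one_mul, mul_one, hcomm]
    abel
  have sea : star (e * (1 - a)) = e * (1 - a) := by
    rw [star_mul, star_sub, star_one, sa, se]
    exact ((Commute.one_right e).sub_right hea).symm
  have seb : star (e * (1 - b)) = e * (1 - b) := by
    rw [star_mul, star_sub, star_one, sb, se]
    exact ((Commute.one_right e).sub_right heb).symm
  have sU : star U = U := by
    rw [hU, star_mul, star_add, sa, sb, sG]
    exact ((hGa.add_right hGb)).symm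
  have hcC1 : 1 - (c : ℂ) ≠ 0 := by
    have : (1 : ℝ) - c ≠ 0 := by linarith
    exact_mod_cast this
  have hcC2 : 1 + (c : ℂ) ≠ 0 := by
    have : (1 : ℝ) + c ≠ 0 := by linarith
    exact_mod_cast this
  have hcC0 : (c : ℂ) ≠ 0 := by exact_mod_cast hc0.ne'
  set P0 := (1 - (c : ℂ) ^ 2)⁻¹ • ((1 - (c : ℂ) ^ 2) • G - (2 : ℂ) • U + U * U) with hP0
  set P1 := (-2 * (c : ℂ) * (1 - c))⁻¹ • (U * U - (1 + (c : ℂ)) • U) with hP1
  have sP0 : star P0 = P0 := by
    simp [hP0, star_smul, sG, sU, Complex.conj_ofReal]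
  have sP1 : star P1 = P1 := by
    simp [hP1, star_smul, sU, Complex.conj_ofReal]
  have hpos : ∀ (w : ℝ) (r : R), 0 ≤ w → star r = r →
      ∃ r' : R, (w : ℂ) • (r * r) = star r' * r' := fun w r hw hr =>
    ⟨(Real.sqrt w : ℂ) • r, by
      rw [star_smul, hr, smul_mul_assoc, mul_smul_comm, smul_smul, Complex.star_def,
        Complex.conj_ofReal, ← Complex.ofReal_mul, Real.mul_self_sqrt hw]⟩
  obtain ⟨r0, hr0⟩ := hpos c _ hc0.le sea
  obtain ⟨r1, hr1⟩ := hpos c _ hc0.le seb
  obtain ⟨r2, hr2⟩ := hpos 2 (e * (1 - a) * (e * (1 - b))) (by norm_num)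
    (by rw [star_mul, sea, seb, hab'.eq])
  obtain ⟨r3, hr3⟩ := hpos (2 * (1 + c)) P0 (by linarith) sP0
  obtain ⟨r4, hr4⟩ := hpos (2 * c * (1 + c)) P1 (by positivity) sP1
  refine ⟨![r0, r1, r2, r3, r4], ?_⟩
  rw [Fin.sum_univ_five]
  simp only [Matrix.cons_val_zero, Matrix.cons_val_one, Matrix.cons_val, ← hr0, ← hr1, ← hr2,
    ← hr3, ← hr4]
  push_cast
  rw [hP0, hP1, add_assoc _ ((2 * (1 + (c : ℂ))) • _),
    ← corner_identity (c : ℂ) hcC1 hcC2 hcC0 hGG hUG hGU h3]
  have hsplit : ∀ w, w = e * w + G * w := fun w => by rw [hG, sub_mul, one_mul]; abel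
  have h : ∀ u w, Commute e u → (e * u) * (e * w) = e * (u * w) := fun u w hu => by
    rw [mul_assoc, ← mul_assoc u, ← hu.eq, mul_assoc e u, ← mul_assoc e e, hee]
  have ha1 : Commute e (1 - a) := (Commute.one_right e).sub_right hea
  have hb1 : Commute e (1 - b) := (Commute.one_right e).sub_right heb
  have hFa : (1 - a) * (1 - a) = 1 - a := by
    simp only [sub_mul, mul_sub, one_mul, mul_one, haa]; abel
  have hFb : (1 - b) * (1 - b) = 1 - b := by
    simp only [sub_mul, mul_sub, one_mul, mul_one, hbb]; abel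
  rw [h _ _ ha1, h _ _ hb1, hFa, hFb, h _ _ ha1]
  have hab2 : e * ((1 - a) * (1 - b)) * (e * ((1 - a) * (1 - b)))
      = e * ((1 - a) * (1 - b)) := by
    have : e * ((1 - a) * (1 - b)) = (e * (1 - a)) * (e * (1 - b)) := (h _ _ ha1).symm
    rw [this, mul_assoc, ← mul_assoc (e * (1 - b)), ← hab'.eq, mul_assoc (e * (1 - a)) (e * (1-b)),
      ← mul_assoc (e * (1 - a)) (e * (1 - a)), h _ _ ha1, hFa, h _ _ hb1, hFb]
  rw [hab2, hU, hG]
  have hxx : e * (a * b) = e * (b * a) := hcomm
  simp only [mul_sub, sub_mul, mul_add, add_mul, one_mul, mul_one, smul_mul_assoc, mul_smul_comm,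
    smul_sub, smul_add]
  have hea' : a * e = e * a := hea.eq.symm
  have heb' : b * e = e * b := heb.eq.symm
  simp only [← mul_assoc, hea', heb', hee, haa, hbb]
  simp only [mul_assoc, hea', heb', haa, hbb, hxx]
  simp only [← mul_assoc, hee, hea', heb']
  simp only [mul_assoc, haa, hbb, hxx]
  module

end

end Vale.Agent.P083
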