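import Vale.Agent.P083.Defs

/-!
A separable algebra with an exact tuple: all members are isometries of a Hilbert space that
permute an orthonormal basis.
-/

namespace Vale.Agent.P083

noncomputable section

open scoped InnerProductSpace
open ContinuousLinearMap

namespace Model

variable {X : Type*}

/-- The Hilbert space with basis `X`. -/
abbrev L2 (X : Type*) : Type _ := lp (fun _ : X => ℂ) 2

variable (X) in
/-- The bounded operators. -/
abbrev Op : Type _ := L2 X →L[ℂ] L2 X

open scoped Classical in
/-- A basis vector. -/
def e (x : X) : L2 X := lp.single 2 x (1 : ℂ)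

theorem inner_e (x : X) (v : L2 X) : ⟪e x, v⟫_ℂ = v x := by
  classical
  rw [e, lp.inner_single_left]
  simp

theorem orthonormal_e : Orthonormal ℂ (e : X → L2 X) := by
  classical
  rw [orthonormal_iff_ite]
  intro x y
  rw [inner_e, e, lp.single_apply]
  simp [Pi.single_apply]

theorem op_ext {S T : Op X} (h : ∀ x, S (e x) = T (e x)) : S = T := by
  classical
  refine lp.ext_continuousLinearMap (ENNReal.ofNat_ne_top (n := nat_lit 2)) fun x => ?_
  apply ContinuousLinearMap.ext_ring
  simpa [e] using h x

/-- The isometry moving the basis along an injection. -/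
def isoOf (f : X → X) (hf : Function.Injective f) : L2 X →ₗᵢ[ℂ] L2 X :=
  (orthonormal_e.comp f hf).orthogonalFamily.linearIsometry

/-- The operator of an injection. -/
def U (f : X → X) (hf : Function.Injective f) : Op X := (isoOf f hf).toContinuousLinearMap

theorem U_e (f : X → X) (hf : Function.Injective f) (x : X) : U f hf (e x) = e (f x) := by
  classical
  show isoOf f hf (lp.single 2 x (1 : ℂ)) = _
  rw [isoOf, OrthogonalFamily.linearIsometry_apply_single]
  simp

theorem star_U_self (f : X → X) (hf : Function.Injective f) : star (U f hf) * U f hf = 1 :=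
  (norm_map_iff_adjoint_comp_self _).1 (isoOf f hf).norm_map

theorem U_mul (f g : X → X) (hf : Function.Injective f) (hg : Function.Injective g) :
    U f hf * U g hg = U (f ∘ g) (hf.comp hg) := op_ext fun x => by
  show U f hf (U g hg (e x)) = _
  rw [U_e, U_e, U_e]
  rfl

theorem U_congr {f g : X → X} (h : f = g) (hf : Function.Injective f)
    (hg : Function.Injective g) : U f hf = U g hg := by
  subst h; rfl

theorem U_id : U (id : X → X) Function.injective_id = 1 := op_ext fun x => by
  rw [U_e]; rfl

theorem star_U_disjoint {f g : X → X} (hf : Function.Injective f) (hg : Function.Injective g)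
    (h : ∀ x y, f x ≠ g y) : star (U f hf) * U g hg = 0 := op_ext fun x => by
  apply lp.ext
  funext y
  show (adjoint (U f hf) (U g hg (e x))) y = (0 : L2 X) y
  rw [← inner_e, adjoint_inner_right, U_e, U_e, orthonormal_e.2 (h y x)]
  rfl

theorem star_U_equiv (f : X ≃ X) : star (U f f.injective) = U f.symm f.symm.injective := by
  have h : U f f.injective * U f.symm f.symm.injective = 1 := by
    rw [U_mul, ← U_id]
    exact U_congr (by funext x; simp) _ _
  exact left_inv_eq_right_inv (star_U_self _ _) h

theorem U_pow (f : X → X) (hf : Function.Injective f) (n : ℕ) :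
    U f hf ^ n = U (f^[n]) (hf.iterate n) := by
  induction n with
  | zero => rw [pow_zero, ← U_id]; exact U_congr rfl _ _
  | succ n ih => rw [pow_succ, ih, U_mul]; exact U_congr (Function.iterate_succ f n).symm _ _

/-- One slot: a letter and an indicator. -/
abbrev Slot : Type := K × K × K × K

/-- Sequences of slots. -/
abbrev Seq' : Type := ℕ → Slot

/-- The basis. -/
abbrev Pt : Type := Seq' × (ℕ → Seq')

/-- The first coordinate carried from the left. -/
def carry (s : Seq') : ℕ → K
  | 0 => 0
  | k + 1 => (s k).1

/-- The indicator of the head. -/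
def head : ℕ → K
  | 0 => 1
  | _ + 1 => 0

/-- The four generators on sequences. -/
def gmap : Fin 4 → Seq' → Seq'
  | 0, s => fun k => ((s k).1 + (s k).2.1, (s k).2.1, (s k).2.2.1, (s k).2.2.2)
  | 1, s => fun k => ((s k).1, (s k).2.1 + (s k).2.2.1, (s k).2.2.1, (s k).2.2.2)
  | 2, s => fun k => ((s k).1, (s k).2.1, (s k).2.2.1 + (s k).2.2.2 * carry s k, (s k).2.2.2)
  | 3, s => fun k => ((s k).1, (s k).2.1, (s k).2.2.1 + (s k).2.2.2 * head k, (s k).2.2.2)

/-- Their inverses. -/
def ginv : Fin 4 → Seq' → Seq'
  | 0, s => fun k => ((s k).1 - (s k).2.1, (s k).2.1, (s k).2.2.1, (s k).2.2.2)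
  | 1, s => fun k => ((s k).1, (s k).2.1 - (s k).2.2.1, (s k).2.2.1, (s k).2.2.2)
  | 2, s => fun k => ((s k).1, (s k).2.1, (s k).2.2.1 - (s k).2.2.2 * carry s k, (s k).2.2.2)
  | 3, s => fun k => ((s k).1, (s k).2.1, (s k).2.2.1 - (s k).2.2.2 * head k, (s k).2.2.2)

/-- A generator as a permutation of the basis. -/
def gperm (g : Fin 4) : Pt ≃ Pt where
  toFun p := (gmap g p.1, p.2)
  invFun p := (ginv g p.1, p.2)
  left_inv p := by
    refine Prod.ext (funext fun k => ?_) rfl
    fin_cases g <;> rcases k with _ | k <;> simp [gmap, ginv, carry, head]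
  right_inv p := by
    refine Prod.ext (funext fun k => ?_) rfl
    fin_cases g <;> rcases k with _ | k <;> simp [gmap, ginv, carry, head]

theorem gmap_iterate (g : Fin 4) (n : ℕ) (s : Seq') (k : ℕ) :
    (gmap g)^[n] s k =
      ((s k).1 + (n : K) * ((gmap g s k).1 - (s k).1),
       (s k).2.1 + (n : K) * ((gmap g s k).2.1 - (s k).2.1),
       (s k).2.2.1 + (n : K) * ((gmap g s k).2.2.1 - (s k).2.2.1), (s k).2.2.2) := by
  induction n generalizing k with
  | zero => simp
  | succ n ih =>
    rw [Function.iterate_succ_apply']
    obtain rfl | rfl | rfl | rfl : g = 0 ∨ g = 1 ∨ g = 2 ∨ g = 3 := by omega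
    all_goals rcases k with _ | k <;>
      simp [gmap, carry, head, ih] <;> ring

theorem gperm_iterate (g : Fin 4) (n : ℕ) (p : Pt) :
    (gperm g : Pt → Pt)^[n] p = ((gmap g)^[n] p.1, p.2) := by
  induction n with
  | zero => rfl
  | succ n ih => rw [Function.iterate_succ_apply', Function.iterate_succ_apply', ih]; rfl

theorem gperm_order (g : Fin 4) : (gperm g : Pt → Pt)^[17] = id := by
  funext p
  rw [gperm_iterate]
  refine Prod.ext (funext fun k => ?_) rfl
  show (gmap g)^[17] p.1 k = p.1 k
  rw [gmap_iterate, show ((17 : ℕ) : K) = 0 from ZMod.natCast_self 17]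
  simp

/-- The commutator of two generators. -/
def cperm (g h : Fin 4) : Pt → Pt :=
  (gperm g : Pt → Pt) ∘ gperm h ∘ (gperm g).symm ∘ (gperm h).symm

theorem cperm_comm (g h : Fin 4) :
    cperm g h ∘ gperm g = gperm g ∘ cperm g h ∧ cperm g h ∘ gperm h = gperm h ∘ cperm g h := by
  constructor <;>
  · funext p
    refine Prod.ext (funext fun k => ?_) rfl
    fin_cases g <;> fin_cases h <;> rcases k with _ | k <;>
      simp [cperm, gperm, gmap, ginv, carry, head] <;> ring

/-- Prepending one slot. -/
def cons {α : Type*} (a : α) (s : ℕ → α) : ℕ → α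
  | 0 => a
  | k + 1 => s k

theorem cons_injective {α : Type*} {a b : α} {s t : ℕ → α} (h : cons a s = cons b t) :
    a = b ∧ s = t := ⟨congrFun h 0, funext fun k => congrFun h (k + 1)⟩

/-- Prepending a letter. -/
def push (j : Letter) (p : Pt) : Pt := (cons (j.1, j.2.1, j.2.2, 1) p.1, p.2)

theorem push_injective (j : Letter) : Function.Injective (push j) := fun p q h => by
  have h2 := congrArg Prod.snd h
  exact Prod.ext (cons_injective (congrArg Prod.fst h)).2 h2

theorem push_ne {j k : Letter} (h : j ≠ k) (p q : Pt) : push j p ≠ push k q := fun e => by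
  have := (cons_injective (congrArg Prod.fst e)).1
  simp only [Prod.mk.injEq] at this
  exact h (Prod.ext this.1 (Prod.ext this.2.1 this.2.2.1))

/-- The map into the fixed vectors. -/
def base (p : Pt) : Pt := (0, cons p.1 p.2)

theorem base_injective : Function.Injective base := fun p q h => by
  have := cons_injective (congrArg Prod.snd h)
  exact Prod.ext this.1 this.2

theorem gperm_base (g : Fin 4) : (gperm g : Pt → Pt) ∘ base = base := by
  funext p
  refine Prod.ext (funext fun k => ?_) rfl
  fin_cases g <;> simp [gperm, gmap, base]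

/-- The tuple of operators. -/
def tup : Tup (Op Pt) where
  Y g := U (gperm g) (gperm g).injective
  S j := U (push j) (push_injective j)
  W := U base base_injective

theorem dev_tup : ∀ r, dev tup r = 0 := by
  intro r
  rw [show (0 : Op Pt) = 0 from rfl]
  cases r with
  | unitL g => simp only [dev, tup, star_U_self, sub_self]
  | unitR g =>
    simp only [dev, tup, star_U_equiv, U_mul, sub_eq_zero, ← U_id]
    exact U_congr (by funext x; simp) _ _
  | order g =>
    simp only [dev, tup, U_pow, sub_eq_zero, ← U_id]
    exact U_congr (gperm_order g) _ _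
  | heisL g h =>
    simp only [dev, tup, comm', star_U_equiv, U_mul, sub_eq_zero]
    exact U_congr (cperm_comm g h).1 _ _
  | heisR g h =>
    simp only [dev, tup, comm', star_U_equiv, U_mul, sub_eq_zero]
    exact U_congr (cperm_comm g h).2 _ _
  | isom j k =>
    simp only [dev, tup, sub_eq_zero]
    split_ifs with h
    · subst h; exact star_U_self _ _
    · exact star_U_disjoint _ _ (push_ne h)
  | isomW => simp only [dev, tup, star_U_self, sub_self]
  | fixW g =>
    simp only [dev, tup, U_mul, sub_eq_zero]
    exact U_congr (gperm_base g) _ _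
  | move g j =>
    simp only [dev, tup, sub_eq_zero]
    fin_cases g <;> simp only [sect, U_pow, U_mul, mul_one] <;> refine U_congr ?_ _ _
    all_goals
      funext p
      simp only [Function.comp_apply, gperm_iterate, push]
      refine Prod.ext (funext fun k => ?_) rfl
    · rcases k with _ | k <;> simp [gperm, gmap, sig, cons]
    · rcases k with _ | k <;> simp [gperm, gmap, sig, cons]
    · rcases k with _ | _ | k <;>
        simp [gperm, gmap, sig, cons, carry, head, gmap_iterate] <;> ring
    · rcases k with _ | k <;> simp [gperm, gmap, sig, cons, head]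

/-- The generating set. -/
def gens : Set (Op Pt) := Set.range tup.Y ∪ Set.range tup.S ∪ {tup.W}

/-- The separable algebra. -/
def alg : StarSubalgebra ℂ (Op Pt) := (StarAlgebra.adjoin ℂ gens).topologicalClosure

theorem separable_alg : TopologicalSpace.IsSeparable (alg : Set (Op Pt)) := by
  have hg : gens.Countable :=
    ((Set.countable_range _).union (Set.countable_range _)).union (Set.countable_singleton _)
  have hc : (gens ∪ star gens).Countable := by
    refine hg.union ?_
    rw [← Set.image_star]
    exact hg.image _
  have := hc.to_subtype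
  have hmon : (Submonoid.closure (gens ∪ star gens) : Set (Op Pt)).Countable := by
    rw [Submonoid.closure_eq_image_prod]
    refine Set.Countable.image ?_ _
    refine (Set.countable_range
      (fun l : List ↥(gens ∪ star gens) => l.map Subtype.val)).mono ?_
    intro l hl
    exact ⟨l.pmap (fun x hx => (⟨x, hx⟩ : ↥(gens ∪ star gens))) hl, by simp [List.map_pmap]⟩
  rw [alg, StarSubalgebra.topologicalClosure_coe]
  refine TopologicalSpace.IsSeparable.closure ?_
  have e : ((StarAlgebra.adjoin ℂ gens : StarSubalgebra ℂ (Op Pt)) : Set (Op Pt))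
      = Submodule.span ℂ (Submonoid.closure (gens ∪ star gens) : Set (Op Pt)) := by
    rw [← Algebra.adjoin_eq_span]
    rfl
  rw [e]
  exact hmon.isSeparable.span (R := ℂ)

theorem mem_alg {x : Op Pt} (h : x ∈ gens) : x ∈ alg :=
  StarSubalgebra.le_topologicalClosure _ (StarAlgebra.subset_adjoin ℂ gens h)

/-- The tuple inside the algebra. -/
def tupA : Tup alg where
  Y g := ⟨tup.Y g, mem_alg (Or.inl (Or.inl ⟨g, rfl⟩))⟩
  S j := ⟨tup.S j, mem_alg (Or.inl (Or.inr ⟨j, rfl⟩))⟩
  W := ⟨tup.W, mem_alg (Or.inr rfl)⟩

theorem dev_tupA (r : Rel) : dev tupA r = 0 := by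
  apply Subtype.ext
  rw [ZeroMemClass.coe_zero, ← dev_tup r]
  cases r with
  | move g j => fin_cases g <;> simp [dev, tupA, sect]
  | isom j k => by_cases h : j = k <;> simp [dev, tupA, h]
  | _ => simp [dev, tupA, comm']

end Model

open Model in
theorem exists_model : ∃ (A : Type) (_ : CStarAlgebra A) (_ : TopologicalSpace.SeparableSpace A)
    (_ : Nontrivial A) (T : Tup A), ∀ r, dev T r = 0 := by
  have hcl : IsClosed (alg : Set (Op Pt)) := StarSubalgebra.isClosed_topologicalClosure _
  have : Nontrivial (L2 Pt) := ⟨⟨e default, 0, fun h => by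
    simpa [h] using orthonormal_e.1 (default : Pt)⟩⟩
  exact ⟨alg, StarSubalgebra.cstarAlgebra alg (h_closed := hcl),
    separable_alg.separableSpace, inferInstance, tupA, dev_tupA⟩

end

end Vale.Agent.P083
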