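import Vale.Agent.P083.Defs

/-!
A nonzero representation of a unital algebra, and almost exact tuples from an asymptotic map.
-/

namespace Vale.Agent.P083

noncomputable section

open Filter Topology
open scoped ComplexOrder

deriving instance Fintype for Rel

/-- A norm-one functional taking the value one at the unit is nonnegative on nonnegative
elements. -/
theorem nonneg_of_norm_one {B : Type*} [CStarAlgebra B] [PartialOrder B] [StarOrderedRing B]
    [Nontrivial B] (g : B →L[ℂ] ℂ) (hg : ‖g‖ ≤ 1) (h1 : g 1 = 1) {a : B} (ha : 0 ≤ a) :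
    0 ≤ g a := by
  have hsa : star a = a := (IsSelfAdjoint.of_nonneg ha).star_eq
  have him : (g a).im = 0 := by
    have key : ∀ t : ℝ, ((g a).im + t) ^ 2 ≤ ‖a‖ ^ 2 + t ^ 2 := fun t => by
      set x : B := a + ((t : ℂ) * Complex.I) • (1 : B) with hx
      have e : star x * x = a * a + ((t : ℂ) ^ 2) • (1 : B) := by
        rw [hx, star_add, star_smul, hsa, star_one]
        simp only [add_mul, mul_add, smul_mul_assoc, mul_smul_comm, one_mul, mul_one,
          Complex.star_def, map_mul, Complex.conj_ofReal, Complex.conj_I]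
        match_scalars <;> ring_nf
        simp
      have hn : ‖x‖ ^ 2 ≤ ‖a‖ ^ 2 + t ^ 2 := by
        rw [sq ‖x‖, ← CStarRing.norm_star_mul_self (x := x), e]
        refine (norm_add_le _ _).trans (add_le_add ((norm_mul_le _ _).trans_eq (sq _).symm) ?_)
        rw [norm_smul, norm_one, mul_one, norm_pow, Complex.norm_real, Real.norm_eq_abs, sq_abs]
      have hgx : ‖g x‖ ≤ ‖x‖ :=
        (g.le_opNorm x).trans (mul_le_of_le_one_left (norm_nonneg _) hg)
      have e2 : (g x).im = (g a).im + t := by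
        simp [hx, h1]
      calc ((g a).im + t) ^ 2 = |(g x).im| ^ 2 := by rw [e2, sq_abs]
        _ ≤ ‖x‖ ^ 2 := pow_le_pow_left₀ (abs_nonneg _) ((Complex.abs_im_le_norm _).trans hgx) 2
        _ ≤ _ := hn
    by_contra hv
    have h := key ((‖a‖ ^ 2 + 1) / (2 * (g a).im))
    have h2 : 2 * (g a).im * ((‖a‖ ^ 2 + 1) / (2 * (g a).im)) = ‖a‖ ^ 2 + 1 := by field_simp
    nlinarith [sq_nonneg (g a).im]
  refine Complex.nonneg_iff.2 ⟨?_, him.symm⟩
  set y : B := algebraMap ℝ B ‖a‖ - a with hy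
  have hy0 : 0 ≤ y := sub_nonneg.2 (CStarAlgebra.norm_le_iff_le_algebraMap a (norm_nonneg _) ha |>.1 le_rfl)
  have hyn : ‖y‖ ≤ ‖a‖ :=
    (CStarAlgebra.norm_le_iff_le_algebraMap y (norm_nonneg _) hy0).2 (sub_le_self _ ha)
  have h := ((Complex.re_le_norm _).trans
    ((g.le_opNorm y).trans (mul_le_of_le_one_left (norm_nonneg _) hg))).trans hyn
  have e : g y = (‖a‖ : ℂ) - g a := by
    rw [hy, map_sub, Algebra.algebraMap_eq_smul_one, ← Complex.coe_smul, map_smul, h1,
      smul_eq_mul, mul_one]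
  rw [e, Complex.sub_re, Complex.ofReal_re] at h
  linarith

theorem exists_rep (B : Type) [CStarAlgebra B] [Nontrivial B] :
    ∃ (H : Type) (_ : NormedAddCommGroup H) (_ : InnerProductSpace ℂ H) (_ : CompleteSpace H)
      (_ : B →⋆ₐ[ℂ] (H →L[ℂ] H)), ∃ h : H, ‖h‖ = 1 := by
  let _ : PartialOrder B := CStarAlgebra.spectralOrder B
  let _ : StarOrderedRing B := CStarAlgebra.spectralOrderedRing B
  obtain ⟨g, hg, hg1⟩ := exists_dual_vector ℂ (1 : B) (norm_ne_zero_iff.2 one_ne_zero)
  have h1 : g 1 = 1 := by simpa using hg1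
  let f : B →ₚ[ℂ] ℂ := PositiveLinearMap.mk₀ g.toLinearMap
    fun a ha => nonneg_of_norm_one g hg.le h1 ha
  refine ⟨f.GNS, inferInstance, inferInstance, inferInstance, f.gnsStarAlgHom,
    ((f.toPreGNS 1 : f.PreGNS) : f.GNS), ?_⟩
  rw [UniformSpace.Completion.norm_coe, f.preGNS_norm_def]
  have e : f (star (f.ofPreGNS (f.toPreGNS 1)) * f.ofPreGNS (f.toPreGNS 1)) = 1 := by
    show g (star (1 : B) * 1) = 1
    simpa using h1
  rw [e, Complex.one_re, Real.sqrt_one]

theorem exists_near {A B : Type*} [CStarAlgebra A] [CStarAlgebra B] (l : Filter ℕ) [l.NeBot]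
    (Φ : A → ℕ → B) (hb : ∀ a, ∃ C : ℝ, ∀ n, ‖Φ a n‖ ≤ C)
    (hadd : ∀ a b, Tendsto (fun n => ‖Φ (a + b) n - (Φ a n + Φ b n)‖) l (𝓝 0))
    (hmul : ∀ a b, Tendsto (fun n => ‖Φ (a * b) n - Φ a n * Φ b n‖) l (𝓝 0))
    (hstar : ∀ a, Tendsto (fun n => ‖Φ (star a) n - star (Φ a n)‖) l (𝓝 0))
    (hone : Tendsto (fun n => ‖Φ 1 n - 1‖) l (𝓝 0))
    (T : Tup A) (hT : ∀ r, dev T r = 0) (δ : ℝ) (hδ : 0 < δ) :
    ∃ T' : Tup B, Near δ T' := by
  -- bounded sequences that represent an element
  let Q : (ℕ → B) → A → Prop := fun x a =>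
    (∃ C : ℝ, ∀ n, ‖x n‖ ≤ C) ∧ Tendsto (fun n => x n - Φ a n) l (𝓝 0)
  have dadd := fun a b => tendsto_zero_iff_norm_tendsto_zero.2 (hadd a b)
  have dmul := fun a b => tendsto_zero_iff_norm_tendsto_zero.2 (hmul a b)
  have dstar := fun a => tendsto_zero_iff_norm_tendsto_zero.2 (hstar a)
  have qself : ∀ a, Q (Φ a) a := fun a => ⟨hb a, by simp⟩
  have qone : Q (fun _ => 1) 1 := ⟨⟨‖(1 : B)‖, fun _ => le_rfl⟩, by
    simpa using (tendsto_zero_iff_norm_tendsto_zero.2 hone).neg⟩
  have qstar : ∀ {x a}, Q x a → Q (fun n => star (x n)) (star a) := fun {x a} ⟨⟨C, hC⟩, hx⟩ =>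
    ⟨⟨C, fun n => by simpa using hC n⟩, by
      have := hx.star.sub (dstar a)
      simp only [star_zero, sub_zero, star_sub, sub_sub_sub_cancel_right] at this
      exact this⟩
  have qsub : ∀ {x y a b}, Q x a → Q y b → Q (fun n => x n - y n) (a - b) :=
    fun {x y a b} ⟨⟨C, hC⟩, hx⟩ ⟨⟨D, hD⟩, hy⟩ =>
    ⟨⟨C + D, fun n => (norm_sub_le _ _).trans (add_le_add (hC n) (hD n))⟩, by
      have := (hx.sub hy).add (dadd (a - b) b)
      simp only [sub_add_cancel, sub_zero, add_zero] at this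
      refine this.congr fun n => ?_
      show (x n - Φ a n) - (y n - Φ b n) + (Φ a n - (Φ (a - b) n + Φ b n)) =
        (x n - y n) - Φ (a - b) n
      abel⟩
  have qmul : ∀ {x y a b}, Q x a → Q y b → Q (fun n => x n * y n) (a * b) :=
    fun {x y a b} ⟨⟨C, hC⟩, hx⟩ ⟨⟨D, hD⟩, hy⟩ =>
    ⟨⟨|C| * |D|, fun n => (norm_mul_le _ _).trans (mul_le_mul ((hC n).trans (le_abs_self C))
      ((hD n).trans (le_abs_self D)) (norm_nonneg _) (abs_nonneg _))⟩, by
      obtain ⟨E', hE⟩ := hb a
      have h1 : Tendsto (fun n => (x n - Φ a n) * y n) l (𝓝 0) := by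
        refine squeeze_zero_norm (fun n => (norm_mul_le _ _).trans
          (mul_le_mul_of_nonneg_left (hD n) (norm_nonneg _))) ?_
        simpa using (tendsto_zero_iff_norm_tendsto_zero.1 hx).mul_const D
      have h2 : Tendsto (fun n => Φ a n * (y n - Φ b n)) l (𝓝 0) := by
        refine squeeze_zero_norm (fun n => (norm_mul_le _ _).trans
          (mul_le_mul_of_nonneg_right (hE n) (norm_nonneg _))) ?_
        simpa using (tendsto_zero_iff_norm_tendsto_zero.1 hy).const_mul E'
      have := (h1.add h2).sub (dmul a b)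
      simp only [add_zero, sub_zero] at this
      refine this.congr fun n => ?_
      simp only [sub_mul, mul_sub]
      abel⟩
  have qzero : ∀ {x}, Q x 0 → Tendsto (fun n => ‖x n‖) l (𝓝 0) := fun {x} ⟨_, hx⟩ => by
    have := (hx.sub (dadd 0 0)).norm
    simpa using this
  have qpow : ∀ {x a}, Q x a → ∀ k : ℕ, Q (fun n => x n ^ k) (a ^ k) := fun {x a} hx k => by
    induction k with
    | zero => simpa using qone
    | succ k ih => simpa only [pow_succ] using qmul ih hx
  -- the candidate tuples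
  let T' : ℕ → Tup B := fun n =>
    ⟨fun g => Φ (T.Y g) n, fun j => Φ (T.S j) n, Φ T.W n⟩
  have qcomm : ∀ g h, Q (fun n => comm' ((T' n).Y g) ((T' n).Y h)) (comm' (T.Y g) (T.Y h)) :=
    fun g h => qmul (qmul (qmul (qself _) (qself _)) (qstar (qself _))) (qstar (qself _))
  have qsect : ∀ g j, Q (fun n => sect (T' n).Y g j) (sect T.Y g j) := fun g j => by
    fin_cases g
    · exact qself _
    · exact qself _
    · exact qmul (qpow (qself _) _) (qself _)
    · exact qone
  have qdev : ∀ r, Q (fun n => dev (T' n) r) (dev T r) := fun r => by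
    cases r with
    | unitL g => exact qsub (qmul (qstar (qself _)) (qself _)) qone
    | unitR g => exact qsub (qmul (qself _) (qstar (qself _))) qone
    | order g => exact qsub (qpow (qself _) _) qone
    | heisL g h => exact qsub (qmul (qcomm g h) (qself _)) (qmul (qself _) (qcomm g h))
    | heisR g h => exact qsub (qmul (qcomm g h) (qself _)) (qmul (qself _) (qcomm g h))
    | isom j k =>
      refine qsub (qmul (qstar (qself _)) (qself _)) ?_
      split_ifs
      · exact qone
      · simpa using qsub qone qone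
    | move g j => exact qsub (qmul (qself _) (qself _)) (qmul (qself _) (qsect g j))
    | isomW => exact qsub (qmul (qstar (qself _)) (qself _)) qone
    | fixW g => exact qsub (qmul (qself _) (qself _)) (qself _)
  have hev : ∀ r, ∀ᶠ n in l, ‖dev (T' n) r‖ ≤ δ := fun r =>
    (qzero (hT r ▸ qdev r)).eventually_le_const hδ
  obtain ⟨n, hn⟩ := (eventually_all.2 hev).exists
  exact ⟨T' n, hn⟩

end

end Vale.Agent.P083
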