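import Vale.Agent.P083.Chain
import Vale.Agent.P083.Cuntz
import Vale.Agent.P083.End
import Vale.Agent.P083.Rep
import Vale.Agent.P083.Model

/-!
No algebra generated by a Cuntz pair carries almost exact tuples.
-/

namespace Vale.Agent.P083

noncomputable section

open Filter Topology

section coord

variable {H : Type} [NormedAddCommGroup H] [InnerProductSpace ℂ H]

theorem exists_coord {Ω ι : Type*} [Fintype Ω] [Fintype ι] (Tv : Ω → ι → H)
    (a : Fin 4 → ι → ι → ℂ) (p : Fin 4 → Ω → ℂ) (e : Fin 4 → Ω → Ω) (D : ℝ)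
    (h1 : ∑ ξ, ∑ α, ‖Tv ξ α‖ ^ 2 = 1)
    (hD : ∑ g, ∑ ξ, ∑ α, ‖p g ξ • ∑ β, a g α β • Tv ξ β - Tv (e g ξ) α‖ ^ 2 ≤ D) :
    ∃ t : Ω → ι → ℂ, (∀ ξ, Tv ξ = 0 → t ξ = 0) ∧ (∑ ξ, ∑ α, ‖t ξ α‖ ^ 2 = 1) ∧
      ∑ g, ∑ ξ, ∑ α, ‖p g ξ * ∑ β, a g α β * t ξ β - t (e g ξ) α‖ ^ 2 ≤ D := by
  set S : Submodule ℂ H := Submodule.span ℂ (Set.range fun q : Ω × ι => Tv q.1 q.2)
  have : FiniteDimensional ℂ S := FiniteDimensional.span_of_finite ℂ (Set.finite_range _)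
  have hmem : ∀ ξ α, Tv ξ α ∈ S := fun ξ α => Submodule.subset_span ⟨(ξ, α), rfl⟩
  let b := stdOrthonormalBasis ℂ S
  set c : Fin (Module.finrank ℂ S) → Ω → ι → ℂ := fun k ξ α => inner ℂ (b k : H) (Tv ξ α)
  have hpar : ∀ x ∈ S, ∑ k, ‖inner ℂ (b k : H) x‖ ^ 2 = ‖x‖ ^ 2 := fun x hx => by
    have := b.sum_sq_norm_inner_right (⟨x, hx⟩ : S)
    simpa using this
  have hlin : ∀ k g ξ α, p g ξ * ∑ β, a g α β * c k ξ β - c k (e g ξ) α
      = inner ℂ (b k : H) (p g ξ • ∑ β, a g α β • Tv ξ β - Tv (e g ξ) α) := fun k g ξ α => by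
    simp only [c, inner_sub_right, inner_smul_right, inner_sum]
  have hM : ∑ k, ∑ ξ, ∑ α, ‖c k ξ α‖ ^ 2 = 1 := by
    rw [← h1, Finset.sum_comm]
    refine Finset.sum_congr rfl fun ξ _ => ?_
    rw [Finset.sum_comm]
    exact Finset.sum_congr rfl fun α _ => hpar _ (hmem ξ α)
  have hDk : ∑ k, ∑ g, ∑ ξ, ∑ α, ‖p g ξ * ∑ β, a g α β * c k ξ β - c k (e g ξ) α‖ ^ 2 ≤ D := by
    refine le_trans (le_of_eq ?_) hD
    simp only [hlin]
    rw [Finset.sum_comm]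
    refine Finset.sum_congr rfl fun g _ => ?_
    rw [Finset.sum_comm]
    refine Finset.sum_congr rfl fun ξ _ => ?_
    rw [Finset.sum_comm]
    exact Finset.sum_congr rfl fun α _ => hpar _
      (S.sub_mem (S.smul_mem _ (S.sum_mem fun β _ => S.smul_mem _ (hmem ξ β))) (hmem _ α))
  set M : Fin (Module.finrank ℂ S) → ℝ := fun k => ∑ ξ, ∑ α, ‖c k ξ α‖ ^ 2
  set F : Fin (Module.finrank ℂ S) → ℝ := fun k =>
    ∑ g, ∑ ξ, ∑ α, ‖p g ξ * ∑ β, a g α β * c k ξ β - c k (e g ξ) α‖ ^ 2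
  have hF0 : ∀ k, 0 ≤ F k := fun k => by positivity
  obtain ⟨k, hk0, hk⟩ : ∃ k, 0 < M k ∧ F k ≤ D * M k := by
    by_contra hcon
    push Not at hcon
    have hle : ∀ k, D * M k ≤ F k := fun k => by
      rcases (show 0 ≤ M k by positivity).eq_or_lt with h0 | h0
      · rw [← h0, mul_zero]; exact hF0 k
      · exact (hcon k h0).le
    obtain ⟨k0, hk0⟩ : ∃ k, 0 < M k := by
      by_contra hall
      push Not at hall
      have : ∑ k, M k ≤ 0 := Finset.sum_nonpos fun k _ => hall k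
      linarith [show ∑ k, M k = 1 from hM]
    have hlt : ∑ k, D * M k < ∑ k, F k :=
      Finset.sum_lt_sum (fun k _ => hle k) ⟨k0, Finset.mem_univ _, hcon k0 hk0⟩
    rw [← Finset.mul_sum, show ∑ k, M k = 1 from hM, mul_one] at hlt
    linarith [show ∑ k, F k ≤ D from hDk]
  set r : ℂ := Complex.ofReal (Real.sqrt (M k))⁻¹
  have hr : ‖r‖ ^ 2 = (M k)⁻¹ := by
    rw [Complex.norm_real, Real.norm_eq_abs, sq_abs, inv_pow, Real.sq_sqrt hk0.le]
  refine ⟨fun ξ α => r * c k ξ α, fun ξ hξ => ?_, ?_, ?_⟩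
  · funext α
    simp [c, hξ]
  · simp only [norm_mul, mul_pow, hr, ← Finset.mul_sum]
    exact inv_mul_cancel₀ hk0.ne'
  · have e1 : ∀ g ξ α, p g ξ * ∑ β, a g α β * (r * c k ξ β) - r * c k (e g ξ) α
        = r * (p g ξ * ∑ β, a g α β * c k ξ β - c k (e g ξ) α) := fun g ξ α => by
      simp only [Finset.mul_sum, mul_sub]
      congr 1
      exact Finset.sum_congr rfl fun β _ => by ring
    simp only [e1, norm_mul, mul_pow, hr, ← Finset.mul_sum]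
    rw [inv_mul_le_iff₀ hk0, mul_comm]
    exact hk

theorem sum_norm_mat_le {Ω ι : Type*} [Fintype Ω] [Fintype ι] (Tv : Ω → ι → H)
    (a : ι → ι → ℂ) (A : ℝ)
    (ha : ∀ u : ι → ℂ, ∑ α, ‖∑ β, a α β * u β‖ ^ 2 ≤ A ^ 2 * ∑ α, ‖u α‖ ^ 2) (ξ : Ω) :
    ∑ α, ‖∑ β, a α β • Tv ξ β‖ ^ 2 ≤ A ^ 2 * ∑ α, ‖Tv ξ α‖ ^ 2 := by
  set S : Submodule ℂ H := Submodule.span ℂ (Set.range fun α => Tv ξ α)
  have : FiniteDimensional ℂ S := FiniteDimensional.span_of_finite ℂ (Set.finite_range _)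
  have hmem : ∀ α, Tv ξ α ∈ S := fun α => Submodule.subset_span ⟨α, rfl⟩
  let b := stdOrthonormalBasis ℂ S
  have hpar : ∀ x ∈ S, ∑ k, ‖inner ℂ (b k : H) x‖ ^ 2 = ‖x‖ ^ 2 := fun x hx => by
    have := b.sum_sq_norm_inner_right (⟨x, hx⟩ : S)
    simpa using this
  calc ∑ α, ‖∑ β, a α β • Tv ξ β‖ ^ 2
      = ∑ k, ∑ α, ‖∑ β, a α β * inner ℂ (b k : H) (Tv ξ β)‖ ^ 2 := by
        rw [Finset.sum_comm]
        refine Finset.sum_congr rfl fun α _ => ?_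
        rw [← hpar _ (S.sum_mem fun β _ => S.smul_mem _ (hmem β))]
        simp only [inner_sum, inner_smul_right]
    _ ≤ ∑ k, A ^ 2 * ∑ α, ‖inner ℂ (b k : H) (Tv ξ α)‖ ^ 2 :=
        Finset.sum_le_sum fun k _ => ha _
    _ = A ^ 2 * ∑ α, ‖Tv ξ α‖ ^ 2 := by
        rw [← Finset.mul_sum, Finset.sum_comm]
        congr 1
        exact Finset.sum_congr rfl fun α _ => hpar _ (hmem α)

end coord

section factor

variable {B : Type} [CStarAlgebra B] {H : Type} [NormedAddCommGroup H] [InnerProductSpace ℂ H]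
  [CompleteSpace H] (π : B →⋆ₐ[ℂ] (H →L[ℂ] H)) {ι : Type} [Fintype ι] (Φ : ι → B)

theorem sum_rep_sq (hΦ : ∑ α, star (Φ α) * Φ α = 1) (x : H) :
    ∑ α, ‖π (Φ α) x‖ ^ 2 = ‖x‖ ^ 2 := by
  have h : ((∑ α, ‖π (Φ α) x‖ ^ 2 : ℝ) : ℂ) = ((‖x‖ ^ 2 : ℝ) : ℂ) := by
    push_cast
    have e : ∀ y : H, ((‖y‖ : ℂ)) ^ 2 = inner ℂ y y := fun y =>
      (inner_self_eq_norm_sq_to_K y).symm
    simp only [e]
    have h2 : inner ℂ x (π (∑ α, star (Φ α) * Φ α) x) = inner ℂ x x := by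
      rw [hΦ, map_one, one_apply_eq_self]
    rw [← h2]
    simp only [map_sum, sum_apply, inner_sum, map_mul, map_star, mul_apply_eq_comp,
      ContinuousLinearMap.star_eq_adjoint, ContinuousLinearMap.adjoint_inner_right]
  exact_mod_cast h

theorem sum_inner_rep (a : ι → ι → ℂ) (y : B) (x x' : H) (p : ℂ) (hp : ‖p‖ = 1) (ε : ℝ)
    (h : ‖y - ∑ α, ∑ β, a α β • (star (Φ α) * Φ β)‖ ≤ ε) :
    (inner ℂ x' (p • π y x)).re - ε * (‖x'‖ * ‖x‖)
      ≤ ∑ α, (inner ℂ (π (Φ α) x') (p • ∑ β, a α β • π (Φ β) x)).re := by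
  have e : ∑ α, inner ℂ (π (Φ α) x') (p • ∑ β, a α β • π (Φ β) x)
      = inner ℂ x' (p • π (∑ α, ∑ β, a α β • (star (Φ α) * Φ β)) x) := by
    simp only [map_sum, map_smul, map_mul, map_star, sum_apply, smul_apply, mul_apply_eq_comp,
      Finset.smul_sum, inner_sum, inner_smul_right, ContinuousLinearMap.star_eq_adjoint,
      ContinuousLinearMap.adjoint_inner_right]
  rw [← Complex.re_sum, e]
  set z := ∑ α, ∑ β, a α β • (star (Φ α) * Φ β)
  have hb : |(inner ℂ x' (p • π (y - z) x)).re| ≤ ε * (‖x'‖ * ‖x‖) := by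
    refine (Complex.abs_re_le_norm _).trans ((norm_inner_le_norm _ _).trans ?_)
    rw [norm_smul, hp, one_mul]
    have h1 : ‖π (y - z) x‖ ≤ ε * ‖x‖ :=
      ContinuousLinearMap.le_of_opNorm_le _ ((NonUnitalStarAlgHom.norm_apply_le π _).trans h) x
    calc ‖x'‖ * ‖π (y - z) x‖ ≤ ‖x'‖ * (ε * ‖x‖) := by gcongr
      _ = _ := by ring
  simp only [map_sub, sub_apply, smul_sub, inner_sub_right, Complex.sub_re] at hb
  linarith [(abs_le.1 hb).2]

end factor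

theorem near_map {B : Type} [CStarAlgebra B] {H : Type} [NormedAddCommGroup H]
    [InnerProductSpace ℂ H] [CompleteSpace H] (π : B →⋆ₐ[ℂ] (H →L[ℂ] H)) {δ : ℝ} {T : Tup B}
    (h : Near δ T) :
    Near δ ({ Y := fun g => π (T.Y g), S := fun j => π (T.S j), W := π T.W } : Tup (H →L[ℂ] H)) := by
  intro r
  refine le_trans ?_ ((NonUnitalStarAlgHom.norm_apply_le π (dev T r)).trans (h r))
  refine le_of_eq (congrArg _ ?_)
  cases r <;> simp [dev, comm', map_star, apply_ite π]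
  case move g j => fin_cases g <;> simp [sect]

/-- An algebra generated by a Cuntz pair carries no almost exact tuples. -/
theorem no_near (B : Type) [CStarAlgebra B] [Nontrivial B] (s : Fin 2 → B)
    (hs : ∀ i, star (s i) * s i = 1) (hsum : ∑ i, s i * star (s i) = 1)
    (hgen : (StarAlgebra.adjoin ℂ (Set.range s)).topologicalClosure = ⊤) :
    ∃ δ : ℝ, 0 < δ ∧ ∀ T : Tup B, ¬ Near δ T := by
  obtain ⟨η0, hη0, hend⟩ := no_intertwiner
  set τ : ℝ := min 1 (η0 ^ 2 / 200) with hτd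
  have hτ0 : 0 < τ := lt_min one_pos (by positivity)
  have hτ1 : τ ≤ 1 := min_le_left _ _
  have hτη : 200 * τ ≤ η0 ^ 2 := by
    have := min_le_right 1 (η0 ^ 2 / 200)
    rw [← hτd] at this
    linarith
  set κ : ℝ := min τ (η0 / 2) with hκd
  have hκ0 : 0 < κ := lt_min hτ0 (by linarith)
  have hκτ : κ ≤ τ := min_le_left _ _
  have hκη : κ ≤ η0 / 2 := min_le_right _ _
  obtain ⟨δ0, hδ0, hchain⟩ := exists_chain κ hκ0
  refine ⟨min δ0 κ, lt_min hδ0 hκ0, fun T hT => ?_⟩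
  obtain ⟨H, _, _, _, π, h, hh⟩ := exists_rep B
  set TH : Tup (H →L[ℂ] H) :=
    { Y := fun g => π (T.Y g), S := fun j => π (T.S j), W := π T.W }
  have hTH : Near δ0 TH := fun r => ((near_map π hT) r).trans (min_le_left _ _)
  obtain ⟨ι, _, Φ, a, hΦ, ha, happ⟩ := exists_factor s hs hsum hgen T.Y κ hκ0
  obtain ⟨N, hN⟩ := hend (Fintype.card ι)
  obtain ⟨v, hv, hv1, hinv⟩ := hchain H TH hTH h hh N
  have hY : ∀ g, ‖T.Y g‖ ≤ 1 + κ := fun g => by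
    have h1 : ‖star (T.Y g) * T.Y g - 1‖ ≤ κ := (hT (.unitL g)).trans (min_le_right _ _)
    have h2 : ‖T.Y g‖ * ‖T.Y g‖ ≤ 1 + κ := by
      rw [← CStarRing.norm_star_mul_self]
      calc ‖star (T.Y g) * T.Y g‖ = ‖(star (T.Y g) * T.Y g - 1) + 1‖ := by rw [sub_add_cancel]
        _ ≤ _ := (norm_add_le _ _).trans (by rw [CStarRing.norm_one]; linarith)
    nlinarith [norm_nonneg (T.Y g)]
  have hA : ∀ g (u : ι → ℂ), ∑ α, ‖∑ β, a g α β * u β‖ ^ 2
      ≤ (1 + 2 * κ) ^ 2 * ∑ α, ‖u α‖ ^ 2 := fun g u => by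
    refine (ha g u).trans (mul_le_mul_of_nonneg_right ?_ (by positivity))
    exact pow_le_pow_left₀ (by positivity) (by linarith [hY g]) 2
  set Tv : Str (N + 1) → ι → H := fun ξ α => π (Φ α) (v ξ) with hTv
  have hT1 : ∑ ξ, ∑ α, ‖Tv ξ α‖ ^ 2 = 1 := by
    simp only [hTv, sum_rep_sq π Φ hΦ, ← vec_norm_sq, hv1, one_pow]
  have hD : ∑ g, ∑ ξ, ∑ α, ‖phase g ξ • ∑ β, a g α β • Tv ξ β - Tv (qperm g ξ) α‖ ^ 2
      ≤ ∑ _g : Fin 4, 50 * τ := by
    refine Finset.sum_le_sum fun g _ => ?_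
    have hcross : 1 - 2 * κ
        ≤ ∑ ξ, ∑ α, (inner ℂ (Tv (qperm g ξ) α) (phase g ξ • ∑ β, a g α β • Tv ξ β)).re := by
      have h1 : ∀ ξ, (inner ℂ (v (qperm g ξ)) (phase g ξ • π (T.Y g) (v ξ))).re
            - κ * ((‖v (qperm g ξ)‖ ^ 2 + ‖v ξ‖ ^ 2) / 2)
          ≤ ∑ α, (inner ℂ (Tv (qperm g ξ) α) (phase g ξ • ∑ β, a g α β • Tv ξ β)).re := by
        intro ξ
        refine le_trans ?_ (sum_inner_rep π Φ (a g) (T.Y g) (v ξ) (v (qperm g ξ)) _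
          (norm_phase g ξ) κ (happ g))
        have := two_mul_le_add_sq ‖v (qperm g ξ)‖ ‖v ξ‖
        nlinarith
      refine le_trans ?_ (Finset.sum_le_sum fun ξ _ => h1 ξ)
      rw [Finset.sum_sub_distrib, ← Finset.mul_sum, ← Finset.sum_div, Finset.sum_add_distrib,
        (qperm g).sum_comp (fun ξ => ‖v ξ‖ ^ 2), ← vec_norm_sq, hv1]
      have e : ∑ ξ, (inner ℂ (v (qperm g ξ)) (phase g ξ • π (T.Y g) (v ξ))).re
          = (inner ℂ v (zop N TH.Y g v)).re := by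
        rw [PiLp.inner_apply, Complex.re_sum, ← (qperm g).sum_comp
          (fun ζ => (inner ℂ (v ζ) (zop N TH.Y g v ζ)).re)]
        simp [zop_apply, TH]
      have h2 : 1 - κ ≤ (inner ℂ v (zop N TH.Y g v)).re := by
        have h3 : |(inner ℂ v (zop N TH.Y g v - v)).re| ≤ κ := by
          refine (Complex.abs_re_le_norm _).trans ((norm_inner_le_norm _ _).trans ?_)
          rw [hv1, one_mul]
          exact hinv g
        have h4 : (inner ℂ v v).re = 1 := by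
          rw [show (inner ℂ v v).re = ‖v‖ ^ 2 from inner_self_eq_norm_sq (𝕜 := ℂ) v, hv1, one_pow]
        rw [inner_sub_right, Complex.sub_re, h4] at h3
        linarith [(abs_le.1 h3).1]
      rw [e]
      linarith
    have hone : ∀ ξ α, ‖phase g ξ • ∑ β, a g α β • Tv ξ β - Tv (qperm g ξ) α‖ ^ 2
        = ‖∑ β, a g α β • Tv ξ β‖ ^ 2 + ‖Tv (qperm g ξ) α‖ ^ 2
          - 2 * (inner ℂ (Tv (qperm g ξ) α) (phase g ξ • ∑ β, a g α β • Tv ξ β)).re := fun ξ α => by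
      rw [norm_sub_rev, @norm_sub_sq ℂ]
      simp only [norm_smul, norm_phase, one_mul, RCLike.re_to_complex]
      ring
    simp only [hone, Finset.sum_sub_distrib, Finset.sum_add_distrib, ← Finset.mul_sum]
    have h5 : ∑ ξ, ∑ α, ‖∑ β, a g α β • Tv ξ β‖ ^ 2 ≤ (1 + 2 * κ) ^ 2 := by
      calc _ ≤ ∑ ξ, (1 + 2 * κ) ^ 2 * ∑ α, ‖Tv ξ α‖ ^ 2 :=
            Finset.sum_le_sum fun ξ _ => sum_norm_mat_le Tv (a g) _ (hA g) ξ
        _ = _ := by rw [← Finset.mul_sum, hT1, mul_one]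
    rw [(qperm g).sum_comp (fun ξ => ∑ α, ‖Tv ξ α‖ ^ 2), hT1]
    nlinarith
  obtain ⟨t, hsupp, ht1, htD⟩ :=
    exists_coord Tv a (fun g => phase g) (fun g => qperm g) _ hT1 hD
  refine hN N le_rfl ι le_rfl a t (fun g u => (hA g u).trans ?_) (fun ξ hξ => hsupp ξ ?_) ht1
    fun g => ?_
  · exact mul_le_mul_of_nonneg_right
      (pow_le_pow_left₀ (by positivity) (by linarith) 2) (by positivity)
  · funext α
    simp [hTv, hv ξ hξ]
  · refine (le_trans ?_ htD).trans ?_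
    · exact Finset.single_le_sum (f := fun g => ∑ ξ, ∑ α,
        ‖phase g ξ * ∑ β, a g α β * t ξ β - t (qperm g ξ) α‖ ^ 2)
        (fun g _ => by positivity) (Finset.mem_univ g)
    · simp
      linarith

end

end Vale.Agent.P083
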