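import Vale.Agent.P083.Dual

/-!
Tensoring four almost Heisenberg operators with the dual monomial representations.
-/

namespace Vale.Agent.P083

noncomputable section

/-- Vector valued functions on the strings of length `n + 1`. -/
abbrev Vec (n : ℕ) (H : Type) : Type := PiLp 2 (fun _ : Str (n + 1) => H)

set_option linter.unusedSectionVars false

variable {H : Type} [NormedAddCommGroup H] [InnerProductSpace ℂ H] [CompleteSpace H]

/-- The tensor product of a generator with its monomial matrix. -/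
def zop (n : ℕ) (Y : Fin 4 → (H →L[ℂ] H)) (g : Fin 4) : Vec n H →L[ℂ] Vec n H :=
  ((PiLp.continuousLinearEquiv 2 ℂ (fun _ : Str (n + 1) => H)).symm.toContinuousLinearMap.comp
    (ContinuousLinearMap.pi fun ζ => phase g ((qperm g).symm ζ) •
      (Y g).comp (ContinuousLinearMap.proj ((qperm g).symm ζ)))).comp
    (PiLp.continuousLinearEquiv 2 ℂ (fun _ : Str (n + 1) => H)).toContinuousLinearMap

theorem zop_apply (n : ℕ) (Y : Fin 4 → (H →L[ℂ] H)) (g : Fin 4) (v : Vec n H)
    (ξ : Str (n + 1)) : zop n Y g v (qperm g ξ) = phase g ξ • Y g (v ξ) := by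
  simp [zop]

theorem supp_qperm {n : ℕ} (g : Fin 4) (ξ : Str (n + 1)) : Supp (qperm g ξ) ↔ Supp ξ := by
  have hn : next ξ (Fin.last n) = 0 := by simp [next]
  unfold Supp qperm
  fin_cases g <;> simp [act, hn, Prod.ext_iff] <;> aesop

/-- The first coordinates of a string. -/
def cX {n : ℕ} (ξ : Str (n + 1)) : Fin (n + 1) → K := fun k => (ξ k).1

/-- The second coordinates of a string. -/
def cY {n : ℕ} (ξ : Str (n + 1)) : Fin (n + 1) → K := fun k => (ξ k).2.1

/-- The third coordinates of a string. -/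
def cW {n : ℕ} (ξ : Str (n + 1)) : Fin (n + 1) → K := fun k => (ξ k).2.2

theorem str_ext {n : ℕ} {ξ η : Str (n + 1)} (h1 : cX ξ = cX η) (h2 : cY ξ = cY η)
    (h3 : cW ξ = cW η) : ξ = η :=
  funext fun k => Prod.ext (congrFun h1 k) (Prod.ext (congrFun h2 k) (congrFun h3 k))

/-- Shifting coordinates one place back. -/
def sh (n : ℕ) : (Fin (n + 1) → K) →+ (Fin (n + 1) → K) where
  toFun f k := if h : k.val + 1 < n + 1 then f ⟨k.val + 1, h⟩ else 0
  map_zero' := by funext k; simp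
  map_add' f g := by funext k; simp only [Pi.add_apply]; split_ifs <;> simp

theorem next_eq {n : ℕ} (ξ : Str (n + 1)) (k : Fin (n + 1)) : next ξ k = sh n (cW ξ) k := rfl

theorem cX_qperm {n : ℕ} (g : Fin 4) (ξ : Str (n + 1)) :
    cX (qperm g ξ) = if g = 2 then cX ξ - sh n (cW ξ) else cX ξ := by
  funext k; fin_cases g <;> simp [qperm, act, cX, next_eq]

theorem cY_qperm {n : ℕ} (g : Fin 4) (ξ : Str (n + 1)) :
    cY (qperm g ξ) = if g = 0 then cY ξ - cX ξ else cY ξ := by
  funext k; fin_cases g <;> simp [qperm, act, cX, cY]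

theorem cW_qperm {n : ℕ} (g : Fin 4) (ξ : Str (n + 1)) :
    cW (qperm g ξ) = if g = 1 then cW ξ - cY ξ else cW ξ := by
  funext k; fin_cases g <;> simp [qperm, act, cY, cW]

theorem cX_symm {n : ℕ} (g : Fin 4) (ξ : Str (n + 1)) :
    cX ((qperm g).symm ξ) = if g = 2 then cX ξ + sh n (cW ξ) else cX ξ := by
  funext k; fin_cases g <;> simp [qperm, actInv, cX, next_eq]

theorem cY_symm {n : ℕ} (g : Fin 4) (ξ : Str (n + 1)) :
    cY ((qperm g).symm ξ) = if g = 0 then cY ξ + cX ξ else cY ξ := by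
  funext k; fin_cases g <;> simp [qperm, actInv, cX, cY]

theorem cW_symm {n : ℕ} (g : Fin 4) (ξ : Str (n + 1)) :
    cW ((qperm g).symm ξ) = if g = 1 then cW ξ + cY ξ else cW ξ := by
  funext k; fin_cases g <;> simp [qperm, actInv, cY, cW]

/-- The exponent of the phase. -/
def expo {n : ℕ} (g : Fin 4) (ξ : Str (n + 1)) : K := if g = 3 then cW ξ 0 else 0

theorem phase_eq {n : ℕ} (g : Fin 4) (ξ : Str (n + 1)) :
    phase g ξ = ZMod.stdAddChar (expo g ξ) := by
  unfold phase expo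
  split_ifs <;> simp [cW]

/-- A monomial matrix with operator entries. -/
def mono (n : ℕ) (σ : Str (n + 1) ≃ Str (n + 1)) (ψ : Str (n + 1) → ℂ) (T : H →L[ℂ] H) :
    Vec n H →L[ℂ] Vec n H :=
  ((PiLp.continuousLinearEquiv 2 ℂ (fun _ : Str (n + 1) => H)).symm.toContinuousLinearMap.comp
    (ContinuousLinearMap.pi fun ζ => ψ (σ.symm ζ) •
      T.comp (ContinuousLinearMap.proj (σ.symm ζ)))).comp
    (PiLp.continuousLinearEquiv 2 ℂ (fun _ : Str (n + 1) => H)).toContinuousLinearMap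

@[simp] theorem mono_apply (n : ℕ) (σ : Str (n + 1) ≃ Str (n + 1)) (ψ : Str (n + 1) → ℂ)
    (T : H →L[ℂ] H) (v : Vec n H) (ζ : Str (n + 1)) :
    mono n σ ψ T v ζ = ψ (σ.symm ζ) • T (v (σ.symm ζ)) := by
  simp [mono]

theorem star_mono (n : ℕ) (σ : Str (n + 1) ≃ Str (n + 1)) (ψ : Str (n + 1) → ℂ)
    (T : H →L[ℂ] H) :
    star (mono n σ ψ T) = mono n σ.symm (fun ζ => starRingEnd ℂ (ψ (σ.symm ζ))) (star T) := by
  rw [ContinuousLinearMap.star_eq_adjoint, eq_comm, ContinuousLinearMap.eq_adjoint_iff]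
  intro x y
  simp only [PiLp.inner_apply, mono_apply, inner_smul_left, inner_smul_right,
    ContinuousLinearMap.star_eq_adjoint, ContinuousLinearMap.adjoint_inner_left, Equiv.symm_symm]
  refine Fintype.sum_equiv σ _ _ fun ξ => ?_
  simp

theorem norm_mono_le (n : ℕ) (σ : Str (n + 1) ≃ Str (n + 1)) (ψ : Str (n + 1) → ℂ)
    (hψ : ∀ ξ, ‖ψ ξ‖ = 1) (T : H →L[ℂ] H) : ‖mono n σ ψ T‖ ≤ ‖T‖ := by
  refine ContinuousLinearMap.opNorm_le_bound _ (norm_nonneg _) fun v => ?_
  rw [← sq_le_sq₀ (norm_nonneg _) (by positivity), mul_pow, PiLp.norm_sq_eq_of_L2,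
    PiLp.norm_sq_eq_of_L2, Finset.mul_sum, ← Equiv.sum_comp σ]
  refine Finset.sum_le_sum fun ξ _ => ?_
  rw [mono_apply, Equiv.symm_apply_apply, norm_smul, hψ, one_mul, ← mul_pow]
  exact pow_le_pow_left₀ (norm_nonneg _) (T.le_opNorm _) 2

/-- The scalar monomial unitaries. -/
def qop (n : ℕ) (g : Fin 4) : Vec n H →L[ℂ] Vec n H := mono n (qperm g) (phase g) 1

/-- Acting in every coordinate. -/
def lift (n : ℕ) (T : H →L[ℂ] H) : Vec n H →L[ℂ] Vec n H :=
  mono n (Equiv.refl _) (fun _ => 1) T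

@[simp] theorem lift_apply (n : ℕ) (T : H →L[ℂ] H) (v : Vec n H) (ζ : Str (n + 1)) :
    lift n T v ζ = T (v ζ) := by
  simp [lift]

theorem lift_mul (n : ℕ) (T S : H →L[ℂ] H) : lift n (T * S) = lift n T * lift n S := by
  ext v ζ; simp

theorem lift_one (n : ℕ) : lift n (1 : H →L[ℂ] H) = 1 := by
  ext v ζ; simp

theorem lift_sub (n : ℕ) (T S : H →L[ℂ] H) : lift n (T - S) = lift n T - lift n S := by
  ext v ζ; simp

theorem lift_pow (n : ℕ) (T : H →L[ℂ] H) : ∀ m, lift n (T ^ m) = lift n T ^ m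
  | 0 => by simp [lift_one]
  | m + 1 => by rw [pow_succ, pow_succ, lift_mul, lift_pow n T m]

theorem lift_star (n : ℕ) (T : H →L[ℂ] H) : lift n (star T) = star (lift n T) := by
  ext v ζ; simp [lift, star_mono]

theorem norm_lift_le (n : ℕ) (T : H →L[ℂ] H) : ‖lift n T‖ ≤ ‖T‖ :=
  norm_mono_le n _ _ (fun _ => norm_one) T

theorem qop_apply (n : ℕ) (g : Fin 4) (v : Vec n H) (ζ : Str (n + 1)) :
    qop n g v ζ = ZMod.stdAddChar (expo g ((qperm g).symm ζ)) • v ((qperm g).symm ζ) := by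
  simp [qop, phase_eq]

theorem star_qop_apply (n : ℕ) (g : Fin 4) (v : Vec n H) (ζ : Str (n + 1)) :
    star (qop n g) v ζ = ZMod.stdAddChar (-expo g ζ) • v (qperm g ζ) := by
  simp [qop, star_mono, phase_eq, AddChar.map_neg_eq_conj]

theorem norm_qop_le (n : ℕ) (g : Fin 4) : ‖(qop n g : Vec n H →L[ℂ] Vec n H)‖ ≤ 1 :=
  (norm_mono_le n _ _ (fun ξ => norm_phase g ξ) 1).trans
    (ContinuousLinearMap.norm_id_le)

theorem qop_star_mul (n : ℕ) (g : Fin 4) :
    star (qop n g) * qop n g = (1 : Vec n H →L[ℂ] Vec n H) := by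
  ext v ζ
  simp only [mul_apply_eq_comp, one_apply_eq_self, star_qop_apply,
    qop_apply, Equiv.symm_apply_apply, smul_smul, ← AddChar.map_add_eq_mul, neg_add_cancel,
    AddChar.map_zero_eq_one, one_smul]

theorem qop_mul_star (n : ℕ) (g : Fin 4) :
    qop n g * star (qop n g) = (1 : Vec n H →L[ℂ] Vec n H) := by
  ext v ζ
  simp only [mul_apply_eq_comp, one_apply_eq_self, star_qop_apply,
    qop_apply, Equiv.apply_symm_apply, smul_smul, ← AddChar.map_add_eq_mul, add_neg_cancel,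
    AddChar.map_zero_eq_one, one_smul]

theorem qop_pow_apply (n : ℕ) (g : Fin 4) (v : Vec n H) : ∀ (m : ℕ) (ζ : Str (n + 1)),
    ∃ ξ : Str (n + 1),
      (qop n g ^ m) v ζ = ZMod.stdAddChar ((m : K) * expo g ζ) • v ξ ∧
      cX ξ = (if g = 2 then cX ζ + m • sh n (cW ζ) else cX ζ) ∧
      cY ξ = (if g = 0 then cY ζ + m • cX ζ else cY ζ) ∧
      cW ξ = (if g = 1 then cW ζ + m • cY ζ else cW ζ)
  | 0, ζ => ⟨ζ, by simp, by simp, by simp, by simp⟩
  | m + 1, ζ => by
    obtain ⟨ξ, h0, h1, h2, h3⟩ := qop_pow_apply n g v m ((qperm g).symm ζ)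
    refine ⟨ξ, ?_, ?_, ?_, ?_⟩
    · rw [pow_succ', mul_apply_eq_comp, qop_apply, h0, smul_smul,
        ← AddChar.map_add_eq_mul]
      congr 2
      fin_cases g <;> simp [expo, cW_symm] <;> ring
    · rw [h1, cX_symm, cW_symm]
      fin_cases g <;> simp <;> ring
    · rw [h2, cX_symm, cY_symm]
      fin_cases g <;> simp <;> ring
    · rw [h3, cW_symm, cY_symm]
      fin_cases g <;> simp <;> ring

theorem qop_pow17 (n : ℕ) (g : Fin 4) : qop n g ^ 17 = (1 : Vec n H →L[ℂ] Vec n H) := by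
  ext v ζ
  obtain ⟨ξ, h0, h1, h2, h3⟩ := qop_pow_apply n g v 17 ζ
  have hK : (17 : K) = 0 := by decide
  have hs : ∀ f : Fin (n + 1) → K, 17 • f = 0 := fun f => by
    funext k; simp [hK]
  have hξ : ξ = ζ := str_ext (by simp [h1, hs]) (by simp [h2, hs]) (by simp [h3, hs])
  rw [h0, hξ, Nat.cast_ofNat, hK, zero_mul, AddChar.map_zero_eq_one, one_smul, one_apply_eq_self]

/-- The point reached by a commutator followed by one more generator. -/
def wordL {n : ℕ} (g h j : Fin 4) (ζ : Str (n + 1)) : Str (n + 1) :=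
  (qperm j).symm (qperm h (qperm g ((qperm h).symm ((qperm g).symm ζ))))

/-- The point reached by one generator followed by a commutator. -/
def wordR {n : ℕ} (g h j : Fin 4) (ζ : Str (n + 1)) : Str (n + 1) :=
  qperm h (qperm g ((qperm h).symm ((qperm g).symm ((qperm j).symm ζ))))

/-- The phase along `wordL`. -/
def expL {n : ℕ} (g h j : Fin 4) (ζ : Str (n + 1)) : K :=
  expo g ((qperm g).symm ζ) + (expo h ((qperm h).symm ((qperm g).symm ζ))
    + (-expo g ((qperm h).symm ((qperm g).symm ζ))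
    + (-expo h (qperm g ((qperm h).symm ((qperm g).symm ζ))) + expo j (wordL g h j ζ))))

/-- The phase along `wordR`. -/
def expR {n : ℕ} (g h j : Fin 4) (ζ : Str (n + 1)) : K :=
  expo j ((qperm j).symm ζ) + (expo g ((qperm g).symm ((qperm j).symm ζ))
    + (expo h ((qperm h).symm ((qperm g).symm ((qperm j).symm ζ)))
    + (-expo g ((qperm h).symm ((qperm g).symm ((qperm j).symm ζ)))
    + -expo h (qperm g ((qperm h).symm ((qperm g).symm ((qperm j).symm ζ)))))))

theorem comm_mul_apply (n : ℕ) (g h j : Fin 4) (v : Vec n H) (ζ : Str (n + 1)) :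
    (comm' (qop n g) (qop n h) * qop n j : Vec n H →L[ℂ] Vec n H) v ζ
      = ZMod.stdAddChar (expL g h j ζ) • v (wordL g h j ζ) := by
  simp only [comm', mul_apply_eq_comp, qop_apply, star_qop_apply, smul_smul,
    ← AddChar.map_add_eq_mul, expL, wordL, add_assoc]

theorem mul_comm_apply (n : ℕ) (g h j : Fin 4) (v : Vec n H) (ζ : Str (n + 1)) :
    (qop n j * comm' (qop n g) (qop n h) : Vec n H →L[ℂ] Vec n H) v ζ
      = ZMod.stdAddChar (expR g h j ζ) • v (wordR g h j ζ) := by
  simp only [comm', mul_apply_eq_comp, qop_apply, star_qop_apply, smul_smul,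
    ← AddChar.map_add_eq_mul, expR, wordR, add_assoc]

set_option maxHeartbeats 1600000 in
theorem heis_left {n : ℕ} (g h : Fin 4) (ζ : Str (n + 1)) :
    wordL g h g ζ = wordR g h g ζ ∧ expL g h g ζ = expR g h g ζ := by
  fin_cases g <;> fin_cases h <;> refine ⟨str_ext ?_ ?_ ?_, ?_⟩ <;>
    simp [wordL, wordR, expL, expR, expo, cX_qperm, cY_qperm, cW_qperm, cX_symm, cY_symm,
      cW_symm] <;> abel

set_option maxHeartbeats 1600000 in
theorem heis_right {n : ℕ} (g h : Fin 4) (ζ : Str (n + 1)) :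
    wordL g h h ζ = wordR g h h ζ ∧ expL g h h ζ = expR g h h ζ := by
  fin_cases g <;> fin_cases h <;> refine ⟨str_ext ?_ ?_ ?_, ?_⟩ <;>
    simp [wordL, wordR, expL, expR, expo, cX_qperm, cY_qperm, cW_qperm, cX_symm, cY_symm,
      cW_symm] <;> abel

theorem qop_heis (n : ℕ) (g h : Fin 4) :
    comm' (qop n g) (qop n h) * qop n g
      = (qop n g * comm' (qop n g) (qop n h) : Vec n H →L[ℂ] Vec n H) ∧
    comm' (qop n g) (qop n h) * qop n h
      = (qop n h * comm' (qop n g) (qop n h) : Vec n H →L[ℂ] Vec n H) := by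
  constructor <;> ext v ζ <;> rw [comm_mul_apply, mul_comm_apply]
  · rw [(heis_left g h ζ).1, (heis_left g h ζ).2]
  · rw [(heis_right g h ζ).1, (heis_right g h ζ).2]

theorem qop_commute_lift (n : ℕ) (g : Fin 4) (T : H →L[ℂ] H) :
    Commute (qop n g) (lift n T) := by
  ext v ζ
  simp [qop_apply]

theorem zop_eq (n : ℕ) (Y : Fin 4 → (H →L[ℂ] H)) (g : Fin 4) :
    zop n Y g = qop n g * lift n (Y g) := by
  ext v ζ
  simp [zop, qop_apply, phase_eq]

section Abstract

variable {R : Type*} [Monoid R] [StarMul R] {a b c d : R}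

theorem mul_mul_mul_of_commute (h : Commute b c) : a * b * (c * d) = a * c * (b * d) := by
  rw [mul_assoc, ← mul_assoc b, h.eq, mul_assoc c, ← mul_assoc a c]

theorem commute_star_left (h : Commute a (star b)) : Commute (star a) b := by
  have := h.star_star
  rwa [star_star] at this

theorem comm'_mul {q q' l l' : R} (h2 : Commute q' l)
    (h3 : Commute (star q) l) (h4 : Commute (star q) l') (h4' : Commute (star q) (star l))
    (h5 : Commute (star q') l) (h6 : Commute (star q') l') (h7 : Commute (star q') (star l))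
    (h8 : Commute (star q') (star l')) :
    comm' (q * l) (q' * l') = comm' q q' * comm' l l' := by
  have e1 : star (q * l) = star q * star l := by rw [star_mul, h4'.eq]
  have e2 : star (q' * l') = star q' * star l' := by rw [star_mul, h8.eq]
  rw [comm', comm', comm', e1, e2, mul_mul_mul_of_commute h2.symm,
    mul_mul_mul_of_commute (h3.mul_right h4).symm,
    mul_mul_mul_of_commute ((h5.mul_right h6).mul_right h7).symm]

end Abstract

theorem near4_zop (n : ℕ) {δ : ℝ} (hδ : 0 ≤ δ) (Y : Fin 4 → (H →L[ℂ] H)) (h : Near4 δ Y) :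
    Near4 δ (zop n Y) := by
  intro g
  obtain ⟨hl, hr, ho, hh⟩ := h g
  have hc : ∀ k T, Commute (qop n k : Vec n H →L[ℂ] Vec n H) (lift n T) := qop_commute_lift n
  have hcs : ∀ k T, Commute (star (qop n k) : Vec n H →L[ℂ] Vec n H) (lift n T) := fun k T =>
    commute_star_left (by rw [← lift_star]; exact hc k _)
  have hs : ∀ k, star (zop n Y k) = star (qop n k) * lift n (star (Y k)) := fun k => by
    rw [zop_eq, star_mul, ← lift_star, (hcs k _).eq]
  refine ⟨?_, ?_, ?_, fun k => ?_⟩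
  · rw [hs, zop_eq, mul_mul_mul_of_commute (hc g _).symm, qop_star_mul, one_mul, ← lift_mul,
      ← lift_one n, ← lift_sub]
    exact (norm_lift_le n _).trans hl
  · rw [hs, zop_eq, mul_mul_mul_of_commute (hcs g _).symm, qop_mul_star, one_mul, ← lift_mul,
      ← lift_one n, ← lift_sub]
    exact (norm_lift_le n _).trans hr
  · rw [zop_eq, (hc g _).mul_pow, qop_pow17, one_mul, ← lift_pow, ← lift_one n, ← lift_sub]
    exact (norm_lift_le n _).trans ho
  set C : Vec n H →L[ℂ] Vec n H := comm' (qop n g) (qop n k) with hC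
  have hcomm : comm' (zop n Y g) (zop n Y k) = C * lift n (comm' (Y g) (Y k)) := by
    have el : lift n (comm' (Y g) (Y k)) = comm' (lift n (Y g)) (lift n (Y k)) := by
      simp only [comm', lift_mul, lift_star]
    rw [hC, el, zop_eq, zop_eq]
    refine comm'_mul (hc k _) (hcs g _) (hcs g _) ?_ (hcs k _) (hcs k _) ?_ ?_ <;>
      rw [← lift_star] <;> apply hcs
  have hCn : ∀ j, ‖C * qop n j‖ ≤ 1 := fun j => by
    have hb : ∀ {a b : Vec n H →L[ℂ] Vec n H}, ‖a‖ ≤ 1 → ‖b‖ ≤ 1 → ‖a * b‖ ≤ 1 :=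
      fun {a b} ha hb' => (norm_mul_le a b).trans (mul_le_one₀ ha (norm_nonneg _) hb')
    have hq' : ∀ i, ‖star (qop n i : Vec n H →L[ℂ] Vec n H)‖ ≤ 1 := fun i => by
      rw [qop, star_mono]
      exact (norm_mono_le n _ _ (fun ξ => by simp [norm_phase]) _).trans
        (by rw [star_one]; exact ContinuousLinearMap.norm_id_le)
    exact hb (hb (hb (hb (norm_qop_le n g) (norm_qop_le n k)) (hq' g)) (hq' k)) (norm_qop_le n j)
  have hCl : ∀ T, Commute C (lift n T) := fun T =>
    (((hc g T).mul_left (hc k T)).mul_left (hcs g T)).mul_left (hcs k T)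
  have fin : ∀ j, (C * qop n j = qop n j * C) →
      ‖comm' (zop n Y g) (zop n Y k) * zop n Y j - zop n Y j * comm' (zop n Y g) (zop n Y k)‖
        ≤ ‖comm' (Y g) (Y k) * Y j - Y j * comm' (Y g) (Y k)‖ := fun j hj => by
    rw [hcomm, zop_eq, mul_mul_mul_of_commute (hc j _).symm,
      mul_mul_mul_of_commute (hCl _).symm, ← hj, ← lift_mul, ← lift_mul, ← mul_sub, ← lift_sub]
    refine (norm_mul_le _ _).trans ?_
    exact (mul_le_of_le_one_left (norm_nonneg _) (hCn j)).trans (norm_lift_le n _)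
  obtain ⟨h1, h2⟩ := hh k
  exact ⟨(fin g (qop_heis n g k).1).trans h1, (fin k (qop_heis n g k).2).trans h2⟩

end

end Vale.Agent.P083
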