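import Vale.Agent.P083.Spaces
import Vale.Agent.P083.Gap

/-!
Passing from almost invariant vectors at one length to the next length.
-/

namespace Vale.Agent.P083

noncomputable section

/-- The pairing of letters. -/
def dot (j i : Letter) : K := j.1 * i.1 + j.2.1 * i.2.1 + j.2.2 * i.2.2

/-- The standard character. -/
def chr (w : K) : ℂ := ZMod.stdAddChar w

theorem norm_chr (w : K) : ‖chr w‖ = 1 := by
  simp [chr, ZMod.stdAddChar_apply, Circle.norm_coe]

theorem chr_add (a b : K) : chr (a + b) = chr a * chr b := AddChar.map_add_eq_mul _ a b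

theorem chr_zero : chr 0 = 1 := AddChar.map_zero_eq_one _

theorem star_chr (a : K) : starRingEnd ℂ (chr a) = chr (-a) := by
  simp only [chr, ZMod.stdAddChar_apply, AddChar.map_neg_eq_inv]
  rw [← Circle.coe_inv_eq_conj, Circle.coe_inv]

theorem chr_nsmul (w : K) (k : ℕ) : chr (k • w) = chr w ^ k := AddChar.map_nsmul_eq_pow _ k w

theorem sum_chr_mul (a : K) : ∑ x : K, chr (a * x) = if a = 0 then 17 else 0 := by
  have h := AddChar.sum_mulShift a (ZMod.isPrimitive_stdAddChar 17)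
  simp only [chr]
  split_ifs with ha
  · subst ha
    simp
  · rw [if_neg ha] at h
    rw [← Nat.cast_zero, ← h]
    exact Finset.sum_congr rfl fun x _ => by rw [mul_comm]

theorem sum_prod3 {α β γ : Type*} [Fintype α] [Fintype β] [Fintype γ] (f : α → ℂ) (g : β → ℂ)
    (h : γ → ℂ) :
    ∑ i : α × β × γ, f i.1 * g i.2.1 * h i.2.2 = (∑ x, f x) * (∑ x, g x) * ∑ x, h x := by
  simp only [Fintype.sum_prod_type]
  rw [Finset.sum_mul_sum, Finset.sum_mul]
  refine Finset.sum_congr rfl fun x _ => ?_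
  rw [Finset.sum_mul]
  refine Finset.sum_congr rfl fun y _ => ?_
  rw [Finset.mul_sum]

theorem sum_chr_dot (a : Letter) : ∑ i : Letter, chr (dot a i) = if a = 0 then 4913 else 0 := by
  simp only [dot, chr_add]
  rw [sum_prod3 (fun x => chr (a.1 * x)) (fun x => chr (a.2.1 * x)) (fun x => chr (a.2.2 * x)),
    sum_chr_mul, sum_chr_mul, sum_chr_mul]
  by_cases h : a = 0
  · subst h
    simp
    norm_num
  · rw [if_neg h]
    simp only [Prod.ext_iff, Prod.fst_zero, Prod.snd_zero] at h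
    split_ifs <;> simp_all

/-- Orthogonal columns give a scalar multiple of an isometry. -/
theorem parseval {H ι κ : Type*} [NormedAddCommGroup H] [InnerProductSpace ℂ H] [Fintype ι]
    [Fintype κ] [DecidableEq κ] (M : ι → κ → ℂ) (N : ℝ)
    (hM : ∀ j k, ∑ i, starRingEnd ℂ (M i j) * M i k = if j = k then (N : ℂ) else 0) (w : κ → H) :
    ∑ i, ‖∑ j, M i j • w j‖ ^ 2 = N * ∑ j, ‖w j‖ ^ 2 := by
  have h : ((∑ i, ‖∑ j, M i j • w j‖ ^ 2 : ℝ) : ℂ) = ((N * ∑ j, ‖w j‖ ^ 2 : ℝ) : ℂ) := by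
    push_cast
    have e : ∀ x : H, ((‖x‖ : ℂ)) ^ 2 = inner ℂ x x := fun x =>
      (inner_self_eq_norm_sq_to_K x).symm
    simp only [e, sum_inner, inner_sum, inner_smul_left, inner_smul_right, Finset.mul_sum]
    rw [Finset.sum_comm]
    refine Finset.sum_congr rfl fun j _ => ?_
    rw [Finset.sum_comm]
    have : ∀ k, ∑ i, starRingEnd ℂ (M i k) * (M i j * inner ℂ (w k) (w j))
        = if k = j then (N : ℂ) * inner ℂ (w j) (w j) else 0 := fun k => by
      simp only [← mul_assoc, ← Finset.sum_mul, hM]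
      split_ifs with hk
      · rw [hk]
      · simp
    simp only [mul_left_comm (M _ j)] at this ⊢
    simp only [this, Finset.sum_ite_eq', Finset.mem_univ, if_true]
  exact_mod_cast h

/-- Almost orthogonal vectors of equal length. -/
theorem norm_sum_sq_le' {H ι : Type*} [NormedAddCommGroup H] [InnerProductSpace ℂ H] [Fintype ι]
    [DecidableEq ι] (w : ι → H) (c d : ℝ) (hc : 0 ≤ c)
    (h : ∀ j k, ‖inner ℂ (w j) (w k) - (if j = k then (c : ℂ) else 0)‖ ≤ d) :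
    ‖∑ j, w j‖ ^ 2 ≤ Fintype.card ι * c + (Fintype.card ι : ℝ) ^ 2 * d := by
  rw [show ‖∑ j, w j‖ ^ 2 = RCLike.re (inner ℂ (∑ j, w j) (∑ j, w j)) from
    (inner_self_eq_norm_sq _).symm]
  refine (RCLike.re_le_norm _).trans ?_
  simp only [sum_inner, inner_sum]
  calc ‖∑ x, ∑ j, inner ℂ (w j) (w x)‖
      ≤ ∑ x : ι, ∑ j : ι, ((if j = x then c else 0) + d) := by
        refine (norm_sum_le _ _).trans (Finset.sum_le_sum fun k _ => (norm_sum_le _ _).trans
          (Finset.sum_le_sum fun j _ => ?_))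
        have hn : ‖(if j = k then (c : ℂ) else 0)‖ = if j = k then c else 0 := by
          split_ifs <;> simp [abs_of_nonneg hc]
        calc ‖inner ℂ (w j) (w k)‖
            = ‖(inner ℂ (w j) (w k) - (if j = k then (c : ℂ) else 0))
                + (if j = k then (c : ℂ) else 0)‖ := by rw [sub_add_cancel]
          _ ≤ _ := (norm_add_le _ _).trans (by linarith [h j k, hn.le])
    _ = _ := by
        simp [Finset.sum_add_distrib]
        ring

section generic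

variable {H : Type} [NormedAddCommGroup H] [InnerProductSpace ℂ H] {ι : Type*} [Fintype ι]

/-- A linear combination of operators. -/
def mix (a : ι → ℂ) (S : ι → (H →L[ℂ] H)) : H →L[ℂ] H := ∑ j, a j • S j

theorem mix_apply (a : ι → ℂ) (S : ι → (H →L[ℂ] H)) (u : H) :
    mix a S u = ∑ j, a j • S j u := by
  simp [mix]

theorem norm_sq_smul_sum (c : ℂ) (w : ι → H) :
    ‖c • ∑ j, w j‖ ^ 2 = ‖c‖ ^ 2 * ‖∑ j, w j‖ ^ 2 := by
  rw [norm_smul, mul_pow]

theorem mix_move (A : H →L[ℂ] H) (a κ : ι → ℂ) (S S' X : ι → (H →L[ℂ] H)) (c p : ℂ) (u u' : H) :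
    p • A (c • mix a S u) - c • (p • ∑ j, (a j * κ j) • S' j u')
      = c • (p • ∑ j, a j • ((A * S j - S' j * X j) u + S' j (X j u - κ j • u'))) := by
  simp only [mix_apply, map_smul, map_sum, sub_apply, mul_apply_eq_comp, map_sub, smul_add,
    smul_sub, Finset.sum_add_distrib, Finset.sum_sub_distrib, Finset.smul_sum, smul_smul]
  rw [← Finset.sum_sub_distrib, ← Finset.sum_sub_distrib, ← Finset.sum_sub_distrib,
    ← Finset.sum_add_distrib]
  refine Finset.sum_congr rfl fun j _ => ?_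
  module

theorem norm_mix_le (a : ι → ℂ) (ha : ∀ j, ‖a j‖ = 1) (w : ι → H) (B : ℝ) (hw : ∀ j, ‖w j‖ ≤ B) :
    ‖∑ j, a j • w j‖ ≤ Fintype.card ι * B := by
  calc ‖∑ j, a j • w j‖ ≤ ∑ _j : ι, B := (norm_sum_le _ _).trans
        (Finset.sum_le_sum fun j _ => by rw [norm_smul, ha, one_mul]; exact hw j)
    _ = _ := by simp

end generic

variable {H : Type} [NormedAddCommGroup H] [InnerProductSpace ℂ H] [CompleteSpace H]

/-- The Fourier combination of the prefixing isometries. -/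
def top (T : Tup (H →L[ℂ] H)) (i : Letter) : H →L[ℂ] H :=
  (1 / 4913 : ℂ) • mix (fun j => chr (dot j i)) T.S

/-- The phase of a generator at a first letter. -/
def phase0 (g : Fin 4) (i : Letter) : ℂ := if g = 3 then chr i.2.2 else 1

theorem card_letter : Fintype.card Letter = 4913 := by
  simp [Fintype.card_prod, ZMod.card]

theorem norm_S_le {δ : ℝ} (hδ : δ ≤ 1) {T : Tup (H →L[ℂ] H)} (hT : Near δ T) (j : Letter) :
    ‖T.S j‖ ≤ 2 :=
  norm_le_two hδ (by simpa [dev] using hT (.isom j j))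

theorem norm_Y_le {δ : ℝ} (hδ : δ ≤ 1) {T : Tup (H →L[ℂ] H)} (hT : Near δ T) (g : Fin 4) :
    ‖T.Y g‖ ≤ 2 :=
  norm_le_two hδ (hT (.unitL g))

theorem inner_S_S {δ : ℝ} {T : Tup (H →L[ℂ] H)} (hT : Near δ T) (j k : Letter) (u : H) :
    ‖inner ℂ (T.S j u) (T.S k u) - (if j = k then (‖u‖ : ℂ) ^ 2 else 0)‖ ≤ δ * ‖u‖ ^ 2 := by
  have e : inner ℂ (T.S j u) (T.S k u) - (if j = k then (‖u‖ : ℂ) ^ 2 else 0)
      = inner ℂ u ((star (T.S j) * T.S k - if j = k then 1 else 0) u) := by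
    rw [sub_apply, mul_apply_eq_comp, inner_sub_right, ContinuousLinearMap.star_eq_adjoint,
      ContinuousLinearMap.adjoint_inner_right]
    split_ifs <;> simp [inner_self_eq_norm_sq_to_K]
  rw [e]
  refine (norm_inner_le_norm _ _).trans ?_
  calc ‖u‖ * ‖(star (T.S j) * T.S k - if j = k then 1 else 0) u‖
      ≤ ‖u‖ * (δ * ‖u‖) := by
        gcongr
        exact ContinuousLinearMap.le_of_opNorm_le _ (hT (.isom j k)) u
    _ = δ * ‖u‖ ^ 2 := by ring

theorem abs_norm_S_sq {δ : ℝ} {T : Tup (H →L[ℂ] H)} (hT : Near δ T) (j : Letter) (u : H) :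
    |‖T.S j u‖ ^ 2 - ‖u‖ ^ 2| ≤ δ * ‖u‖ ^ 2 := by
  refine le_trans (le_of_eq ?_) (inner_S_S hT j j u)
  rw [if_pos rfl, inner_self_eq_norm_sq_to_K, ← Real.norm_eq_abs, ← Complex.norm_real]
  norm_num

omit [CompleteSpace H] in
theorem sum_norm_top_sq (T : Tup (H →L[ℂ] H)) (u : H) :
    ∑ i, ‖top T i u‖ ^ 2 = (1 / 4913) * ∑ j, ‖T.S j u‖ ^ 2 := by
  have h := parseval (fun i j => chr (dot j i)) 4913 (fun j k => ?_) (fun j => T.S j u)
  · have e : ∀ i, ‖top T i u‖ ^ 2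
        = (1 / 4913) ^ 2 * ‖∑ j, chr (dot j i) • T.S j u‖ ^ 2 := fun i => by
      rw [top, smul_apply, mix_apply, norm_sq_smul_sum]
      norm_num
    rw [Finset.sum_congr rfl fun i _ => e i, ← Finset.mul_sum, h]
    ring
  · have : ∀ i, starRingEnd ℂ (chr (dot j i)) * chr (dot k i) = chr (dot (k - j) i) := fun i => by
      rw [star_chr, ← chr_add]
      congr 1
      simp [dot]
      ring
    rw [Finset.sum_congr rfl fun i _ => this i, sum_chr_dot]
    simp [sub_eq_zero, eq_comm]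

theorem sum_norm_top_bounds {δ : ℝ} {T : Tup (H →L[ℂ] H)} (hT : Near δ T) (u : H) :
    (1 - δ) * ‖u‖ ^ 2 ≤ ∑ i, ‖top T i u‖ ^ 2 ∧ ∑ i, ‖top T i u‖ ^ 2 ≤ (1 + δ) * ‖u‖ ^ 2 := by
  rw [sum_norm_top_sq]
  have h1 : ∑ _j : Letter, (1 - δ) * ‖u‖ ^ 2 ≤ ∑ j, ‖T.S j u‖ ^ 2 :=
    Finset.sum_le_sum fun j _ => by linarith [(abs_le.1 (abs_norm_S_sq hT j u)).1]
  have h2 : ∑ j, ‖T.S j u‖ ^ 2 ≤ ∑ _j : Letter, (1 + δ) * ‖u‖ ^ 2 :=
    Finset.sum_le_sum fun j _ => by linarith [(abs_le.1 (abs_norm_S_sq hT j u)).2]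
  rw [Finset.sum_const, Finset.card_univ, card_letter, nsmul_eq_mul] at h1 h2
  push_cast at h1 h2
  constructor <;> linarith

theorem norm_top_zero_sq {δ : ℝ} (hδ : 0 ≤ δ) {T : Tup (H →L[ℂ] H)} (hT : Near δ T) (u : H) :
    ‖top T 0 u‖ ^ 2 ≤ (2 / 4913 + δ) * ‖u‖ ^ 2 := by
  have h := norm_sum_sq_le' (fun j => T.S j u) (‖u‖ ^ 2) (δ * ‖u‖ ^ 2) (sq_nonneg _) fun j k => by
    have := inner_S_S hT j k u
    push_cast
    exact this
  rw [card_letter] at h
  have : ∀ j, chr (dot j 0) = 1 := fun j => by simp [dot, chr_zero]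
  rw [top, smul_apply, mix_apply, norm_sq_smul_sum]
  simp only [this, one_smul]
  have h0 : ‖(1 / 4913 : ℂ)‖ ^ 2 = (1 / 4913) ^ 2 := by norm_num
  rw [h0]
  push_cast at h
  nlinarith [sq_nonneg ‖u‖]

omit [CompleteSpace H] in
theorem norm_pow_sub_le (A : H →L[ℂ] H) (hA : ‖A‖ ≤ 2) (c : ℂ) (hc : ‖c‖ = 1) (x : H) (k : ℕ) :
    ‖(A ^ k) x - c ^ k • x‖ ≤ (2 ^ k - 1) * ‖A x - c • x‖ := by
  induction k with
  | zero => simp
  | succ k ih =>
    have e : (A ^ (k + 1)) x - c ^ (k + 1) • x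
        = A ((A ^ k) x - c ^ k • x) + c ^ k • (A x - c • x) := by
      rw [pow_succ' A, mul_apply_eq_comp, map_sub, map_smul, smul_sub, smul_smul, pow_succ c]
      abel
    rw [e]
    refine (norm_add_le _ _).trans ?_
    rw [norm_smul, norm_pow, hc, one_pow, one_mul, pow_succ]
    have := ContinuousLinearMap.le_of_opNorm_le _ hA ((A ^ k) x - c ^ k • x)
    linarith

theorem sect_error {δ : ℝ} (hδ : δ ≤ 1) {T : Tup (H →L[ℂ] H)} (hT : Near δ T) (g : Fin 4)
    (j : Letter) (w : K) (u u' : H) (h3 : g = 3 → u' = u) :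
    ‖sect T.Y g j u - (if g = 2 then chr (-(j.1 * w)) else 1) • u'‖
      ≤ 2 ^ 17 * ((if g = 3 then 0 else ‖T.Y g u - u'‖)
        + if g = 2 then ‖chr w • T.Y 3 u' - u'‖ else 0) := by
  obtain rfl | rfl | rfl | rfl : g = 0 ∨ g = 1 ∨ g = 2 ∨ g = 3 := by fin_cases g <;> simp
  · simp only [sect, if_neg (show ¬ (0 : Fin 4) = 2 by decide),
      if_neg (show ¬ (0 : Fin 4) = 3 by decide), one_smul, add_zero]
    linarith [norm_nonneg (T.Y 0 u - u')]
  · simp only [sect, if_neg (show ¬ (1 : Fin 4) = 2 by decide),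
      if_neg (show ¬ (1 : Fin 4) = 3 by decide), one_smul, add_zero]
    linarith [norm_nonneg (T.Y 1 u - u')]
  · simp only [sect, if_neg (show ¬ (2 : Fin 4) = 3 by decide), if_true, mul_apply_eq_comp]
    set c := chr (-w)
    have hc : ‖c‖ = 1 := norm_chr _
    have hck : chr (-(j.1 * w)) = c ^ j.1.val := by
      rw [← chr_nsmul, nsmul_eq_mul, ZMod.natCast_zmod_val, mul_neg]
    have hA := norm_Y_le hδ hT 3
    have h1 : ‖T.Y 3 u' - c • u'‖ = ‖chr w • T.Y 3 u' - u'‖ := by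
      have : chr w • T.Y 3 u' - u' = chr w • (T.Y 3 u' - c • u') := by
        rw [smul_sub, smul_smul, ← chr_add, add_neg_cancel, chr_zero, one_smul]
      rw [this, norm_smul, norm_chr, one_mul]
    have h2 : ‖(T.Y 3 ^ j.1.val) (T.Y 2 u - u')‖ ≤ 2 ^ j.1.val * ‖T.Y 2 u - u'‖ := by
      refine ContinuousLinearMap.le_of_opNorm_le _ ?_ _
      rcases Nat.eq_zero_or_pos j.1.val with h0 | h0
      · rw [h0, pow_zero, pow_zero]
        exact ContinuousLinearMap.norm_id_le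
      · exact (norm_pow_le' _ h0).trans (pow_le_pow_left₀ (norm_nonneg _) hA _)
    have h3' := norm_pow_sub_le (T.Y 3) hA c hc u' j.1.val
    have hp : (2 : ℝ) ^ j.1.val ≤ 2 ^ 17 :=
      pow_le_pow_right₀ (by norm_num) (ZMod.val_lt j.1).le
    rw [hck, show (T.Y 3 ^ j.1.val) (T.Y 2 u) - c ^ j.1.val • u'
      = (T.Y 3 ^ j.1.val) (T.Y 2 u - u') + ((T.Y 3 ^ j.1.val) u' - c ^ j.1.val • u') by
        rw [map_sub]; abel]
    refine (norm_add_le _ _).trans ?_
    rw [h1] at h3'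
    have q1 := mul_le_mul_of_nonneg_right hp (norm_nonneg (T.Y 2 u - u'))
    have q2 := mul_le_mul_of_nonneg_right hp (norm_nonneg (chr w • T.Y 3 u' - u'))
    linarith [norm_nonneg (chr w • T.Y 3 u' - u')]
  · simp only [sect, if_neg (show ¬ (3 : Fin 4) = 2 by decide), if_true, one_smul,
      one_apply_eq_self, h3 rfl, sub_self, norm_zero]
    positivity

theorem sum_sig (g : Fin 4) (i : Letter) (w : K) {M : Type*} [AddCommGroup M] [Module ℂ M]
    (f : Letter → M) :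
    phase0 g i • ∑ j, (chr (dot j i) * (if g = 2 then chr (-(j.1 * w)) else 1)) • f (sig g j)
      = ∑ j, chr (dot j (move0 g i w)) • f j := by
  have hbij : Function.Bijective (sig g) := by
    refine Finite.injective_iff_bijective.1 fun a b h => ?_
    fin_cases g <;> simp [sig, Prod.ext_iff] at h ⊢ <;> aesop
  rw [← hbij.sum_comp (fun j => chr (dot j (move0 g i w)) • f j), Finset.smul_sum]
  refine Finset.sum_congr rfl fun j _ => ?_
  rw [smul_smul]
  congr 1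
  fin_cases g <;> simp [phase0, sig, move0, dot, ← chr_add] <;> congr 1 <;> ring

theorem point_error {δ : ℝ} (hδ : δ ≤ 1) {T : Tup (H →L[ℂ] H)} (hT : Near δ T) (g : Fin 4)
    (i : Letter) (w : K) (u u' : H) (h3 : g = 3 → u' = u) :
    ‖phase0 g i • T.Y g (top T i u) - top T (move0 g i w) u'‖
      ≤ δ * ‖u‖
        + 2 ^ 18 * ((if g = 3 then 0 else ‖T.Y g u - u'‖)
          + if g = 2 then ‖chr w • T.Y 3 u' - u'‖ else 0) := by
  set κ : Letter → ℂ := fun j => if g = 2 then chr (-(j.1 * w)) else 1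
  set E := (if g = 3 then 0 else ‖T.Y g u - u'‖)
    + (if g = 2 then ‖chr w • T.Y 3 u' - u'‖ else 0) with hE
  have hE0 : 0 ≤ E := by rw [hE]; split_ifs <;> positivity
  have e : phase0 g i • T.Y g (top T i u) - top T (move0 g i w) u'
      = (1 / 4913 : ℂ) • (phase0 g i • ∑ j, chr (dot j i) •
          ((T.Y g * T.S j - T.S (sig g j) * sect T.Y g j) u
            + T.S (sig g j) (sect T.Y g j u - κ j • u'))) := by
    rw [← mix_move (T.Y g) (fun j => chr (dot j i)) κ T.S (fun j => T.S (sig g j))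
      (fun j => sect T.Y g j)]
    rw [top, top, smul_apply, smul_apply, mix_apply (fun j => chr (dot j (move0 g i w))),
      ← sum_sig g i w (fun j => T.S j u')]
  rw [e, norm_smul, norm_smul]
  have hp : ‖phase0 g i‖ = 1 := by
    unfold phase0
    split_ifs <;> simp [norm_chr]
  rw [hp, one_mul]
  refine (mul_le_mul_of_nonneg_left (norm_mix_le (fun j => chr (dot j i)) (fun j => norm_chr _) _
    (δ * ‖u‖ + 2 ^ 18 * E) fun j => ?_) (norm_nonneg _)).trans (le_of_eq ?_)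
  · refine (norm_add_le _ _).trans (add_le_add ?_ ?_)
    · exact ContinuousLinearMap.le_of_opNorm_le _ (hT (.move g j)) u
    · refine (ContinuousLinearMap.le_of_opNorm_le _ (norm_S_le hδ hT _) _).trans ?_
      have := sect_error hδ hT g j w u u' h3
      rw [← hE] at this
      linarith
  · rw [card_letter]
    norm_num
    ring

/-- The supported vectors. -/
def suppSub (n : ℕ) : Submodule ℂ (Vec n H) where
  carrier := {v | ∀ ξ, ¬ Supp ξ → v ξ = 0}
  add_mem' := fun hv hw ξ hξ => by simp [hv ξ hξ, hw ξ hξ]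
  zero_mem' := fun ξ _ => by simp
  smul_mem' := fun c v hv ξ hξ => by simp [hv ξ hξ]

theorem zop_mem (n : ℕ) (Y : Fin 4 → (H →L[ℂ] H)) (g : Fin 4) (v : Vec n H)
    (hv : v ∈ suppSub (H := H) n) : zop n Y g v ∈ suppSub (H := H) n := by
  intro ξ hξ
  obtain ⟨ζ, rfl⟩ := (qperm g).surjective ξ
  rw [zop_apply, hv ζ (fun h => hξ ((supp_qperm g ζ).2 h)), map_zero, smul_zero]

omit [InnerProductSpace ℂ H] [CompleteSpace H] in
theorem vec_norm_sq {n : ℕ} (v : Vec n H) : ‖v‖ ^ 2 = ∑ ξ, ‖v ξ‖ ^ 2 :=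
  PiLp.norm_sq_eq_of_L2 _ v

theorem norm_zop_sub_sq {n : ℕ} (Y : Fin 4 → (H →L[ℂ] H)) (g : Fin 4) (v : Vec n H) :
    ‖zop n Y g v - v‖ ^ 2 = ∑ ξ, ‖phase g ξ • Y g (v ξ) - v (qperm g ξ)‖ ^ 2 := by
  rw [vec_norm_sq, ← (qperm g).sum_comp]
  simp [zop_apply]

theorem sum_cons {n : ℕ} {α M : Type*} [Fintype α] [AddCommMonoid M]
    (f : (Fin (n + 1) → α) → M) :
    ∑ ξ, f ξ = ∑ i : α, ∑ η : Fin n → α, f (Fin.cons i η) := by
  rw [← Fintype.sum_prod_type' (f := fun i η => f (Fin.cons i η))]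
  exact ((Fin.consEquiv (fun _ : Fin (n + 1) => α)).sum_comp f).symm

theorem sum_sq_bound {ι κ : Type*} [Fintype ι] [Fintype κ] (F : ι → κ → ℝ) (A B : κ → ℝ)
    (e : κ ≃ κ) (V : κ → ℝ) (δ η : ℝ) (hF : ∀ i k, 0 ≤ F i k)
    (h : ∀ i k, F i k ≤ δ * V k + 2 ^ 18 * (A k + B (e k)))
    (hV : ∑ k, V k ^ 2 = 1) (hA : ∑ k, A k ^ 2 ≤ η ^ 2) (hB : ∑ k, B k ^ 2 ≤ η ^ 2) :
    ∑ i, ∑ k, F i k ^ 2 ≤ Fintype.card ι * (3 * (δ ^ 2 + 2 ^ 36 * (η ^ 2 + η ^ 2))) := by
  calc _ ≤ ∑ _i : ι, ∑ k, 3 * (δ ^ 2 * V k ^ 2 + 2 ^ 36 * (A k ^ 2 + B (e k) ^ 2)) := by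
        refine Finset.sum_le_sum fun i _ => Finset.sum_le_sum fun k _ => ?_
        refine (pow_le_pow_left₀ (hF i k) (h i k) 2).trans ?_
        nlinarith [sq_nonneg (δ * V k - 2 ^ 18 * A k), sq_nonneg (δ * V k - 2 ^ 18 * B (e k)),
          sq_nonneg (2 ^ 18 * A k - 2 ^ 18 * B (e k))]
    _ ≤ ∑ _i : ι, 3 * (δ ^ 2 + 2 ^ 36 * (η ^ 2 + η ^ 2)) := by
        refine Finset.sum_le_sum fun i _ => ?_
        rw [← Finset.mul_sum, Finset.sum_add_distrib, ← Finset.mul_sum, ← Finset.mul_sum,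
          Finset.sum_add_distrib, hV, e.sum_comp (fun ζ => B ζ ^ 2), mul_one]
        gcongr
    _ = _ := by simp

theorem sum_sum_bounds {ι κ : Type*} [Fintype ι] [Fintype κ] (F : ι → κ → ℝ) (V : κ → ℝ) (δ : ℝ)
    (h1 : ∀ k, (1 - δ) * V k ≤ ∑ i, F i k) (h2 : ∀ k, ∑ i, F i k ≤ (1 + δ) * V k)
    (hV : ∑ k, V k = 1) : 1 - δ ≤ ∑ i, ∑ k, F i k ∧ ∑ i, ∑ k, F i k ≤ 1 + δ := by
  rw [Finset.sum_comm]
  constructor
  · calc 1 - δ = ∑ k, (1 - δ) * V k := by rw [← Finset.mul_sum, hV, mul_one]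
      _ ≤ _ := Finset.sum_le_sum fun k _ => h1 k
  · calc _ ≤ ∑ k, (1 + δ) * V k := Finset.sum_le_sum fun k _ => h2 k
      _ = 1 + δ := by rw [← Finset.mul_sum, hV, mul_one]

theorem phase_cons {n : ℕ} (g : Fin 4) (i : Letter) (η : Str (n + 1)) :
    phase g (Fin.cons i η : Str (n + 2)) = phase0 g i := by
  simp [phase, phase0, chr]

/-- Prepend a letter through a family of maps. -/
def mkLift {n : ℕ} {α E : Type} (f : α → E → E) (v : PiLp 2 (fun _ : Fin n → α => E)) :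
    PiLp 2 (fun _ : Fin (n + 1) → α => E) :=
  WithLp.toLp 2 fun ξ => f (ξ 0) (v (Fin.tail ξ))

theorem mkLift_cons {n : ℕ} {α E : Type} (f : α → E → E)
    (v : PiLp 2 (fun _ : Fin n → α => E)) (i : α) (η : Fin n → α) :
    mkLift f v (Fin.cons i η) = f i (v η) := by
  simp [mkLift]

theorem mkLift_apply {n : ℕ} {α E : Type} (f : α → E → E)
    (v : PiLp 2 (fun _ : Fin n → α => E)) (ξ : Fin (n + 1) → α) :
    mkLift f v ξ = f (ξ 0) (v (Fin.tail ξ)) := rfl

attribute [irreducible] top mix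

/-- The next vector. -/
def lift1 (T : Tup (H →L[ℂ] H)) {n : ℕ} (v : Vec n H) : Vec (n + 1) H :=
  mkLift (fun j x => top T j x) v

omit [CompleteSpace H] in
theorem mkLift_clm_cons (A : Letter → H →L[ℂ] H) {n : ℕ} (v : Vec n H) (i : Letter)
    (η : Str (n + 1)) : mkLift (fun j x => A j x) v (Fin.cons i η) = A i (v η) :=
  mkLift_cons (n := n + 1) (fun j x => A j x) v i η

omit [CompleteSpace H] in
theorem lift1_cons (T : Tup (H →L[ℂ] H)) {n : ℕ} (v : Vec n H) (i : Letter) (η : Str (n + 1)) :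
    lift1 T v (Fin.cons i η) = top T i (v η) :=
  mkLift_clm_cons (top T) v i η

omit [CompleteSpace H] in
theorem lift1_supp (A : Letter → H →L[ℂ] H) {n : ℕ} (v : Vec n H) (ξ : Str (n + 2))
    (h : v (Fin.tail ξ) = 0) : mkLift (fun j x => A j x) v ξ = 0 := by
  rw [mkLift_apply, h, map_zero]

omit [CompleteSpace H] in
theorem lift1_point (A : Letter → H →L[ℂ] H) (Y : H →L[ℂ] H) (g : Fin 4) {n : ℕ} (v : Vec n H)
    (i : Letter) (η : Str (n + 1)) :
    ‖phase g (Fin.cons i η : Str (n + 2)) • Y (mkLift (fun j x => A j x) v (Fin.cons i η))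
        - mkLift (fun j x => A j x) v (qperm g (Fin.cons i η))‖
      = ‖phase0 g i • Y (A i (v η)) - A (move0 g i (η 0).2.2) (v (qperm g η))‖ := by
  rw [qperm_cons, phase_cons, mkLift_clm_cons, mkLift_clm_cons]

theorem lift1_spec {δ η : ℝ} (hδ0 : 0 ≤ δ) (hδ : δ ≤ 1) {T : Tup (H →L[ℂ] H)} (hT : Near δ T)
    {n : ℕ} (v : Vec n H) (hv : v ∈ suppSub (H := H) n) (hv1 : ‖v‖ = 1)
    (hinv : ∀ g, ‖zop n T.Y g v - v‖ ≤ η) :
    lift1 T v ∈ suppSub (H := H) (n + 1) ∧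
      1 - δ ≤ ‖lift1 T v‖ ^ 2 ∧ ‖lift1 T v‖ ^ 2 ≤ 1 + δ ∧
      ∀ g, ‖zop (n + 1) T.Y g (lift1 T v) - lift1 T v‖ ≤ 2 ^ 27 * (η + δ) := by
  have hη : 0 ≤ η := (norm_nonneg _).trans (hinv 0)
  have hl : ∀ i (η' : Str (n + 1)), lift1 T v (Fin.cons i η') = top T i (v η') := fun i η' =>
    lift1_cons T v i η'
  have hn : ∑ η', ‖v η'‖ ^ 2 = 1 := by rw [← vec_norm_sq, hv1, one_pow]
  have e : ‖lift1 T v‖ ^ 2 = ∑ i : Letter, ∑ η' : Str (n + 1), ‖top T i (v η')‖ ^ 2 :=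
    ((vec_norm_sq (lift1 T v)).trans (sum_cons (fun ξ => ‖lift1 T v ξ‖ ^ 2))).trans
      (Finset.sum_congr rfl fun i _ => Finset.sum_congr rfl fun η' _ =>
        congrArg (fun x => ‖x‖ ^ 2) (hl i η'))
  have hb := sum_sum_bounds (fun i η' => ‖top T i (v η')‖ ^ 2) (fun η' => ‖v η'‖ ^ 2) δ
    (fun k => (sum_norm_top_bounds hT _).1) (fun k => (sum_norm_top_bounds hT _).2) hn
  refine ⟨fun ξ hξ => ?_, e ▸ hb.1, e ▸ hb.2, fun g => ?_⟩
  · have : ¬ Supp (Fin.tail ξ) := by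
      simpa [Supp, Fin.tail, Fin.succ_last] using hξ
    exact lift1_supp (top T) v ξ (hv _ this)
  · set a : Fin 4 → Str (n + 1) → ℝ := fun g ξ => ‖phase g ξ • T.Y g (v ξ) - v (qperm g ξ)‖
    have ha : ∀ g, ∑ ξ, a g ξ ^ 2 ≤ η ^ 2 := fun g => by
      rw [← norm_zop_sub_sq]
      exact pow_le_pow_left₀ (norm_nonneg _) (hinv g) 2
    have hpt : ∀ i η', ‖phase g (Fin.cons i η') • T.Y g (lift1 T v (Fin.cons i η'))
        - lift1 T v (qperm g (Fin.cons i η'))‖
          ≤ δ * ‖v η'‖ + 2 ^ 18 * (a g η' + a 3 (qperm g η')) := by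
      intro i η'
      refine le_trans (le_of_eq (lift1_point (top T) (T.Y g) g v i η')) ?_
      refine (point_error hδ hT g i ((η' 0).2.2) (v η') (v (qperm g η')) ?_).trans ?_
      · rintro rfl
        rfl
      · gcongr
        · split_ifs with hg
          · exact norm_nonneg _
          · simp [a, phase, hg]
        · split_ifs with hg
          · subst hg
            have hq : ∀ ζ : Str (n + 1), qperm 3 ζ = ζ := fun ζ => rfl
            have hw : ((qperm 2 η') 0).2.2 = (η' 0).2.2 := rfl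
            simp [a, hq, phase, chr, hw]
          · exact norm_nonneg _
    have hsq : ∑ ξ, ‖phase g ξ • T.Y g (lift1 T v ξ) - lift1 T v (qperm g ξ)‖ ^ 2
        ≤ (2 ^ 27 * (η + δ)) ^ 2 := by
      refine le_trans (le_of_eq (sum_cons _)) ?_
      refine (sum_sq_bound _ (a g) (a 3) (qperm g) (fun η' => ‖v η'‖) δ η
        (fun i k => norm_nonneg _) hpt hn (ha g) (ha 3)).trans ?_
      rw [card_letter]
      push_cast
      nlinarith [mul_nonneg hη hδ0]
    rw [← norm_zop_sub_sq] at hsq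
    exact (pow_le_pow_iff_left₀ (norm_nonneg _) (by positivity) two_ne_zero).1 hsq

end

end Vale.Agent.P083
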